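import Claimed.Agent.R316.Pack007

/-!
# Row 316 base layer: real Riemannian calculus in ONE chart (`RGeo`), definitions

A `RGeo W` is a raw triple `(U, G, Γ)` on a finite dimensional real normed space `W`:
an open set, a metric tensor and a connection form ("Christoffel symbols", as a bilinear map).
`IsRiem` says that `Γ` is the Levi-Civita connection of `G`.  There is no Koszul formula: `Γ` is
always given explicitly (complex Christoffel symbols in a holomorphic parametrisation, pull-back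
formula for a local diffeomorphism) and is unique (package `BP-G1`).
-/

set_option autoImplicit false
open scoped ContDiff ComplexOrder

namespace Claimed.Agent.R316

variable {W : Type} [NormedAddCommGroup W] [NormedSpace ℝ W]

variable (W) in
/-- raw Riemannian data on an open subset of `W`. -/
structure RGeo where
  /-- the domain -/
  U : Set W
  /-- the metric tensor -/
  G : W → W →L[ℝ] W →L[ℝ] ℝ
  /-- the connection: `∇_a b = D_a b + Γ(a, b)` -/
  Γ : W → W →L[ℝ] W →L[ℝ] W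

namespace RGeo

variable (S : RGeo W)

/-- `Γ` is the Levi-Civita connection of the smooth Riemannian metric `G` on the open set `U`. -/
structure IsRiem : Prop where
  isOpen : IsOpen S.U
  G_smooth : ContDiffOn ℝ ∞ S.G S.U
  Γ_smooth : ContDiffOn ℝ ∞ S.Γ S.U
  G_symm : ∀ x ∈ S.U, ∀ a b, S.G x a b = S.G x b a
  G_pos : ∀ x ∈ S.U, ∀ a, a ≠ 0 → 0 < S.G x a a
  Γ_symm : ∀ x ∈ S.U, ∀ a b, S.Γ x a b = S.Γ x b a
  compat : ∀ x ∈ S.U, ∀ a b c,
    fderiv ℝ S.G x a b c = S.G x (S.Γ x a b) c + S.G x b (S.Γ x a c)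

/-- norm of a tangent vector. -/
noncomputable def nrm (x a : W) : ℝ := Real.sqrt (S.G x a a)

/-- covariant derivative of the vector field `Z` along the curve `c`. -/
noncomputable def covD (c Z : ℝ → W) (t : ℝ) : W :=
  deriv Z t + S.Γ (c t) (deriv c t) (Z t)

/-- `Z` is parallel along `c` on `I`. -/
def IsParallel (c Z : ℝ → W) (I : Set ℝ) : Prop := ∀ t ∈ I, S.covD c Z t = 0

/-- `c` is a (smooth) geodesic on the interval `I`, with values in `U`. -/
def IsGeod (c : ℝ → W) (I : Set ℝ) : Prop :=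
  ContDiffOn ℝ ∞ c I ∧ (∀ t ∈ I, c t ∈ S.U) ∧ ∀ t ∈ I, S.covD c (deriv c) t = 0

/-- covariant derivative of a vector field `Z` on `U` in the direction `a`. -/
noncomputable def nabla (Z : W → W) (x a : W) : W := fderiv ℝ Z x a + S.Γ x a (Z x)

/-- curvature operator `R(a,b)c = ∇_a ∇_b c - ∇_b ∇_a c` (constant coordinate fields). -/
noncomputable def curv (x a b c : W) : W :=
  fderiv ℝ S.Γ x a b c - fderiv ℝ S.Γ x b a c + S.Γ x a (S.Γ x b c) - S.Γ x b (S.Γ x a c)

/-- `Rm(a,b,b,a)`: the sectional curvature numerator of the plane spanned by `a, b`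
(convention of the paper). -/
noncomputable def secNum (x a b : W) : ℝ := S.G x (S.curv x a b b) a

/-- length of a curve on `[a,b]`. -/
noncomputable def length (c : ℝ → W) (a b : ℝ) : ℝ := ∫ t in a..b, S.nrm (c t) (deriv c t)

/-- energy of a curve on `[a,b]`. -/
noncomputable def energy (c : ℝ → W) (a b : ℝ) : ℝ :=
  ∫ t in a..b, S.G (c t) (deriv c t) (deriv c t)

/-- Hessian of a function: `Hess f (a,b) = D²f(a,b) - df(Γ(a,b))`. -/
noncomputable def hess (f : W → ℝ) (x a b : W) : ℝ :=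
  fderiv ℝ (fun y => fderiv ℝ f y b) x a - fderiv ℝ f x (S.Γ x a b)

/-- pull-back of the data by a smooth local diffeomorphism `θ : U' → U`
(`W'` and `W` have the same dimension; `(fderiv θ x).inverse` is the inverse linear map). -/
noncomputable def pull {W' : Type} [NormedAddCommGroup W'] [NormedSpace ℝ W']
    (θ : W' → W) (U' : Set W') : RGeo W' where
  U := U'
  G := fun x => (S.G (θ x)).bilinearComp (fderiv ℝ θ x) (fderiv ℝ θ x)
  Γ := fun x =>
    (ContinuousLinearMap.compL ℝ W' W W' (fderiv ℝ θ x).inverse).comp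
      (fderiv ℝ (fderiv ℝ θ) x +
        (S.Γ (θ x)).bilinearComp (fderiv ℝ θ x) (fderiv ℝ θ x))

end RGeo

section Kahler

variable {V : Type} [NormedAddCommGroup V] [NormedSpace ℝ V]
variable {ι : Type} [Fintype ι] [DecidableEq ι]

/-- the real bilinear form `Re (aᴴ A b)` of a matrix. -/
noncomputable def reForm (A : Matrix ι ι ℂ) (a b : CE ι) : ℝ :=
  (star (a : ι → ℂ) ⬝ᵥ A.mulVec (b : ι → ℂ)).re

/-- complex Christoffel symbols of a Hermitian matrix function `H` (column convention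
`h_{j \bar l} = H l j`): `Γ(a,b)^k = ∑ h^{k \bar l} ∂_i h_{j \bar l} a^i b^j`. -/
noncomputable def chris (H : CE ι → Matrix ι ι ℂ) (z a b : CE ι) : CE ι :=
  WithLp.toLp 2 fun k => ∑ l, ∑ i, ∑ j, (H z)⁻¹ k l * dz i (fun y => H y l j) z * a i * b j

/-- turn a real bilinear function on finite dimensional spaces into a continuous bilinear map. -/
noncomputable def mkBil {A B C : Type} [NormedAddCommGroup A] [NormedSpace ℝ A]
    [NormedAddCommGroup B] [NormedSpace ℝ B] [NormedAddCommGroup C] [NormedSpace ℝ C]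
    [FiniteDimensional ℝ A] [FiniteDimensional ℝ B]
    (f : A →ₗ[ℝ] B →ₗ[ℝ] C) : A →L[ℝ] B →L[ℝ] C :=
  LinearMap.toContinuousLinearMap
    ((LinearMap.toContinuousLinearMap : (B →ₗ[ℝ] C) ≃ₗ[ℝ] (B →L[ℝ] C)).toLinearMap ∘ₗ f)

theorem mkBil_apply {A B C : Type} [NormedAddCommGroup A] [NormedSpace ℝ A]
    [NormedAddCommGroup B] [NormedSpace ℝ B] [NormedAddCommGroup C] [NormedSpace ℝ C]
    [FiniteDimensional ℝ A] [FiniteDimensional ℝ B]
    (f : A →ₗ[ℝ] B →ₗ[ℝ] C) (a : A) (b : B) : mkBil f a b = f a b := rfl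

/-- `reForm` as a bilinear map. -/
noncomputable def reFormₗ (A : Matrix ι ι ℂ) : CE ι →ₗ[ℝ] CE ι →ₗ[ℝ] ℝ :=
  LinearMap.mk₂ ℝ (reForm A)
    (by intro a a' b; simp [reForm, add_dotProduct])
    (by intro c a b; simp [reForm, smul_dotProduct, star_smul])
    (by intro a b b'; simp [reForm, Matrix.mulVec_add, dotProduct_add])
    (by intro c a b; simp [reForm, Matrix.mulVec_smul, dotProduct_smul])

/-- `chris` as a (real) bilinear map. -/
noncomputable def chrisₗ (H : CE ι → Matrix ι ι ℂ) (z : CE ι) : CE ι →ₗ[ℝ] CE ι →ₗ[ℝ] CE ι :=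
  LinearMap.mk₂ ℝ (chris H z)
    (by intro a a' b; ext k; simp [chris, mul_add, add_mul, Finset.sum_add_distrib])
    (by
      intro c a b; ext k
      simp only [chris, PiLp.smul_apply, Complex.real_smul, Finset.mul_sum]
      refine Finset.sum_congr rfl fun l _ => Finset.sum_congr rfl fun i _ =>
        Finset.sum_congr rfl fun j _ => ?_
      ring)
    (by intro a b b'; ext k; simp [chris, mul_add, Finset.sum_add_distrib])
    (by
      intro c a b; ext k
      simp only [chris, PiLp.smul_apply, Complex.real_smul, Finset.mul_sum]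
      refine Finset.sum_congr rfl fun l _ => Finset.sum_congr rfl fun i _ =>
        Finset.sum_congr rfl fun j _ => ?_
      ring)

/-- the Riemannian data of a Hermitian matrix function `H` on `U ⊆ ℂ^ι`
(Levi-Civita if `H` is Kaehler): `G(a,b) = Re (aᴴ H b)`, `Γ` = complex Christoffel symbols. -/
noncomputable def matGeo (H : CE ι → Matrix ι ι ℂ) (U : Set (CE ι)) : RGeo (CE ι) where
  U := U
  G := fun z => mkBil (reFormₗ (H z))
  Γ := fun z => mkBil (chrisₗ H z)

/-- the Riemannian data of the metric family `h` in the parametrisation `Φ : U → M`. -/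
noncomputable def kgeo (h : HFam V ι) (Φ : CE ι → V) (U : Set (CE ι)) : RGeo (CE ι) :=
  matGeo (h Φ) U

/-- `γ` (an ambient curve) is a geodesic of `(𝓜, h)` on the interval `I`: it is smooth, stays in
the carrier, and in every holomorphic parametrisation its coordinate curve solves the geodesic
equation. -/
def IsGeodesic (𝓜 : CMfd V ι) (h : HFam V ι) (γ : ℝ → V) (I : Set ℝ) : Prop :=
  ContDiffOn ℝ ∞ γ I ∧ (∀ t ∈ I, γ t ∈ 𝓜.carrier) ∧
  ∀ (Φ : CE ι → V) (U : Set (CE ι)), 𝓜.IsHol Φ U → ∀ (c : ℝ → CE ι) (I' : Set ℝ), I' ⊆ I →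
    IsOpen I' → (∀ t ∈ I', c t ∈ U ∧ Φ (c t) = γ t) → (kgeo h Φ U).IsGeod c I'

/-- the real bilinear form of `h` on ambient tangent vectors (polarisation of `ambQ`). -/
noncomputable def ambB (𝓜 : CMfd V ι) (h : HFam V ι) (x a b : V) : ℝ :=
  reForm (h (𝓜.pΦ x) (𝓜.co x)) (coVec (𝓜.pΦ x) (𝓜.co x) a) (coVec (𝓜.pΦ x) (𝓜.co x) b)

/-- unit speed minimizing geodesic from `x` to `y` on `[0,l]` (a geodesic on a slightly larger
open interval, so that `deriv` is meaningful at the end points). -/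
def IsMinGeod (𝓜 : CMfd V ι) (h : HFam V ι) (γ : ℝ → V) (x y : V) (l : ℝ) : Prop :=
  (∃ ε > 0, IsGeodesic 𝓜 h γ (Set.Ioo (-ε) (l + ε))) ∧ γ 0 = x ∧ γ l = y ∧
  l = hdist 𝓜 h x y ∧
  ∀ s ∈ Set.Icc (0 : ℝ) l, ∀ t ∈ Set.Icc (0 : ℝ) l, hdist 𝓜 h (γ s) (γ t) = |s - t|

/-- a ray from `o`. -/
def IsRay (𝓜 : CMfd V ι) (h : HFam V ι) (γ : ℝ → V) (o : V) : Prop :=
  (∃ ε > 0, IsGeodesic 𝓜 h γ (Set.Ioi (-ε))) ∧ γ 0 = o ∧
  ∀ s ∈ Set.Ici (0 : ℝ), ∀ t ∈ Set.Ici (0 : ℝ), hdist 𝓜 h (γ s) (γ t) = |s - t|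

end Kahler

end Claimed.Agent.R316
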