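import Claimed.Agent.R316.Base.RGeo.Exp

/-!
# `BP-G1` part 7: Jacobi fields in one chart, Rauch type `C⁰` bounds

Architect: helper294.  Consumer: `BP-G14` (uniform charts).

Leaves
* `G1-JAC-A` = section 1 (Jacobi equation of a family of geodesics; the Jacobi fields of `rexp`).
* `G1-JAC-B` = sections 2, 3 (components in a parallel frame, bounds through `ODE.jacobi_bounds`, bounds of `d rexp`).

PLANS.
* `isJacobi_of_family`: with `T = D f (0,1)`, `V = D f (e,0)`, `∇_σ = covP f · (0,1)`, `∇_e = covP f · (e,0)`: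
  `∇_σ∇_σ V = ∇_σ∇_e T` (`covP_symm`, at all points near `(p,σ)`, `covP_congr`) `= ∇_e∇_σ T + R(T,V)T` (`covP_covP_sub`) and `∇_σ T = 0` on `O ×ˢ J` (geodesics, `covD_slice`,
  `deriv_slice`), so `∇_e∇_σ T = 0` (`covP` of a field vanishing near the point); `R(T,V)T = - R(V,T)T` (`curv_antisymm`).  Back to `covD` by `covD_slice`.
* `isJacobi_rexp`: the family `f (u, t) = rexp x (t • (v + u • w))`, `P = ℝ`, on `Ioo (-δ) δ ×ˢ Ioo (-ε) (1+ε)` (`isOpen_expDom` + tube lemma); `D f (1,0) (0,t) = fderiv (rexp x) (t • v) (t • w)`;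
  `covD c V 0 = w`: `V t = t • fderiv (rexp x) (t • v) w`, so `deriv V 0 = fderiv (rexp x) 0 w = w`, `V 0 = 0`.
* `IsJacobi.components`: `covD_eq_sum_frame` twice: `G(∇∇V, E i) = (G(V, E i))''`; expand `V = ∑ v_j E_j` in the curvature (`curvL` linear).
* `IsJacobi.bounds`: take a parallel frame (`exists_frame`, `exists_parallel_frame`, `κ = Fin (finrank ℝ W)`), `x t = (v_i t)_i`, `y t = (v_i' t)_i` in `EuclideanSpace ℝ κ`;
  `‖x t‖ = nrm (c t) (V t)` (`IsFrame.G_eq_sum`), `R t` = the matrix `G(R(E_j,c')c',E_i)` as a continuous linear map; `‖R t‖ ≤ k²` from `IsRiem.nrm_curv_le`; `ODE.jacobi_bounds`.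
  `A t = ∑ v_i(0) E_i t`, `B t = ∑ v_i'(0) E_i t` by `isParallel_eqOn`.
-/

set_option autoImplicit false
set_option linter.unusedSectionVars false
set_option linter.deprecated false
set_option maxSynthPendingDepth 3
open scoped ContDiff Topology

namespace Claimed.Agent.R316
namespace RGeo

variable {W : Type} [NormedAddCommGroup W] [NormedSpace ℝ W] [FiniteDimensional ℝ W]
variable {S : RGeo W} {x v w : W} {c V : ℝ → W} {I : Set ℝ} {t : ℝ}

/-! ### 1. the Jacobi equation -/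

/-- `V` is a (smooth) Jacobi field along `c` on `I`: `∇∇V + R(V,c')c' = 0`. -/
def IsJacobi (S : RGeo W) (c V : ℝ → W) (I : Set ℝ) : Prop :=
  ContDiffOn ℝ ∞ V I ∧
    ∀ t ∈ I, S.covD c (S.covD c V) t + S.curv (c t) (V t) (deriv c t) (deriv c t) = 0

theorem IsJacobi.mono {I' : Set ℝ} (h : S.IsJacobi c V I) (hsub : I' ⊆ I) : S.IsJacobi c V I' :=
  ⟨h.1.mono hsub, fun t ht => h.2 t (hsub ht)⟩

theorem IsJacobi.congr {V' : ℝ → W} (h : S.IsJacobi c V I) (hI : IsOpen I) (hV : Set.EqOn V' V I) :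
    S.IsJacobi c V' I := by
  have hev : ∀ t ∈ I, V' =ᶠ[𝓝 t] V := fun t ht => by
    filter_upwards [hI.mem_nhds ht] with r hr using hV hr
  have hcov : ∀ t ∈ I, S.covD c V' t = S.covD c V t := fun t ht =>
    S.covD_congr (Filter.EventuallyEq.refl _ _) (hev t ht)
  refine ⟨h.1.congr hV, fun t ht => ?_⟩
  have h2 : S.covD c V' =ᶠ[𝓝 t] S.covD c V := by
    filter_upwards [hI.mem_nhds ht] with r hr using hcov r hr
  rw [S.covD_congr (Filter.EventuallyEq.refl _ _) h2, hV ht]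
  exact h.2 t ht

/-- **the variation field of a family of geodesics is a Jacobi field.** -/
theorem IsRiem.isJacobi_of_family {P : Type*} [NormedAddCommGroup P] [NormedSpace ℝ P]
    (hS : S.IsRiem) {f : P × ℝ → W} {O : Set P} {J : Set ℝ} (hO : IsOpen O) (hJ : IsOpen J)
    (hf : ContDiffOn ℝ ∞ f (O ×ˢ J)) (hgeo : ∀ p ∈ O, S.IsGeod (fun σ => f (p, σ)) J) {p : P}
    (hp : p ∈ O) (e : P) :
    S.IsJacobi (fun σ => f (p, σ)) (fun σ => fderiv ℝ f (p, σ) (e, 0)) J := by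
  have hΩ : IsOpen (O ×ˢ J) := hO.prod hJ
  have hfa : ∀ q ∈ O ×ˢ J, ContDiffAt ℝ ∞ f q := fun q hq => hf.contDiffAt (hΩ.mem_nhds hq)
  have hfd : ∀ q ∈ O ×ˢ J, DifferentiableAt ℝ f q := fun q hq => (hfa q hq).differentiableAt (by simp)
  have hf2 : ∀ q ∈ O ×ˢ J, ContDiffAt ℝ 2 f q := fun q hq => (hfa q hq).of_le (by norm_cast)
  have hfU : ∀ q ∈ O ×ˢ J, f q ∈ S.U := fun q hq => (hgeo q.1 hq.1).2.1 q.2 hq.2
  have hDs : ∀ e' : P × ℝ, ContDiffOn ℝ ∞ (fun q => fderiv ℝ f q e') (O ×ˢ J) := fun e' =>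
    (hf.fderiv_of_isOpen hΩ (by simp)).clm_apply contDiffOn_const
  have hDd : ∀ e' : P × ℝ, ∀ q ∈ O ×ˢ J, DifferentiableAt ℝ (fun q => fderiv ℝ f q e') q :=
    fun e' q hq => ((hDs e').contDiffAt (hΩ.mem_nhds hq)).differentiableAt (by simp)
  have hslice : ∀ p' ∈ O, ∀ σ ∈ J, deriv (fun r => f (p', r)) σ = fderiv ℝ f (p', σ) (0, 1) :=
    fun p' hp' σ hσ => deriv_slice (hfd _ ⟨hp', hσ⟩)
  -- `∇_σ T = 0`
  have hT0 : ∀ q ∈ O ×ˢ J, S.covP f (fun q => fderiv ℝ f q (0, 1)) q (0, 1) = 0 := by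
    rintro ⟨p', σ⟩ ⟨hp', hσ⟩
    rw [← S.covD_slice (hfd _ ⟨hp', hσ⟩) (hDd (0, 1) _ ⟨hp', hσ⟩), ← (hgeo p' hp').2.2 σ hσ]
    refine S.covD_congr (Filter.EventuallyEq.refl _ _) ?_
    filter_upwards [hJ.mem_nhds hσ] with r hr using (hslice p' hp' r hr).symm
  have hYs : ContDiffOn ℝ ∞ (fun q => S.covP f (fun q => fderiv ℝ f q (e, 0)) q (0, 1)) (O ×ˢ J) :=
    hS.contDiffOn_covP hΩ hf hfU (hDs (e, 0)) (0, 1)
  refine ⟨(hDs (e, 0)).comp (contDiffOn_const.prodMk contDiffOn_id) (fun σ hσ => ⟨hp, hσ⟩),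
    fun σ hσ => ?_⟩
  have hq : (p, σ) ∈ O ×ˢ J := ⟨hp, hσ⟩
  have e1 : S.covD (fun σ => f (p, σ)) (fun σ => fderiv ℝ f (p, σ) (e, 0)) =ᶠ[𝓝 σ]
      fun r => S.covP f (fun q => fderiv ℝ f q (e, 0)) (p, r) (0, 1) := by
    filter_upwards [hJ.mem_nhds hσ] with r hr
    exact S.covD_slice (hfd _ ⟨hp, hr⟩) (hDd (e, 0) _ ⟨hp, hr⟩)
  rw [S.covD_congr (Filter.EventuallyEq.refl _ _) e1,
    S.covD_slice (Z := fun q => S.covP f (fun q => fderiv ℝ f q (e, 0)) q (0, 1)) (hfd _ hq)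
      ((hYs.contDiffAt (hΩ.mem_nhds hq)).differentiableAt (by simp))]
  have e2 : (fun q => S.covP f (fun q => fderiv ℝ f q (e, 0)) q (0, 1)) =ᶠ[𝓝 (p, σ)]
      fun q => S.covP f (fun q => fderiv ℝ f q (0, 1)) q (e, 0) := by
    filter_upwards [hΩ.mem_nhds hq] with q' hq'
    exact hS.covP_symm (hfU q' hq') (hf2 q' hq') (0, 1) (e, 0)
  rw [S.covP_congr (Filter.EventuallyEq.refl _ _) e2]
  have e3 := hS.covP_covP_sub (f := f) (Z := fun q => fderiv ℝ f q (0, 1)) (hfU _ hq) (hf2 _ hq)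
    (((hDs (0, 1)).contDiffAt (hΩ.mem_nhds hq)).of_le (by norm_cast)) (0, 1) (e, 0)
  have e4 : S.covP f (fun q => S.covP f (fun q => fderiv ℝ f q (0, 1)) q (0, 1)) (p, σ) (e, 0) = 0 := by
    have h0 : (fun q => S.covP f (fun q => fderiv ℝ f q (0, 1)) q (0, 1)) =ᶠ[𝓝 (p, σ)] fun _ => (0 : W) := by
      filter_upwards [hΩ.mem_nhds hq] with q' hq' using hT0 q' hq'
    rw [S.covP_congr (Filter.EventuallyEq.refl _ _) h0]
    simp [covP]
  rw [e4, sub_zero] at e3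
  rw [e3, hslice p hp σ hσ, S.curv_antisymm]
  exact neg_add_cancel _

/-- radial curves are geodesics on every set of admissible times. -/
theorem IsRiem.isGeod_rexp_of_subset (hS : S.IsRiem) {J : Set ℝ}
    (hsub : J ⊆ {t | (t, (x, v)) ∈ S.gdm}) : S.IsGeod (fun r : ℝ => S.rexp x (r • v)) J := by
  have hg := (IsRiem.isGeod_gfl hS x v).mono hsub
  refine ⟨hg.1.congr fun r hr => IsRiem.rexp_smul hS (hsub hr), fun r hr => ?_, fun r hr => ?_⟩
  · show S.rexp x (r • v) ∈ S.U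
    rw [IsRiem.rexp_smul hS (hsub hr)]
    exact hg.2.1 r hr
  · have e1 := hS.rexp_smul_eventuallyEq (hsub hr)
    rw [S.covD_congr e1 e1.deriv]
    exact hg.2.2 r hr

/-- the Jacobi fields `t ↦ d(exp_x)_{tv}(t w)`. -/
theorem IsRiem.isJacobi_rexp (hS : S.IsRiem) (h : (x, v) ∈ S.expDom) (w : W) :
    ∃ ε > 0, S.IsGeod (fun r : ℝ => S.rexp x (r • v)) (Set.Ioo (-ε) (1 + ε)) ∧
      S.IsJacobi (fun r : ℝ => S.rexp x (r • v))
        (fun r : ℝ => fderiv ℝ (S.rexp x) (r • v) (r • w)) (Set.Ioo (-ε) (1 + ε)) ∧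
      S.covD (fun r : ℝ => S.rexp x (r • v))
        (fun r : ℝ => fderiv ℝ (S.rexp x) (r • v) (r • w)) 0 = w := by
  have hx : x ∈ S.U := mem_U_of_mem_expDom h
  obtain ⟨ε₀, hε₀, hdom₀, -, -, -⟩ := hS.isGeod_rexp h
  obtain ⟨ε, hε⟩ : ∃ ε : ℝ, ε = ε₀ / 2 := ⟨_, rfl⟩
  have hεpos : 0 < ε := by rw [hε]; positivity
  have hm1 : (1 + ε, (x, v)) ∈ S.gdm :=
    mem_expDom_iff.1 (hdom₀ _ ⟨by linarith, by rw [hε]; linarith⟩)
  have hm0 : (-ε, (x, v)) ∈ S.gdm :=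
    mem_expDom_iff.1 (hdom₀ _ ⟨by rw [hε]; linarith, by linarith⟩)
  have hcont : ∀ τ : ℝ, Continuous (fun u : ℝ => ((τ, (x, v + u • w)) : ℝ × W × W)) := fun τ => by
    fun_prop
  have hev : ∀ τ : ℝ, (τ, (x, v)) ∈ S.gdm → ∀ᶠ u : ℝ in 𝓝 0, (τ, (x, v + u • w)) ∈ S.gdm := by
    intro τ hτ
    refine (hcont τ).continuousAt.eventually_mem (hS.isOpen_gdm.mem_nhds ?_)
    simpa using hτ
  obtain ⟨δ, hδ, hball⟩ := Metric.mem_nhds_iff.1 ((hev _ hm1).and (hev _ hm0))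
  have hmem : ∀ u ∈ Metric.ball (0 : ℝ) δ, ∀ r ∈ Set.Ioo (-ε) (1 + ε), (r, (x, v + u • w)) ∈ S.gdm :=
    fun u hu r hr => (ordConnected_gdm_times S x (v + u • w)).out (hball hu).2 (hball hu).1
      ⟨hr.1.le, hr.2.le⟩
  have hgs : ContDiff ℝ ∞ (fun q : ℝ × ℝ => ((x, q.2 • (v + q.1 • w)) : W × W)) :=
    contDiff_const.prodMk (contDiff_snd.smul (contDiff_const.add (contDiff_fst.smul contDiff_const)))
  have hf : ContDiffOn ℝ ∞ (fun q : ℝ × ℝ => S.rexp x (q.2 • (v + q.1 • w)))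
      (Metric.ball (0 : ℝ) δ ×ˢ Set.Ioo (-ε) (1 + ε)) :=
    hS.contDiffOn_rexp.comp hgs.contDiffOn (fun q hq => mem_expDom_iff.2 (hmem q.1 hq.1 q.2 hq.2))
  have hJ := hS.isJacobi_of_family (f := fun q : ℝ × ℝ => S.rexp x (q.2 • (v + q.1 • w)))
    Metric.isOpen_ball isOpen_Ioo hf
    (fun u hu => hS.isGeod_rexp_of_subset (v := v + u • w) (fun r hr => hmem u hu r hr))
    (Metric.mem_ball_self hδ) 1
  have hv0 : v + (0 : ℝ) • w = v := by rw [zero_smul, add_zero]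
  simp only [hv0] at hJ
  have hmem0 : ∀ r ∈ Set.Ioo (-ε) (1 + ε), (r, (x, v)) ∈ S.gdm := fun r hr => by
    have := hmem 0 (Metric.mem_ball_self hδ) r hr
    rwa [hv0] at this
  refine ⟨ε, hεpos, hS.isGeod_rexp_of_subset (fun r hr => hmem0 r hr), hJ.congr isOpen_Ioo ?_, ?_⟩
  · intro r hr
    have hq : ((0 : ℝ), r) ∈ Metric.ball (0 : ℝ) δ ×ˢ Set.Ioo (-ε) (1 + ε) :=
      ⟨Metric.mem_ball_self hδ, hr⟩
    have hfd : DifferentiableAt ℝ (fun q : ℝ × ℝ => S.rexp x (q.2 • (v + q.1 • w))) (0, r) :=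
      (hf.contDiffAt ((Metric.isOpen_ball.prod isOpen_Ioo).mem_nhds hq)).differentiableAt (by simp)
    have h1 : HasDerivAt (fun u : ℝ => ((u, r) : ℝ × ℝ)) ((1 : ℝ), (0 : ℝ)) 0 :=
      (hasDerivAt_id (0 : ℝ)).prodMk (hasDerivAt_const (0 : ℝ) r)
    have h2 := HasFDerivAt.comp_hasDerivAt (f := fun u : ℝ => ((u, r) : ℝ × ℝ)) (0 : ℝ)
      hfd.hasFDerivAt h1
    have h4 : HasDerivAt (fun u : ℝ => r • (v + u • w)) (r • w) 0 := by
      have h40 : HasDerivAt (fun u : ℝ => v + u • w) w 0 := by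
        simpa using ((hasDerivAt_id (0 : ℝ)).smul_const w).const_add v
      exact h40.const_smul r
    have h5 : HasFDerivAt (S.rexp x) (fderiv ℝ (S.rexp x) (r • v)) (r • (v + (0 : ℝ) • w)) := by
      rw [hv0]
      exact (hS.differentiableAt_rexp (mem_expDom_iff.2 (hmem0 r hr))).hasFDerivAt
    exact (HasFDerivAt.comp_hasDerivAt (f := fun u : ℝ => r • (v + u • w)) (0 : ℝ) h5 h4).unique h2
  · have hD : DifferentiableAt ℝ (fderiv ℝ (S.rexp x)) ((0 : ℝ) • v) := by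
      rw [zero_smul]
      exact ((hS.contDiffAt_rexp (hS.zero_mem_expDom hx)).fderiv_right (m := 1)
        (by norm_cast)).differentiableAt (by simp)
    have h1 : HasDerivAt (fun r : ℝ => r • v) v 0 := by
      simpa using (hasDerivAt_id (0 : ℝ)).smul_const v
    have h2 : DifferentiableAt ℝ (fun r : ℝ => fderiv ℝ (S.rexp x) (r • v) w) 0 :=
      (DifferentiableAt.comp (0 : ℝ) hD h1.differentiableAt).clm_apply (differentiableAt_const w)
    have h3 := (hasDerivAt_id (0 : ℝ)).smul h2.hasDerivAt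
    have e : (fun r : ℝ => fderiv ℝ (S.rexp x) (r • v) (r • w)) =
        fun r : ℝ => r • fderiv ℝ (S.rexp x) (r • v) w := by
      funext r
      rw [map_smul]
    unfold covD
    rw [e]
    have h3' : deriv (fun r : ℝ => r • fderiv ℝ (S.rexp x) (r • v) w) 0 = w := by
      have h30 : deriv (fun r : ℝ => r • fderiv ℝ (S.rexp x) (r • v) w) 0 = _ := HasDerivAt.deriv h3
      rw [h30]
      simp [hS.fderiv_rexp_zero hx]
    rw [h3']
    simp

/-! ### 2. components in a parallel frame -/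

/-- the Jacobi equation in a parallel frame: `v_i'' = - ∑_j G(R(E_j,c')c',E_i) v_j`. -/
theorem IsJacobi.components (hS : S.IsRiem) (hI : IsOpen I) (hc : S.IsGeod c I)
    (hV : S.IsJacobi c V I) {κ : Type} [Fintype κ] {E : κ → ℝ → W}
    (hE : ∀ i, ContDiffOn ℝ ∞ (E i) I ∧ S.IsParallel c (E i) I)
    (hF : ∀ t ∈ I, S.IsFrame (c t) (fun i => E i t)) (ht : t ∈ I) (i : κ) :
    deriv (deriv fun r => S.G (c r) (V r) (E i r)) t =
      - ∑ j, S.G (c t) (S.curv (c t) (E j t) (deriv c t) (deriv c t)) (E i t) *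
          S.G (c t) (V t) (E j t) := by
  have hcd : ∀ r ∈ I, DifferentiableAt ℝ c r := fun r hr => hc.differentiableAt hI hr
  have hVd : ∀ r ∈ I, DifferentiableAt ℝ V r := fun r hr =>
    (hV.1.contDiffAt (hI.mem_nhds hr)).differentiableAt (by simp)
  have hEd : ∀ j, ∀ r ∈ I, DifferentiableAt ℝ (E j) r := fun j r hr =>
    ((hE j).1.contDiffAt (hI.mem_nhds hr)).differentiableAt (by simp)
  have hcov : ContDiffOn ℝ ∞ (S.covD c V) I := hS.contDiffOn_covD hI hc.1 hc.2.1 hV.1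
  have hcovd : DifferentiableAt ℝ (S.covD c V) t :=
    (hcov.contDiffAt (hI.mem_nhds ht)).differentiableAt (by simp)
  have hcomp : ∀ {Z : ℝ → W} {r : ℝ}, r ∈ I → DifferentiableAt ℝ Z r →
      deriv (fun r => S.G (c r) (Z r) (E i r)) r = S.G (c r) (S.covD c Z r) (E i r) := by
    intro Z r hr hZ
    have h := hS.hasDerivAt_G (hc.2.1 r hr) (hcd r hr) hZ (hEd i r hr)
    rw [(hE i).2 r hr, map_zero, add_zero] at h
    exact h.deriv
  have e1 : deriv (fun r => S.G (c r) (V r) (E i r)) =ᶠ[𝓝 t]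
      fun r => S.G (c r) (S.covD c V r) (E i r) := by
    filter_upwards [hI.mem_nhds ht] with r hr using hcomp hr (hVd r hr)
  rw [e1.deriv_eq, hcomp ht hcovd, eq_neg_of_add_eq_zero_left (hV.2 t ht)]
  have hrep := (hF t ht).repr hS (hc.2.1 t ht) (V t)
  have e2 : S.curv (c t) (V t) (deriv c t) (deriv c t) =
      ∑ j, S.G (c t) (V t) (E j t) • S.curv (c t) (E j t) (deriv c t) (deriv c t) := by
    conv_lhs => rw [hrep]
    simp only [← curvL_apply, map_sum, map_smul, ContinuousLinearMap.sum_apply,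
      ContinuousLinearMap.smul_apply]
  rw [e2, map_neg, ContinuousLinearMap.neg_apply, map_sum, ContinuousLinearMap.sum_apply]
  congr 1
  refine Finset.sum_congr rfl fun j _ => ?_
  rw [map_smul, ContinuousLinearMap.smul_apply, smul_eq_mul, mul_comm]

/-- first derivative of the components. -/
theorem deriv_component (hS : S.IsRiem) (hcU : c t ∈ S.U) (hc : DifferentiableAt ℝ c t)
    (hV : DifferentiableAt ℝ V t) {E : ℝ → W} (hE : DifferentiableAt ℝ E t)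
    (hEp : S.covD c E t = 0) :
    deriv (fun r => S.G (c r) (V r) (E r)) t = S.G (c t) (S.covD c V t) (E t) := by
  have h := hS.hasDerivAt_G hcU hc hV hE
  rw [hEp, map_zero, add_zero] at h
  exact h.deriv

/-! ### 3. Rauch type bounds -/

/-- coordinates in a frame, as a continuous linear map into the Euclidean space. -/
noncomputable def frameCoord (S : RGeo W) (x : W) {κ : Type} [Fintype κ] (e : κ → W) :
    W →L[ℝ] EuclideanSpace ℝ κ :=
  ((EuclideanSpace.equiv κ ℝ).symm : (κ → ℝ) →L[ℝ] EuclideanSpace ℝ κ).comp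
    (ContinuousLinearMap.pi fun i => (S.G x).flip (e i))

theorem frameCoord_apply (S : RGeo W) (x : W) {κ : Type} [Fintype κ] (e : κ → W) (a : W) (i : κ) :
    S.frameCoord x e a i = S.G x a (e i) := rfl

/-- the vector with given coordinates. -/
noncomputable def frameSynth {κ : Type} [Fintype κ] (e : κ → W) : EuclideanSpace ℝ κ →L[ℝ] W :=
  ∑ j, (EuclideanSpace.proj j : EuclideanSpace ℝ κ →L[ℝ] ℝ).smulRight (e j)

theorem frameSynth_apply {κ : Type} [Fintype κ] (e : κ → W) (z : EuclideanSpace ℝ κ) :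
    frameSynth e z = ∑ j, z j • e j := by
  simp [frameSynth]

theorem IsFrame.norm_frameCoord (hS : S.IsRiem) (hx : x ∈ S.U) {κ : Type} [Fintype κ] {e : κ → W}
    (he : S.IsFrame x e) (a : W) : ‖S.frameCoord x e a‖ = S.nrm x a := by
  rw [EuclideanSpace.norm_eq, nrm, he.G_eq_sum hS hx a a]
  congr 1
  refine Finset.sum_congr rfl fun i _ => ?_
  rw [Real.norm_eq_abs, sq_abs, frameCoord_apply, sq]

theorem IsFrame.frameCoord_frameSynth {κ : Type} [Fintype κ] {e : κ → W} (he : S.IsFrame x e)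
    (z : EuclideanSpace ℝ κ) : S.frameCoord x e (frameSynth e z) = z := by
  ext i
  rw [frameCoord_apply, frameSynth_apply]
  exact he.G_sum_left Finset.univ z (Finset.mem_univ i)

theorem IsFrame.frameSynth_frameCoord (hS : S.IsRiem) (hx : x ∈ S.U) {κ : Type} [Fintype κ]
    {e : κ → W} (he : S.IsFrame x e) (a : W) : frameSynth e (S.frameCoord x e a) = a := by
  rw [frameSynth_apply]
  exact (he.repr hS hx a).symm

/-- derivative of the coordinates in a parallel frame. -/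
theorem hasDerivAt_frameCoord (hS : S.IsRiem) {κ : Type} [Fintype κ] {E : κ → ℝ → W} {Z : ℝ → W}
    (hcU : c t ∈ S.U) (hc : DifferentiableAt ℝ c t) (hE : ∀ i, DifferentiableAt ℝ (E i) t)
    (hEp : ∀ i, S.covD c (E i) t = 0) (hZ : DifferentiableAt ℝ Z t) :
    HasDerivAt (fun r => S.frameCoord (c r) (fun i => E i r) (Z r))
      (S.frameCoord (c t) (fun i => E i t) (S.covD c Z t)) t := by
  have h1 : HasDerivAt (fun r => (fun i => S.G (c r) (Z r) (E i r) : κ → ℝ))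
      (fun i => S.G (c t) (S.covD c Z t) (E i t)) t := hasDerivAt_pi.2 fun i => by
    have h := hS.hasDerivAt_G hcU hc hZ (hE i)
    rwa [hEp i, map_zero, add_zero] at h
  exact ((EuclideanSpace.equiv κ ℝ).symm : (κ → ℝ) →L[ℝ] EuclideanSpace ℝ κ).hasFDerivAt.comp_hasDerivAt
    t h1

/-- **`C⁰` bounds for Jacobi fields** from `|Rm(a,c',c',a)| ≤ k² |a|²` on `[0,T]`; `A`, `B` are the parallel fields with `A 0 = V 0`,
`B 0 = ∇V 0`. -/
theorem IsJacobi.bounds (hS : S.IsRiem) (hI : IsOpen I) (hIc : I.OrdConnected) (hc : S.IsGeod c I)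
    (hV : S.IsJacobi c V I) {T k : ℝ} (hk : 0 < k) (hT : Set.Icc 0 T ⊆ I)
    (hsec : ∀ t ∈ Set.Icc 0 T, ∀ a, |S.secNum (c t) a (deriv c t)| ≤ k ^ 2 * S.G (c t) a a)
    {A B : ℝ → W} (hA : ContDiffOn ℝ ∞ A I ∧ S.IsParallel c A I)
    (hB : ContDiffOn ℝ ∞ B I ∧ S.IsParallel c B I) (hA0 : A 0 = V 0) (hB0 : B 0 = S.covD c V 0) :
    ∀ t ∈ Set.Icc 0 T,
      S.nrm (c t) (V t) ≤ S.nrm (c 0) (V 0) * Real.cosh (k * t) +
        S.nrm (c 0) (S.covD c V 0) * (Real.sinh (k * t) / k) ∧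
      S.nrm (c t) (S.covD c V t) ≤ S.nrm (c 0) (V 0) * (k * Real.sinh (k * t)) +
        S.nrm (c 0) (S.covD c V 0) * Real.cosh (k * t) ∧
      S.nrm (c t) (V t - A t - t • B t) ≤ S.nrm (c 0) (V 0) * (Real.cosh (k * t) - 1) +
        S.nrm (c 0) (S.covD c V 0) * (Real.sinh (k * t) / k - t) ∧
      S.nrm (c t) (S.covD c V t - B t) ≤ S.nrm (c 0) (V 0) * (k * Real.sinh (k * t)) +
        S.nrm (c 0) (S.covD c V 0) * (Real.cosh (k * t) - 1) := by
  intro t ht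
  have hT0 : (0 : ℝ) ≤ T := ht.1.trans ht.2
  have h0I : (0 : ℝ) ∈ I := hT ⟨le_rfl, hT0⟩
  have htI : t ∈ I := hT ht
  obtain ⟨e, he⟩ := hS.exists_frame (hc.2.1 0 h0I)
  obtain ⟨E, hE, hF⟩ := hS.exists_parallel_frame hI hIc hc.1 hc.2.1 h0I he
  have hcd : ∀ r ∈ I, DifferentiableAt ℝ c r := fun r hr => hc.differentiableAt hI hr
  have hcUd : ∀ r ∈ I, c r ∈ S.U ∧ DifferentiableAt ℝ c r := fun r hr => ⟨hc.2.1 r hr, hcd r hr⟩
  have hVd : ∀ r ∈ I, DifferentiableAt ℝ V r := fun r hr =>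
    (hV.1.contDiffAt (hI.mem_nhds hr)).differentiableAt (by simp)
  have hEd : ∀ j, ∀ r ∈ I, DifferentiableAt ℝ (E j) r := fun j r hr =>
    ((hE j).1.contDiffAt (hI.mem_nhds hr)).differentiableAt (by simp)
  have hAd : ∀ r ∈ I, DifferentiableAt ℝ A r := fun r hr =>
    (hA.1.contDiffAt (hI.mem_nhds hr)).differentiableAt (by simp)
  have hBd : ∀ r ∈ I, DifferentiableAt ℝ B r := fun r hr =>
    (hB.1.contDiffAt (hI.mem_nhds hr)).differentiableAt (by simp)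
  have hcov : ContDiffOn ℝ ∞ (S.covD c V) I := hS.contDiffOn_covD hI hc.1 hc.2.1 hV.1
  have hcovd : ∀ r ∈ I, DifferentiableAt ℝ (S.covD c V) r := fun r hr =>
    (hcov.contDiffAt (hI.mem_nhds hr)).differentiableAt (by simp)
  obtain ⟨R, hRdef⟩ : ∃ R : ℝ → EuclideanSpace ℝ (Fin (Module.finrank ℝ W)) →L[ℝ]
      EuclideanSpace ℝ (Fin (Module.finrank ℝ W)), R = fun r =>
        (S.frameCoord (c r) (fun i => E i r)).comp
          ((((S.curvL (c r)).flip (deriv c r)).flip (deriv c r)).comp (frameSynth (fun i => E i r))) :=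
    ⟨_, rfl⟩
  have hRapp : ∀ r z, R r z = S.frameCoord (c r) (fun i => E i r)
      (S.curv (c r) (frameSynth (fun i => E i r) z) (deriv c r) (deriv c r)) := by
    intro r z
    rw [hRdef, ← curvL_apply]
    rfl
  have hR : ∀ r ∈ Set.Icc 0 T, ‖R r‖ ≤ k ^ 2 := by
    intro r hr
    have hrI := hT hr
    refine ContinuousLinearMap.opNorm_le_bound _ (by positivity) fun z => ?_
    rw [hRapp, (hF r hrI).norm_frameCoord hS (hc.2.1 r hrI)]
    refine (hS.nrm_curv_le (hc.2.1 r hrI) (hsec r hr) _).trans (le_of_eq ?_)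
    rw [← (hF r hrI).norm_frameCoord hS (hc.2.1 r hrI), (hF r hrI).frameCoord_frameSynth]
  have hX : ∀ r ∈ Set.Icc 0 T, HasDerivWithinAt (fun r => S.frameCoord (c r) (fun i => E i r) (V r))
      (S.frameCoord (c r) (fun i => E i r) (S.covD c V r)) (Set.Icc 0 T) r := fun r hr =>
    (hasDerivAt_frameCoord hS (hc.2.1 r (hT hr)) (hcd r (hT hr)) (fun i => hEd i r (hT hr))
      (fun i => (hE i).2.1 r (hT hr)) (hVd r (hT hr))).hasDerivWithinAt
  have hY : ∀ r ∈ Set.Icc 0 T,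
      HasDerivWithinAt (fun r => S.frameCoord (c r) (fun i => E i r) (S.covD c V r))
        (-(R r (S.frameCoord (c r) (fun i => E i r) (V r)))) (Set.Icc 0 T) r := by
    intro r hr
    have h1 := (hasDerivAt_frameCoord hS (hc.2.1 r (hT hr)) (hcd r (hT hr)) (fun i => hEd i r (hT hr))
      (fun i => (hE i).2.1 r (hT hr)) (hcovd r (hT hr))).hasDerivWithinAt (s := Set.Icc 0 T)
    rw [eq_neg_of_add_eq_zero_left (hV.2 r (hT hr)), map_neg] at h1
    rw [hRapp, (hF r (hT hr)).frameSynth_frameCoord hS (hc.2.1 r (hT hr))]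
    exact h1
  have hb := ODE.jacobi_bounds hk hR hX hY t ht
  have eA : S.frameCoord (c t) (fun i => E i t) (A t) = S.frameCoord (c 0) (fun i => E i 0) (V 0) := by
    ext i
    rw [frameCoord_apply, frameCoord_apply, ← hA0]
    exact hA.2.G_const hS hIc hcUd (hE i).2.1 hAd (hEd i) htI h0I
  have eB : S.frameCoord (c t) (fun i => E i t) (B t) =
      S.frameCoord (c 0) (fun i => E i 0) (S.covD c V 0) := by
    ext i
    rw [frameCoord_apply, frameCoord_apply, ← hB0]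
    exact hB.2.G_const hS hIc hcUd (hE i).2.1 hBd (hEd i) htI h0I
  simp only [← eA, ← eB, ← map_sub, ← map_smul] at hb
  simp only [eA, eB, (hF t htI).norm_frameCoord hS (hc.2.1 t htI),
    (hF 0 h0I).norm_frameCoord hS (hc.2.1 0 h0I)] at hb
  exact hb

/-- **two sided bound of `d exp_x`** along a geodesic on which `|Rm(a,b,b,a)| ≤ κ |a|²|b|²`, `κ |v|² ≤ k²`. -/
theorem IsRiem.nrm_fderiv_rexp (hS : S.IsRiem) (h : (x, v) ∈ S.expDom) {κ k : ℝ} (hk : 0 < k)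
    (hsec : ∀ r ∈ Set.Icc (0 : ℝ) 1, ∀ a b,
      |S.secNum (S.rexp x (r • v)) a b| ≤
        κ * (S.G (S.rexp x (r • v)) a a * S.G (S.rexp x (r • v)) b b))
    (hκ : κ * S.G x v v ≤ k ^ 2) (w : W) :
    S.nrm (S.rexp x v) (fderiv ℝ (S.rexp x) v w) ≤ S.nrm x w * (Real.sinh k / k) ∧
      S.nrm x w * (2 - Real.sinh k / k) ≤ S.nrm (S.rexp x v) (fderiv ℝ (S.rexp x) v w) := by
  have hx : x ∈ S.U := mem_U_of_mem_expDom h
  obtain ⟨ε, hε, hg, hJ, hcov⟩ := hS.isJacobi_rexp h w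
  have hI0 : (0 : ℝ) ∈ Set.Ioo (-ε) (1 + ε) := ⟨by linarith, by linarith⟩
  have hI1 : (1 : ℝ) ∈ Set.Ioo (-ε) (1 + ε) := ⟨by linarith, by linarith⟩
  have hsub : Set.Icc (0 : ℝ) 1 ⊆ Set.Ioo (-ε) (1 + ε) := fun r hr =>
    ⟨by linarith [hr.1], by linarith [hr.2]⟩
  have hd0 : deriv (fun r : ℝ => S.rexp x (r • v)) 0 = v := by
    rw [hS.deriv_rexp_smul (zero_mem_gdm.2 hx), gfl_zero]
  have hc0 : S.rexp x ((0 : ℝ) • v) = x := by rw [zero_smul, hS.rexp_zero hx]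
  have hspeed : ∀ r ∈ Set.Icc (0 : ℝ) 1, S.G (S.rexp x (r • v))
      (deriv (fun r : ℝ => S.rexp x (r • v)) r) (deriv (fun r : ℝ => S.rexp x (r • v)) r) = S.G x v v := by
    intro r hr
    have h1 := hg.G_const hS isOpen_Ioo Set.ordConnected_Ioo (hsub hr) hI0
    simp only [hd0, hc0] at h1
    exact h1
  have hsec' : ∀ r ∈ Set.Icc (0 : ℝ) 1, ∀ a,
      |S.secNum (S.rexp x (r • v)) a (deriv (fun r : ℝ => S.rexp x (r • v)) r)| ≤
        k ^ 2 * S.G (S.rexp x (r • v)) a a := by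
    intro r hr a
    refine (hsec r hr a _).trans ?_
    rw [hspeed r hr]
    have hnn : 0 ≤ S.G (S.rexp x (r • v)) a a := hS.G_self_nonneg (hg.2.1 r (hsub hr)) a
    calc κ * (S.G (S.rexp x (r • v)) a a * S.G x v v)
        = (κ * S.G x v v) * S.G (S.rexp x (r • v)) a a := by ring
      _ ≤ k ^ 2 * S.G (S.rexp x (r • v)) a a := mul_le_mul_of_nonneg_right hκ hnn
  obtain ⟨B, hB1, hB2, hB0⟩ := hS.exists_parallel isOpen_Ioo Set.ordConnected_Ioo hg.1 hg.2.1 hI0 w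
  have hA : ContDiffOn ℝ ∞ (fun _ : ℝ => (0 : W)) (Set.Ioo (-ε) (1 + ε)) ∧
      S.IsParallel (fun r : ℝ => S.rexp x (r • v)) (fun _ => 0) (Set.Ioo (-ε) (1 + ε)) :=
    ⟨contDiffOn_const, fun r _ => by simp [covD]⟩
  obtain ⟨b1, -, b3, -⟩ := hJ.bounds hS isOpen_Ioo Set.ordConnected_Ioo hg hk hsub hsec' hA ⟨hB1, hB2⟩
    (by simp) (hB0.trans hcov.symm) 1 ⟨zero_le_one, le_rfl⟩
  rw [hcov] at b1 b3
  simp only [one_smul, zero_smul, map_zero, nrm_zero, zero_mul, zero_add, mul_one,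
    sub_zero, hS.rexp_zero hx] at b1 b3
  have hBn : S.nrm (S.rexp x v) (B 1) = S.nrm x w := by
    have h1 := hB2.nrm_const hS Set.ordConnected_Ioo
      (fun r hr => ⟨hg.2.1 r hr, hg.differentiableAt isOpen_Ioo hr⟩)
      (fun r hr => (hB1.contDiffAt (isOpen_Ioo.mem_nhds hr)).differentiableAt (by simp)) hI1 hI0
    simp only [hc0, one_smul, hB0] at h1
    exact h1
  refine ⟨b1, ?_⟩
  have h2 := (abs_le.1 (hS.abs_nrm_sub_le (rexp_mem h) (fderiv ℝ (S.rexp x) v w) (B 1))).1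
  rw [hBn] at h2
  nlinarith

/-- `rexp x` is an immersion as long as `sinh k / k < 2`. -/
theorem IsRiem.isInvertible_fderiv_rexp (hS : S.IsRiem) (h : (x, v) ∈ S.expDom) {κ k : ℝ}
    (hk : 0 < k) (hk2 : Real.sinh k / k < 2)
    (hsec : ∀ r ∈ Set.Icc (0 : ℝ) 1, ∀ a b,
      |S.secNum (S.rexp x (r • v)) a b| ≤
        κ * (S.G (S.rexp x (r • v)) a a * S.G (S.rexp x (r • v)) b b))
    (hκ : κ * S.G x v v ≤ k ^ 2) : (fderiv ℝ (S.rexp x) v).IsInvertible := by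
  have hx : x ∈ S.U := mem_U_of_mem_expDom h
  have hinj : Function.Injective ((fderiv ℝ (S.rexp x) v : W →L[ℝ] W) : W →ₗ[ℝ] W) := by
    rw [← LinearMap.ker_eq_bot, LinearMap.ker_eq_bot']
    intro w hw
    have hw' : fderiv ℝ (S.rexp x) v w = 0 := hw
    have h1 := (hS.nrm_fderiv_rexp h hk hsec hκ w).2
    rw [hw', nrm_zero] at h1
    have h2 : 0 < 2 - Real.sinh k / k := by linarith
    have h3 : S.nrm x w ≤ 0 := by
      by_contra hneg
      rw [not_le] at hneg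
      have := mul_pos hneg h2
      linarith
    exact (hS.nrm_eq_zero hx).1 (le_antisymm h3 (S.nrm_nonneg x w))
  refine ⟨(LinearEquiv.ofInjectiveEndo _ hinj).toContinuousLinearEquiv, ?_⟩
  ext a
  rfl

end RGeo
end Claimed.Agent.R316
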