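import Claimed.Agent.R316.Base.RGeo.Pull
import Claimed.Agent.R316.Pack011
import Claimed.Agent.R316.Pack008

/-!
# `BP-G1` part 4: the bridge between the Kaehler calculus (`Rm`, `bisec`, `ricF`, `levi`) and `RGeo`

Architect: helper294.  ALL constants below were checked numerically on random Kaehler potentials (`n = 3`):
with `G(a,b) = Re (aᴴ H b)`, `Γ(a,b) = H⁻¹ (∂_a H) b`:

* `dᴴ H R(a,b)c = 𝓡(c, \bar d, a, \bar b) - 𝓡(c, \bar d, b, \bar a)` (`𝓡 = RmV`, any Hermitian metric),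
* `secNum(a,b) + secNum(ia,b) = 2 bisec(a,b)`, real `Ric(a,a) = 2 qf (ricF) a`,
* `qf (levi u) a = (Hess u(a,a) + Hess u(ia,ia)) / 4`, `|∂u|² = |∇u|²/4`, `Δ_h u = (1/4) ∑ Hess u(e_i,e_i)`.

Leaves
* `G1-KAH-A` = sections 1, 2 (algebra of `reForm`, `chris`; `matGeo_isRiem`, `kgeo_isRiem`; holomorphic maps are isometries).
* `G1-KAH-B` = section 3 (curvature bridge).
* `G1-KAH-C` = section 4 (curvature bounds from `BisecNonneg` and the scalar curvature).
* `G1-KAH-D` = section 5 (Hessian, gradient, Laplacian).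

PLANS.
* real directional derivative: `fderiv ℝ F z a = ∑ i, (a i * dz i F z + conj (a i) * dzb i F z)` for `F : CE ι → ℂ` differentiable at `z` (look in `CW/Basic.lean`,
  `CW/MatFun.lean` (`fdM`, `dzM`, `dzbM`) for the existing form of this identity before proving it again).
* `matGeo_isRiem`.  Smoothness of `z ↦ mkBil (reFormₗ (H z))`: in finite dimension `contDiffOn_clm_apply` twice reduces to the scalar functions
  `z ↦ reForm (H z) a b`, `z ↦ chris H z a b k` (finite sums of products of entries of `H`, `H⁻¹` (`contDiffOn_matInv_of_posDef`), `dz i` of entries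
  (smooth: `dz` is a combination of `fderiv`, `ContDiffOn.fderiv_of_isOpen`)).  `Γ_symm` = closedness.  `compat`: `D_a (bᴴ H c) = bᴴ (∂_a H) c + bᴴ (\bar∂_a H) c`,
  `bᴴ (∂_a H) c = bᴴ H Γ(a,c)`, and `bᴴ (\bar∂_a H) c = conj (cᴴ (∂_a H) b) = conj (cᴴ H Γ(a,b))` since `H` is Hermitian (`dzb` of `conj` = `conj` of `dz`); real parts.
* `isIsom_hol`: `fderiv ℝ τ z a = (jac τ z).mulVec a`; invertibility from `det ≠ 0`.  `isIsom_trans`: `IsHForm.compat`, `CMfd.trans_contDiffOn`, `CMfd.det_jac_trans_ne_zero`.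
* `kgeo_herm_curv`: with `A_i = H⁻¹ ∂_i H`: `Γ(b,c) = ∑ b_i A_i c`; `R(a,b)c = D_a(A(b))c - D_b(A(a))c + [A(a),A(b)]c`; the `(2,0)` part vanishes
  (`∂_k A_i - ∂_i A_k + [A_k, A_i] = 0`: `∂_k(H⁻¹) = - H⁻¹ ∂_k H H⁻¹`, symmetry of `∂_k∂_i H`), the rest is `\bar∂_m A_l = - H⁻¹ RmM H z l m` (`RmM_eq_dzbM_connection`), `Rm_eq_RmM`.
* `kgeo_secNum_add`: `kgeo_G_curv`, `RmV` is sesquilinear, `Rm_symm13`.  `kgeo_ric`: take a unitary basis `T` (`Tᴴ H T = 1`), the real frame `(T_a, i T_a)`, `ric_eq_sum`,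
  `kgeo_secNum_add`, `qf_ricF_eq_sum_bisec`, `bisec_symm`.
* Section 4: see the docstrings.
* Section 5: `D²u(a,a) + D²u(ia,ia) = 4 ∑ conj(a_j) a_k ∂̄_j∂_k u`, and `Γ(ia,ia) = - Γ(a,a)`.
-/

set_option autoImplicit false
set_option linter.unusedSectionVars false
set_option linter.deprecated false
set_option maxSynthPendingDepth 3
open scoped ContDiff ComplexOrder Topology

namespace Claimed.Agent.R316

variable {V : Type} [NormedAddCommGroup V] [NormedSpace ℝ V]
variable {ι : Type} [Fintype ι] [DecidableEq ι]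

/-! ### 1. algebra of `reForm` and `chris` -/

section algebra

variable {A : Matrix ι ι ℂ} {H : CE ι → Matrix ι ι ℂ} {U : Set (CE ι)} {z a b : CE ι}

theorem matGeo_U (H : CE ι → Matrix ι ι ℂ) (U : Set (CE ι)) : (matGeo H U).U = U := rfl

theorem matGeo_G_apply (H : CE ι → Matrix ι ι ℂ) (U : Set (CE ι)) (z a b : CE ι) :
    (matGeo H U).G z a b = reForm (H z) a b := rfl

theorem matGeo_Γ_apply (H : CE ι → Matrix ι ι ℂ) (U : Set (CE ι)) (z a b : CE ι) :
    (matGeo H U).Γ z a b = chris H z a b := rfl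

theorem kgeo_U (h : HFam V ι) (Φ : CE ι → V) (U : Set (CE ι)) : (kgeo h Φ U).U = U := rfl

theorem kgeo_G_apply (h : HFam V ι) (Φ : CE ι → V) (U : Set (CE ι)) (z a b : CE ι) :
    (kgeo h Φ U).G z a b = reForm (h Φ z) a b := rfl

theorem kgeo_Γ_apply (h : HFam V ι) (Φ : CE ι → V) (U : Set (CE ι)) (z a b : CE ι) :
    (kgeo h Φ U).Γ z a b = chris (h Φ) z a b := rfl

theorem kgeo_restr (h : HFam V ι) (Φ : CE ι → V) (U U' : Set (CE ι)) :
    (kgeo h Φ U).restr U' = kgeo h Φ U' := rfl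

theorem reForm_self (A : Matrix ι ι ℂ) (a : CE ι) : reForm A a a = qf A a := rfl

theorem kgeo_G_self (h : HFam V ι) (Φ : CE ι → V) (U : Set (CE ι)) (z a : CE ι) :
    (kgeo h Φ U).G z a a = qf (h Φ z) a := rfl

theorem kgeo_nrm (h : HFam V ι) (Φ : CE ι → V) (U : Set (CE ι)) (z a : CE ι) :
    (kgeo h Φ U).nrm z a = Real.sqrt (qf (h Φ z) a) := rfl

theorem reForm_symm (hA : A.IsHermitian) (a b : CE ι) : reForm A a b = reForm A b a := by
  unfold reForm
  have h1 : star (a : ι → ℂ) ⬝ᵥ A.mulVec (b : ι → ℂ) =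
      star (star (b : ι → ℂ) ⬝ᵥ A.mulVec (a : ι → ℂ)) := by
    rw [← Matrix.star_dotProduct_star, star_star, Matrix.star_mulVec, hA.eq,
      Matrix.dotProduct_mulVec, dotProduct_comm]
  rw [h1]
  simp

theorem reForm_I_I (A : Matrix ι ι ℂ) (a b : CE ι) :
    reForm A (Complex.I • a) (Complex.I • b) = reForm A a b := by
  unfold reForm
  have e1 : ((Complex.I • a : CE ι) : ι → ℂ) = Complex.I • (a : ι → ℂ) := rfl
  have e2 : ((Complex.I • b : CE ι) : ι → ℂ) = Complex.I • (b : ι → ℂ) := rfl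
  rw [e1, e2, star_smul, smul_dotProduct, Matrix.mulVec_smul, dotProduct_smul, smul_smul]
  simp

theorem reForm_I_left (A : Matrix ι ι ℂ) (a b : CE ι) :
    reForm A (Complex.I • a) b = - reForm A a (Complex.I • b) := by
  unfold reForm
  have e1 : ((Complex.I • a : CE ι) : ι → ℂ) = Complex.I • (a : ι → ℂ) := rfl
  have e2 : ((Complex.I • b : CE ι) : ι → ℂ) = Complex.I • (b : ι → ℂ) := rfl
  rw [e1, e2, star_smul, smul_dotProduct, Matrix.mulVec_smul, dotProduct_smul]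
  simp

theorem reForm_I_self (hA : A.IsHermitian) (a : CE ι) : reForm A (Complex.I • a) a = 0 := by
  have h1 := reForm_I_left A a a
  have h2 := reForm_symm hA a (Complex.I • a)
  linarith

/-- the Hermitian product from the real one. -/
theorem herm_eq_reForm (A : Matrix ι ι ℂ) (a b : CE ι) :
    star (a : ι → ℂ) ⬝ᵥ A.mulVec (b : ι → ℂ) =
      (reForm A a b : ℂ) + Complex.I * (reForm A (Complex.I • a) b : ℂ) := by
  unfold reForm
  have e1 : ((Complex.I • a : CE ι) : ι → ℂ) = Complex.I • (a : ι → ℂ) := rfl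
  rw [e1, star_smul, smul_dotProduct]
  apply Complex.ext <;> simp

theorem chris_smul_left (H : CE ι → Matrix ι ι ℂ) (z : CE ι) (c : ℂ) (a b : CE ι) :
    chris H z (c • a) b = c • chris H z a b := by
  ext k
  simp only [chris, PiLp.smul_apply, smul_eq_mul, Finset.mul_sum]
  refine Finset.sum_congr rfl fun l _ => Finset.sum_congr rfl fun i _ =>
    Finset.sum_congr rfl fun j _ => ?_
  ring

theorem chris_smul_right (H : CE ι → Matrix ι ι ℂ) (z : CE ι) (c : ℂ) (a b : CE ι) :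
    chris H z a (c • b) = c • chris H z a b := by
  ext k
  simp only [chris, PiLp.smul_apply, smul_eq_mul, Finset.mul_sum]
  refine Finset.sum_congr rfl fun l _ => Finset.sum_congr rfl fun i _ =>
    Finset.sum_congr rfl fun j _ => ?_
  ring

/-- matrix form of the Christoffel symbols. -/
theorem chris_eq_mulVec (H : CE ι → Matrix ι ι ℂ) (z a b : CE ι) :
    (chris H z a b : ι → ℂ) = ((H z)⁻¹ * ∑ i, a i • dzM i H z).mulVec (b : ι → ℂ) := by
  funext k
  simp only [chris, Matrix.mulVec, dotProduct, Matrix.mul_apply, Matrix.sum_apply,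
    Matrix.smul_apply, dzM_apply, smul_eq_mul, Finset.mul_sum, Finset.sum_mul]
  conv_rhs => rw [Finset.sum_comm]
  refine Finset.sum_congr rfl fun l _ => ?_
  conv_rhs => rw [Finset.sum_comm]
  refine Finset.sum_congr rfl fun i _ => Finset.sum_congr rfl fun j _ => ?_
  ring

end algebra

/-! ### 2. Kaehler metrics are Riemannian; holomorphic isometries -/

/-- `H` is (the matrix of) a smooth Kaehler metric on the domain `U ⊆ ℂ^ι`. -/
structure IsKMat (H : CE ι → Matrix ι ι ℂ) (U : Set (CE ι)) : Prop where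
  isOpen : IsOpen U
  smooth : ∀ j k, ContDiffOn ℝ ∞ (fun z => H z j k) U
  posDef : ∀ z ∈ U, (H z).PosDef
  closed : ∀ z ∈ U, ∀ j k l, dz l (fun w => H w j k) z = dz k (fun w => H w j l) z

section riem

variable {𝓜 : CMfd V ι} {h : HFam V ι} {Φ Ψ : CE ι → V} {U W : Set (CE ι)}
  {H H' : CE ι → Matrix ι ι ℂ} {z a b c d : CE ι}

theorem IsKahler.isKMat (hk : IsKahler 𝓜 h) (hΦ : 𝓜.IsHol Φ U) : IsKMat (h Φ) U :=
  ⟨(𝓜.isParam hΦ).isOpen, fun j k => hk.smooth hΦ j k, fun z hz => hk.posDef hΦ z hz,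
    fun z hz j k l => hk.closed Φ U hΦ z hz j k l⟩

/-- `reForm` as an explicit double sum. -/
theorem reForm_eq_sum (A : Matrix ι ι ℂ) (a b : CE ι) :
    reForm A a b = (∑ j, ∑ k, star (a j) * A j k * b k).re := by
  unfold reForm
  congr 1
  simp only [dotProduct, Matrix.mulVec, Finset.mul_sum, Pi.star_apply, mul_assoc]

theorem reForm_add_mat (A B : Matrix ι ι ℂ) (a b : CE ι) :
    reForm (A + B) a b = reForm A a b + reForm B a b := by
  unfold reForm
  rw [Matrix.add_mulVec, dotProduct_add, Complex.add_re]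

theorem reForm_conjTranspose (A : Matrix ι ι ℂ) (a b : CE ι) :
    reForm A.conjTranspose a b = reForm A b a := by
  unfold reForm
  have h1 : star (a : ι → ℂ) ⬝ᵥ A.conjTranspose.mulVec (b : ι → ℂ) =
      star (star (b : ι → ℂ) ⬝ᵥ A.mulVec (a : ι → ℂ)) := by
    rw [← Matrix.star_dotProduct_star, star_star, Matrix.star_mulVec,
      Matrix.dotProduct_mulVec, dotProduct_comm]
  rw [h1]
  simp

/-- the matrix `∂_a H = ∑ a_i ∂_i H`. -/
theorem reForm_chris_right (h0 : (H z).det ≠ 0) (a b c : CE ι) :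
    reForm (H z) b (chris H z a c) = reForm (∑ i, a i • dzM i H z) b c := by
  unfold reForm
  rw [chris_eq_mulVec, Matrix.mulVec_mulVec, ← Matrix.mul_assoc,
    Matrix.mul_nonsing_inv _ (isUnit_iff_ne_zero.2 h0), Matrix.one_mul]

theorem fdM_eq_sum_dzM (H : CE ι → Matrix ι ι ℂ) (z a : CE ι) :
    fdM H z a = ∑ i, a i • dzM i H z + ∑ i, star (a i) • dzbM i H z := by
  ext j k
  simp only [fdM_apply, Matrix.add_apply, Matrix.sum_apply, Matrix.smul_apply, dzM_apply,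
    dzbM_apply, smul_eq_mul]
  rw [fderiv_eq_sum, Finset.sum_add_distrib]
  congr 1 <;> refine Finset.sum_congr rfl fun i _ => ?_
  · ring
  · rw [mul_comm]; rfl

theorem hasFDerivAt_reForm (hH : ∀ j k, DifferentiableAt ℝ (fun w => H w j k) z) (b c : CE ι) :
    HasFDerivAt (fun y => reForm (H y) b c)
      (Complex.reCLM.comp (∑ j, ∑ k, (star (b j) * c k) • fderiv ℝ (fun w => H w j k) z)) z := by
  have h1 : HasFDerivAt (fun y => ∑ j, ∑ k, (star (b j) * c k) • H y j k)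
      (∑ j, ∑ k, (star (b j) * c k) • fderiv ℝ (fun w => H w j k) z) z := by
    refine HasFDerivAt.fun_sum fun j _ => HasFDerivAt.fun_sum fun k _ => ?_
    exact (hH j k).hasFDerivAt.const_smul (star (b j) * c k)
  have h2 := Complex.reCLM.hasFDerivAt.comp z h1
  refine h2.congr_of_eventuallyEq (Filter.Eventually.of_forall fun y => ?_)
  simp only [Function.comp, reForm_eq_sum, Complex.reCLM_apply, smul_eq_mul]
  congr 1
  refine Finset.sum_congr rfl fun j _ => Finset.sum_congr rfl fun k _ => ?_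
  ring

theorem fderiv_reForm (hH : ∀ j k, DifferentiableAt ℝ (fun w => H w j k) z) (a b c : CE ι) :
    fderiv ℝ (fun y => reForm (H y) b c) z a = reForm (fdM H z a) b c := by
  rw [(hasFDerivAt_reForm hH b c).fderiv, reForm_eq_sum]
  simp only [ContinuousLinearMap.comp_apply, Complex.reCLM_apply, ContinuousLinearMap.sum_apply,
    ContinuousLinearMap.smul_apply, fdM_apply, smul_eq_mul]
  congr 1
  refine Finset.sum_congr rfl fun j _ => Finset.sum_congr rfl fun k _ => ?_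
  ring

theorem contDiffOn_reForm {N : WithTop ℕ∞} (hH : ∀ j k, ContDiffOn ℝ N (fun w => H w j k) U) (a b : CE ι) :
    ContDiffOn ℝ N (fun z => reForm (H z) a b) U := by
  have h1 : ContDiffOn ℝ N (fun y => ∑ j, ∑ k, star (a j) * H y j k * b k) U := by
    refine ContDiffOn.sum fun j _ => ContDiffOn.sum fun k _ => ?_
    exact (contDiffOn_const.mul (hH j k)).mul contDiffOn_const
  have h2 := Complex.reCLM.contDiff.comp_contDiffOn h1
  refine h2.congr fun y _ => ?_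
  simp only [Function.comp, reForm_eq_sum, Complex.reCLM_apply]

theorem contDiffOn_chris (hU : IsOpen U) (hH : ∀ j k, ContDiffOn ℝ ∞ (fun w => H w j k) U)
    (h0 : ∀ z ∈ U, (H z).det ≠ 0) (a b : CE ι) :
    ContDiffOn ℝ ∞ (fun z => chris H z a b) U := by
  rw [contDiffOn_piLp]
  intro k
  simp only [chris]
  refine ContDiffOn.sum fun l _ => ContDiffOn.sum fun i _ => ContDiffOn.sum fun j _ => ?_
  refine ((ContDiffOn.mul ?_ ?_).mul contDiffOn_const).mul contDiffOn_const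
  · exact contDiffOn_matInv hH h0 k l
  · exact contDiffOn_dz hU (hH l j)

/-- **the complex Christoffel symbols are the Levi-Civita connection of `Re h`.** -/
theorem matGeo_isRiem (hH : IsKMat H U) : (matGeo H U).IsRiem := by
  have h0 : ∀ z ∈ U, (H z).det ≠ 0 := fun z hz => det_ne_zero_of_posDef (hH.posDef z hz)
  have hGs : ContDiffOn ℝ ∞ (matGeo H U).G U := by
    refine contDiffOn_clm_apply.2 fun a => contDiffOn_clm_apply.2 fun b => ?_
    exact contDiffOn_reForm hH.smooth a b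
  refine ⟨hH.isOpen, hGs, ?_, ?_, ?_, ?_, ?_⟩
  · refine contDiffOn_clm_apply.2 fun a => contDiffOn_clm_apply.2 fun b => ?_
    exact contDiffOn_chris hH.isOpen hH.smooth h0 a b
  · intro x hx a b
    exact reForm_symm (hH.posDef x hx).isHermitian a b
  · intro x hx a ha
    have ha' : (a : ι → ℂ) ≠ 0 := fun h => ha (by ext i; exact congrFun h i)
    have := (hH.posDef x hx).dotProduct_mulVec_pos ha'
    exact (Complex.pos_iff.1 this).1
  · intro x hx a b
    change chris H x a b = chris H x b a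
    ext k
    simp only [chris]
    refine Finset.sum_congr rfl fun l _ => ?_
    rw [Finset.sum_comm]
    refine Finset.sum_congr rfl fun i _ => Finset.sum_congr rfl fun j _ => ?_
    rw [hH.closed x hx l i j]
    ring
  · intro x hx a b c
    have hx' : U ∈ 𝓝 x := hH.isOpen.mem_nhds hx
    have hd : DifferentiableAt ℝ (matGeo H U).G x :=
      ((hGs x hx).contDiffAt hx').differentiableAt (by simp)
    have hdH : ∀ j k, DifferentiableAt ℝ (fun w => H w j k) x := fun j k =>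
      ((hH.smooth j k x hx).contDiffAt hx').differentiableAt (by simp)
    have hherm : ∀ᶠ w in 𝓝 x, (H w).IsHermitian :=
      Filter.eventually_of_mem hx' fun w hw => (hH.posDef w hw).isHermitian
    have e1 : fderiv ℝ (matGeo H U).G x a b c = fderiv ℝ (fun y => reForm (H y) b c) x a := by
      rw [← RGeo.fderiv_apply_apply hd]; rfl
    rw [e1, fderiv_reForm hdH, fdM_eq_sum_dzM, reForm_add_mat]
    have e2 : ∑ i, star (a i) • dzbM i H x = (∑ i, a i • dzM i H x).conjTranspose := by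
      rw [Matrix.conjTranspose_sum]
      refine Finset.sum_congr rfl fun i _ => ?_
      rw [Matrix.conjTranspose_smul, conjTranspose_dzM_of_isHermitian hherm]
    rw [e2, reForm_conjTranspose, ← reForm_chris_right (h0 x hx), ← reForm_chris_right (h0 x hx)]
    change _ = reForm (H x) (chris H x a b) c + reForm (H x) b (chris H x a c)
    rw [reForm_symm (hH.posDef x hx).isHermitian (chris H x a b) c]
    ring

theorem kgeo_isRiem (hk : IsKahler 𝓜 h) (hΦ : 𝓜.IsHol Φ U) : (kgeo h Φ U).IsRiem :=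
  matGeo_isRiem (hk.isKMat hΦ)

/-- the complex structure is parallel. -/
theorem matGeo_covP_I {P : Type*} [NormedAddCommGroup P] [NormedSpace ℝ P] (H : CE ι → Matrix ι ι ℂ)
    (U : Set (CE ι)) (f Z : P → CE ι) (p e : P) :
    (matGeo H U).covP f (fun q => Complex.I • Z q) p e = Complex.I • (matGeo H U).covP f Z p e := by
  unfold RGeo.covP
  have h1 : fderiv ℝ (fun q => Complex.I • Z q) p = Complex.I • fderiv ℝ Z p :=
    congrFun (fderiv_const_smul_field (𝕜 := ℝ) (f := Z) Complex.I) p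
  rw [h1, matGeo_Γ_apply, matGeo_Γ_apply, chris_smul_right, smul_add]
  rfl

theorem matGeo_covD_I (H : CE ι → Matrix ι ι ℂ) (U : Set (CE ι)) (c Z : ℝ → CE ι) (t : ℝ) :
    (matGeo H U).covD c (fun r => Complex.I • Z r) t = Complex.I • (matGeo H U).covD c Z t := by
  rw [RGeo.covD_eq_covP, RGeo.covD_eq_covP, matGeo_covP_I]

theorem matGeo_isParallel_I (H : CE ι → Matrix ι ι ℂ) (U : Set (CE ι)) {c Z : ℝ → CE ι} {I : Set ℝ}
    (hZ : (matGeo H U).IsParallel c Z I) :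
    (matGeo H U).IsParallel c (fun r => Complex.I • Z r) I := by
  intro t ht
  rw [matGeo_covD_I, hZ t ht, smul_zero]

/-- an injective real linear endomorphism of `CE ι` is invertible. -/
theorem isInvertible_of_injective_CE {L : CE ι →L[ℝ] CE ι} (hL : Function.Injective L) :
    L.IsInvertible := by
  refine ⟨(LinearEquiv.ofInjectiveEndo (L : CE ι →ₗ[ℝ] CE ι) hL).toContinuousLinearEquiv, ?_⟩
  ext a
  rfl

theorem fderiv_real_hol_ofLp {τ : CE ι → CE ι} (hτ : DifferentiableAt ℂ τ z) (a : CE ι) :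
    ((fderiv ℝ τ z a : CE ι) : ι → ℂ) = (jac τ z).mulVec (a : ι → ℂ) := by
  rw [hτ.fderiv_restrictScalars ℝ]
  funext k
  exact (jac_mulVec τ a k).symm

/-- a holomorphic local biholomorphism with `H' = Jᴴ (H ∘ τ) J` is a local isometry. -/
theorem isIsom_hol {τ : CE ι → CE ι} {U' : Set (CE ι)} (hU' : IsOpen U')
    (hτ : DifferentiableOn ℂ τ U') (hmaps : ∀ z ∈ U', τ z ∈ U) (hdet : ∀ z ∈ U', (jac τ z).det ≠ 0)
    (hH : ∀ z ∈ U', H' z = (jac τ z).conjTranspose * H (τ z) * jac τ z) :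
    RGeo.IsIsom (matGeo H' U') (matGeo H U) τ := by
  have hd : ∀ z ∈ U', DifferentiableAt ℂ τ z := fun z hz =>
    (hτ z hz).differentiableAt (hU'.mem_nhds hz)
  refine ⟨hol_contDiffOn_real hU' hτ, hmaps, ?_, ?_⟩
  · intro z hz
    apply isInvertible_of_injective_CE
    intro a b hab
    have h1 : (jac τ z).mulVec (a : ι → ℂ) = (jac τ z).mulVec (b : ι → ℂ) := by
      rw [← fderiv_real_hol_ofLp (hd z hz), ← fderiv_real_hol_ofLp (hd z hz), hab]
    have h2 := Matrix.mulVec_injective_of_isUnit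
      ((Matrix.isUnit_iff_isUnit_det _).2 (isUnit_iff_ne_zero.2 (hdet z hz))) h1
    ext i
    exact congrFun h2 i
  · intro z hz a b
    change reForm (H' z) a b = reForm (H (τ z)) (fderiv ℝ τ z a) (fderiv ℝ τ z b)
    unfold reForm
    rw [fderiv_real_hol_ofLp (hd z hz), fderiv_real_hol_ofLp (hd z hz), hH z hz,
      Matrix.star_mulVec, ← Matrix.mulVec_mulVec, ← Matrix.mulVec_mulVec, Matrix.dotProduct_mulVec]

/-- **the transition maps are isometries** (so all the naturality statements of `Pull.lean` apply to a change of parametrisation). -/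
theorem isIsom_trans (hm : IsHForm 𝓜 h) (hΦ : 𝓜.IsHol Φ U) (hΨ : 𝓜.IsHol Ψ W) :
    RGeo.IsIsom (kgeo h Φ (U ∩ Φ ⁻¹' (Ψ '' W))) (kgeo h Ψ W) (Function.invFunOn Ψ W ∘ Φ) :=
  isIsom_hol (CMfd.isOpen_overlap hΦ hΨ) (𝓜.compat hΦ hΨ)
    (fun _ hz => CMfd.trans_mem hΦ hΨ hz) (fun _ hz => CMfd.det_jac_trans_ne_zero hΦ hΨ hz)
    (fun _ hz => hm.compat_trans hΦ hΨ hz)

theorem kg_finrank_real_CE : Module.finrank ℝ (CE ι) = 2 * Fintype.card ι := by
  rw [← Module.finrank_mul_finrank ℝ ℂ (CE ι), Complex.finrank_real_complex, finrank_euclideanSpace]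

/-- a smooth map `Ψ₀ : O → M` from an o-p-e-n subset of a real vector space whose differential is bijective onto the tangent spaces, read in a
parametrisation, is a local isometry from the pulled back metric `ambB (dΨ₀ ·, dΨ₀ ·)` (Fermi maps, exponential maps ...). -/
theorem isIsom_of_ambient [FiniteDimensional ℝ V] {W₀ : Type} [NormedAddCommGroup W₀]
    [NormedSpace ℝ W₀] [FiniteDimensional ℝ W₀] (hm : IsMetric 𝓜 h) (hΦ : 𝓜.IsHol Φ U)
    {S₀ : RGeo W₀} {Ψ₀ : W₀ → V} (hO : IsOpen S₀.U) (hs : ContDiffOn ℝ ∞ Ψ₀ S₀.U)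
    (hmem : ∀ p ∈ S₀.U, Ψ₀ p ∈ Φ '' U)
    (hinj : ∀ p ∈ S₀.U, Function.Injective (fderiv ℝ Ψ₀ p))
    (hdim : Module.finrank ℝ W₀ = 2 * Fintype.card ι)
    (hG : ∀ p ∈ S₀.U, ∀ a b, S₀.G p a b = ambB 𝓜 h (Ψ₀ p) (fderiv ℝ Ψ₀ p a) (fderiv ℝ Ψ₀ p b)) :
    RGeo.IsIsom S₀ (kgeo h Φ U) (Function.invFunOn Φ U ∘ Ψ₀) := by
  have hp := 𝓜.isParam hΦ
  have hM : ∀ p ∈ S₀.U, ∀ᶠ y in 𝓝 p, Ψ₀ y ∈ 𝓜.carrier := fun p hpU => by
    filter_upwards [hO.mem_nhds hpU] with y hy
    obtain ⟨w, hw, hwy⟩ := hmem y hy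
    rw [← hwy]
    exact CMfd.mem_carrier hΦ hw
  have hat : ∀ p ∈ S₀.U, ContDiffAt ℝ ∞ Ψ₀ p := fun p hpU => (hs p hpU).contDiffAt (hO.mem_nhds hpU)
  have hder := fun p (hpU : p ∈ S₀.U) =>
    hp.hasFDerivAt_invFunOn_comp ((hat p hpU).differentiableAt (by simp)) (hM p hpU) (hmem p hpU)
  refine ⟨?_, ?_, ?_, ?_⟩
  · intro p hpU
    exact (hp.contDiffAt_invFunOn_comp le_rfl (hat p hpU) (hM p hpU) (hmem p hpU)).contDiffWithinAt
  · intro p hpU
    exact Function.invFunOn_mem (hmem p hpU)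
  · intro p hpU
    have hi : Function.Injective (fderiv ℝ (Function.invFunOn Φ U ∘ Ψ₀) p : W₀ →ₗ[ℝ] CE ι) := by
      intro a b hab
      apply hinj p hpU
      have hab' : fderiv ℝ (Function.invFunOn Φ U ∘ Ψ₀) p a = fderiv ℝ (Function.invFunOn Φ U ∘ Ψ₀) p b := hab
      rw [(hder p hpU).2 a, (hder p hpU).2 b, hab']
    refine ⟨(LinearEquiv.ofInjectiveOfFinrankEq _ hi
      (hdim.trans kg_finrank_real_CE.symm)).toContinuousLinearEquiv, ?_⟩
    ext a
    rfl
  · intro p hpU a b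
    have hz : Function.invFunOn Φ U (Ψ₀ p) ∈ U := Function.invFunOn_mem (hmem p hpU)
    have he : Φ (Function.invFunOn Φ U (Ψ₀ p)) = Ψ₀ p := Function.invFunOn_eq (hmem p hpU)
    rw [hG p hpU, (hder p hpU).2 a, (hder p hpU).2 b]
    have key := ambB_param hm.toIsHForm hΦ hz (fderiv ℝ (Function.invFunOn Φ U ∘ Ψ₀) p a)
      (fderiv ℝ (Function.invFunOn Φ U ∘ Ψ₀) p b)
    rw [he] at key
    rw [key]
    rfl

end riem

/-! ### 3. the curvature bridge -/

/-- the curvature tensor on vectors: `𝓡(c, \bar d, a, \bar b) = ∑ R_{j \bar k l \bar m} c^j \bar d^k a^l \bar b^m`. -/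
noncomputable def RmV (h : HFam V ι) (Φ : CE ι → V) (z : CE ι) (c d a b : ι → ℂ) : ℂ :=
  ∑ j, ∑ k, ∑ l, ∑ m, Rm h Φ z j k l m * c j * star (d k) * a l * star (b m)

section curvature

variable {𝓜 : CMfd V ι} {h : HFam V ι} {Φ : CE ι → V} {U : Set (CE ι)} {z : CE ι}
variable {H : CE ι → Matrix ι ι ℂ}

theorem bisec_eq_RmV (h : HFam V ι) (Φ : CE ι → V) (z : CE ι) (v w : ι → ℂ) :
    bisec h Φ z v w = (RmV h Φ z v v w w).re := rfl

/-- the connection matrices `A_i = H⁻¹ ∂_i H`. -/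
noncomputable def conA (H : CE ι → Matrix ι ι ℂ) (i : ι) (y : CE ι) : Matrix ι ι ℂ :=
  (H y)⁻¹ * dzM i H y

theorem chris_eq_conA (H : CE ι → Matrix ι ι ℂ) (y b c : CE ι) :
    (chris H y b c : ι → ℂ) = (∑ i, b i • conA H i y).mulVec (c : ι → ℂ) := by
  rw [chris_eq_mulVec, Matrix.mul_sum]
  simp only [conA, Matrix.mul_smul]

theorem differentiableAt_conA (hH : ∀ a b, ContDiffAt ℝ 2 (fun w => H w a b) z)
    (h0 : (H z).det ≠ 0) (i j k : ι) : DifferentiableAt ℝ (fun y => conA H i y j k) z :=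
  differentiableAt_matMul (fun a b => differentiableAt_matInv (cv_differentiableAt hH) h0 a b)
    (cv_differentiableAt_dzM hH i) j k

theorem fderiv_CE_apply {E : Type*} [NormedAddCommGroup E] [NormedSpace ℝ E] {F : E → CE ι} {x : E}
    (hF : DifferentiableAt ℝ F x) (a : E) (k : ι) :
    (fderiv ℝ F x a) k = fderiv ℝ (fun y => F y k) x a := by
  have h1 := (hasFDerivWithinAt_piLp (𝕜 := ℝ) (t := Set.univ) 2).1
    hF.hasFDerivAt.hasFDerivWithinAt k
  rw [hasFDerivWithinAt_univ] at h1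
  rw [h1.fderiv]
  rfl

theorem differentiableAt_chris (hH : ∀ a b, ContDiffAt ℝ 2 (fun w => H w a b) z)
    (h0 : (H z).det ≠ 0) (b c : CE ι) : DifferentiableAt ℝ (fun y => chris H y b c) z := by
  rw [differentiableAt_piLp]
  intro k
  have e : (fun y => (chris H y b c) k) =
      fun y => ∑ j, (∑ i, b i * conA H i y k j) * c j := by
    funext y
    have := congrFun (chris_eq_conA H y b c) k
    rw [this]
    simp only [Matrix.mulVec, dotProduct, Matrix.sum_apply, Matrix.smul_apply, smul_eq_mul]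
  rw [e]
  refine DifferentiableAt.fun_sum fun j _ => DifferentiableAt.mul_const
    (DifferentiableAt.fun_sum fun i _ => (differentiableAt_conA hH h0 i k j).const_mul _) _

theorem fderiv_chris (hH : ∀ a b, ContDiffAt ℝ 2 (fun w => H w a b) z)
    (h0 : (H z).det ≠ 0) (a b c : CE ι) :
    ((fderiv ℝ (fun y => chris H y b c) z a : CE ι) : ι → ℂ) =
      (∑ i, b i • fdM (conA H i) z a).mulVec (c : ι → ℂ) := by
  funext k
  rw [fderiv_CE_apply (differentiableAt_chris hH h0 b c)]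
  have e : (fun y => (chris H y b c) k) =
      fun y => ∑ j, (∑ i, b i * conA H i y k j) * c j := by
    funext y
    have := congrFun (chris_eq_conA H y b c) k
    rw [this]
    simp only [Matrix.mulVec, dotProduct, Matrix.sum_apply, Matrix.smul_apply, smul_eq_mul]
  rw [e]
  have h1 : HasFDerivAt (fun y => ∑ j, (∑ i, b i * conA H i y k j) * c j)
      (∑ j, (c j) • ∑ i, (b i) • fderiv ℝ (fun y => conA H i y k j) z) z := by
    refine HasFDerivAt.fun_sum fun j _ => ?_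
    have h2 : HasFDerivAt (fun y => ∑ i, b i * conA H i y k j)
        (∑ i, (b i) • fderiv ℝ (fun y => conA H i y k j) z) z :=
      HasFDerivAt.fun_sum fun i _ => (differentiableAt_conA hH h0 i k j).hasFDerivAt.const_mul (b i)
    exact h2.mul_const (c j)
  rw [h1.fderiv]
  simp only [ContinuousLinearMap.sum_apply, ContinuousLinearMap.smul_apply, Matrix.mulVec,
    dotProduct, Matrix.sum_apply, Matrix.smul_apply, smul_eq_mul, fdM_apply]
  refine Finset.sum_congr rfl fun j _ => ?_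
  ring

theorem dzM_conA (hH : ∀ a b, ContDiffAt ℝ 2 (fun w => H w a b) z) (h0 : (H z).det ≠ 0) (k i : ι) :
    dzM k (conA H i) z = - (conA H k z * conA H i z) + (H z)⁻¹ * dzM k (dzM i H) z := by
  have hd := cv_differentiableAt hH
  unfold conA
  rw [dzM_mul (fun a b => differentiableAt_matInv hd h0 a b) (cv_differentiableAt_dzM hH i),
    dzM_inv hd h0]
  simp only [Matrix.neg_mul, Matrix.mul_assoc]

theorem dzM_dzM_comm (hH : ∀ a b, ContDiffAt ℝ 2 (fun w => H w a b) z) (k i : ι) :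
    dzM k (dzM i H) z = dzM i (dzM k H) z := by
  ext a b
  exact dz_dz_comm (hH a b)

theorem mul_dzbM_conA (hH : ∀ a b, ContDiffAt ℝ 2 (fun w => H w a b) z) (h0 : (H z).det ≠ 0)
    (k i : ι) : H z * dzbM k (conA H i) z = - RmM H z i k := by
  rw [RmM_eq_dzbM_connection hH h0, neg_neg]
  rfl

/-- the curvature matrix of the Chern connection. -/
theorem curvMat_eq (hH : ∀ a b, ContDiffAt ℝ 2 (fun w => H w a b) z) (h0 : (H z).det ≠ 0)
    (a b : CE ι) :
    H z * (∑ i, b i • fdM (conA H i) z a - ∑ i, a i • fdM (conA H i) z b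
        + (∑ i, a i • conA H i z) * (∑ i, b i • conA H i z)
        - (∑ i, b i • conA H i z) * (∑ i, a i • conA H i z)) =
      ∑ l, ∑ m, (a l * star (b m) - b l * star (a m)) • RmM H z l m := by
  -- the (2,0) part
  have key : ∀ a b : CE ι, ∑ i, b i • fdM (conA H i) z a
      + (∑ i, a i • conA H i z) * (∑ i, b i • conA H i z) =
      ∑ i, ∑ k, (b i * a k) • ((H z)⁻¹ * dzM k (dzM i H) z)
        + ∑ i, ∑ k, (b i * star (a k)) • dzbM k (conA H i) z := by
    intro a b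
    have e1 : (∑ i, a i • conA H i z) * (∑ i, b i • conA H i z) =
        ∑ i, ∑ k, (b i * a k) • (conA H k z * conA H i z) := by
      rw [Matrix.mul_sum]
      refine Finset.sum_congr rfl fun i _ => ?_
      rw [Matrix.sum_mul]
      refine Finset.sum_congr rfl fun k _ => ?_
      rw [Matrix.smul_mul, Matrix.mul_smul, smul_smul, mul_comm]
    rw [e1, ← Finset.sum_add_distrib, ← Finset.sum_add_distrib]
    refine Finset.sum_congr rfl fun i _ => ?_
    rw [fdM_eq_sum_dzM, smul_add, Finset.smul_sum, Finset.smul_sum, add_right_comm,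
      ← Finset.sum_add_distrib]
    congr 1
    · refine Finset.sum_congr rfl fun k _ => ?_
      rw [dzM_conA hH h0, smul_smul, smul_add, smul_neg]
      abel
    · refine Finset.sum_congr rfl fun k _ => ?_
      rw [smul_smul]
  have hsymm : ∑ i, ∑ k, (b i * a k) • ((H z)⁻¹ * dzM k (dzM i H) z) =
      ∑ i, ∑ k, (a i * b k) • ((H z)⁻¹ * dzM k (dzM i H) z) := by
    rw [Finset.sum_comm]
    refine Finset.sum_congr rfl fun i _ => Finset.sum_congr rfl fun k _ => ?_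
    rw [dzM_dzM_comm hH, mul_comm]
  have e2 : ∑ i, b i • fdM (conA H i) z a - ∑ i, a i • fdM (conA H i) z b
        + (∑ i, a i • conA H i z) * (∑ i, b i • conA H i z)
        - (∑ i, b i • conA H i z) * (∑ i, a i • conA H i z) =
      ∑ i, ∑ k, (b i * star (a k)) • dzbM k (conA H i) z
        - ∑ i, ∑ k, (a i * star (b k)) • dzbM k (conA H i) z := by
    have k1 := key a b
    have k2 := key b a
    rw [hsymm] at k1
    calc _ = (∑ i, b i • fdM (conA H i) z a
      + (∑ i, a i • conA H i z) * (∑ i, b i • conA H i z)) - (∑ i, a i • fdM (conA H i) z b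
      + (∑ i, b i • conA H i z) * (∑ i, a i • conA H i z)) := by abel
      _ = _ := by rw [k1, k2]; abel
  rw [e2, Matrix.mul_sub, Matrix.mul_sum, Matrix.mul_sum, ← Finset.sum_sub_distrib]
  refine Finset.sum_congr rfl fun i _ => ?_
  rw [Matrix.mul_sum, Matrix.mul_sum, ← Finset.sum_sub_distrib]
  refine Finset.sum_congr rfl fun k _ => ?_
  rw [Matrix.mul_smul, Matrix.mul_smul, mul_dzbM_conA hH h0, sub_smul, smul_neg, smul_neg]
  abel

theorem RmV_eq_sum_dot (h : HFam V ι) (Φ : CE ι → V) (z : CE ι) (c d a b : ι → ℂ) :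
    RmV h Φ z c d a b = ∑ l, ∑ m, (a l * star (b m)) * (star d ⬝ᵥ (RmM (h Φ) z l m).mulVec c) := by
  unfold RmV
  rw [← cv_sum4]
  refine Finset.sum_congr rfl fun l _ => Finset.sum_congr rfl fun m _ => ?_
  simp only [dotProduct, Matrix.mulVec, Pi.star_apply, Finset.mul_sum]
  refine Finset.sum_congr rfl fun k _ => Finset.sum_congr rfl fun j _ => ?_
  rw [Rm_eq_RmM]
  ring

/-- chart level master formula. -/
theorem matGeo_herm_curv (hΓ : DifferentiableAt ℝ (matGeo H U).Γ z)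
    (hH : ∀ a b, ContDiffAt ℝ 2 (fun w => H w a b) z) (h0 : (H z).det ≠ 0) (a b c d : CE ι) :
    star (d : ι → ℂ) ⬝ᵥ (H z).mulVec ((matGeo H U).curv z a b c : ι → ℂ) =
      ∑ l, ∑ m, (a l * star (b m) - b l * star (a m)) *
        (star (d : ι → ℂ) ⬝ᵥ (RmM H z l m).mulVec (c : ι → ℂ)) := by
  have e : ((matGeo H U).curv z a b c : ι → ℂ) =
      (∑ i, b i • fdM (conA H i) z a - ∑ i, a i • fdM (conA H i) z b
        + (∑ i, a i • conA H i z) * (∑ i, b i • conA H i z)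
        - (∑ i, b i • conA H i z) * (∑ i, a i • conA H i z)).mulVec (c : ι → ℂ) := by
    unfold RGeo.curv
    rw [← RGeo.fderiv_apply_apply hΓ, ← RGeo.fderiv_apply_apply hΓ]
    simp only [matGeo_Γ_apply]
    rw [Matrix.sub_mulVec, Matrix.add_mulVec, Matrix.sub_mulVec, ← fderiv_chris hH h0,
      ← fderiv_chris hH h0, ← Matrix.mulVec_mulVec, ← Matrix.mulVec_mulVec, ← chris_eq_conA,
      ← chris_eq_conA, ← chris_eq_conA, ← chris_eq_conA]
    rfl
  rw [e, Matrix.mulVec_mulVec, curvMat_eq hH h0, Matrix.sum_mulVec, dotProduct_sum]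
  refine Finset.sum_congr rfl fun l _ => ?_
  rw [Matrix.sum_mulVec, dotProduct_sum]
  refine Finset.sum_congr rfl fun m _ => ?_
  rw [Matrix.smul_mulVec, dotProduct_smul, smul_eq_mul]

theorem differentiableAt_kgeo_Γ (hm : IsMetric 𝓜 h) (hΦ : 𝓜.IsHol Φ U) (hz : z ∈ U) :
    DifferentiableAt ℝ (kgeo h Φ U).Γ z := by
  have hU := CMfd.isOpen_dom hΦ
  have h1 : ContDiffOn ℝ ∞ (kgeo h Φ U).Γ U := by
    refine contDiffOn_clm_apply.2 fun a => contDiffOn_clm_apply.2 fun b => ?_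
    exact contDiffOn_chris hU (fun j k => hm.smooth hΦ j k) (fun w hw => hm.det_ne_zero hΦ hw) a b
  exact ((h1 z hz).contDiffAt (hU.mem_nhds hz)).differentiableAt (by simp)

/-- **master formula** (any Hermitian metric; `R` = curvature of the Chern connection `chris`). -/
theorem kgeo_herm_curv (hm : IsMetric 𝓜 h) (hΦ : 𝓜.IsHol Φ U) (hz : z ∈ U) (a b c d : CE ι) :
    star (d : ι → ℂ) ⬝ᵥ (h Φ z).mulVec ((kgeo h Φ U).curv z a b c : ι → ℂ) =
      RmV h Φ z c d a b - RmV h Φ z c d b a := by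
  rw [RmV_eq_sum_dot, RmV_eq_sum_dot, ← Finset.sum_sub_distrib]
  have := matGeo_herm_curv (U := U) (differentiableAt_kgeo_Γ hm hΦ hz)
    (fun a b => hm.toIsHForm.contDiffAt_two hΦ hz a b) (hm.det_ne_zero hΦ hz) a b c d
  refine this.trans (Finset.sum_congr rfl fun l _ => ?_)
  rw [← Finset.sum_sub_distrib]
  refine Finset.sum_congr rfl fun m _ => ?_
  ring

theorem kgeo_G_curv (hm : IsMetric 𝓜 h) (hΦ : 𝓜.IsHol Φ U) (hz : z ∈ U) (a b c d : CE ι) :
    (kgeo h Φ U).G z ((kgeo h Φ U).curv z a b c) d =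
      (RmV h Φ z c d a b - RmV h Φ z c d b a).re := by
  rw [kgeo_G_apply, reForm_symm (hm.herm hΦ z hz), ← kgeo_herm_curv hm hΦ hz]
  rfl

/-- nondegeneracy of the Hermitian product. -/
theorem eq_of_herm_eq {A : Matrix ι ι ℂ} (hA : A.det ≠ 0) {x y : CE ι}
    (hxy : ∀ d : CE ι, star (d : ι → ℂ) ⬝ᵥ A.mulVec (x : ι → ℂ) =
      star (d : ι → ℂ) ⬝ᵥ A.mulVec (y : ι → ℂ)) : x = y := by
  have h1 : A.mulVec (x : ι → ℂ) = A.mulVec (y : ι → ℂ) := by
    funext k
    have := hxy (eb k)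
    simpa [dotProduct, eb_apply] using this
  have h2 := Matrix.mulVec_injective_of_isUnit
    ((Matrix.isUnit_iff_isUnit_det _).2 (isUnit_iff_ne_zero.2 hA)) h1
  ext i
  exact congrFun h2 i

theorem RmV_smul₁ (h : HFam V ι) (Φ : CE ι → V) (z : CE ι) (r : ℂ) (c d a b : ι → ℂ) :
    RmV h Φ z (r • c) d a b = r * RmV h Φ z c d a b := by
  unfold RmV
  simp only [Finset.mul_sum, Pi.smul_apply, smul_eq_mul]
  refine Finset.sum_congr rfl fun j _ => Finset.sum_congr rfl fun k _ =>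
    Finset.sum_congr rfl fun l _ => Finset.sum_congr rfl fun m _ => ?_
  ring

theorem RmV_smul₂ (h : HFam V ι) (Φ : CE ι → V) (z : CE ι) (r : ℂ) (c d a b : ι → ℂ) :
    RmV h Φ z c (r • d) a b = star r * RmV h Φ z c d a b := by
  unfold RmV
  simp only [Finset.mul_sum, Pi.smul_apply, smul_eq_mul, star_mul']
  refine Finset.sum_congr rfl fun j _ => Finset.sum_congr rfl fun k _ =>
    Finset.sum_congr rfl fun l _ => Finset.sum_congr rfl fun m _ => ?_
  ring

theorem RmV_smul₃ (h : HFam V ι) (Φ : CE ι → V) (z : CE ι) (r : ℂ) (c d a b : ι → ℂ) :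
    RmV h Φ z c d (r • a) b = r * RmV h Φ z c d a b := by
  unfold RmV
  simp only [Finset.mul_sum, Pi.smul_apply, smul_eq_mul]
  refine Finset.sum_congr rfl fun j _ => Finset.sum_congr rfl fun k _ =>
    Finset.sum_congr rfl fun l _ => Finset.sum_congr rfl fun m _ => ?_
  ring

theorem RmV_smul₄ (h : HFam V ι) (Φ : CE ι → V) (z : CE ι) (r : ℂ) (c d a b : ι → ℂ) :
    RmV h Φ z c d a (r • b) = star r * RmV h Φ z c d a b := by
  unfold RmV
  simp only [Finset.mul_sum, Pi.smul_apply, smul_eq_mul, star_mul']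
  refine Finset.sum_congr rfl fun j _ => Finset.sum_congr rfl fun k _ =>
    Finset.sum_congr rfl fun l _ => Finset.sum_congr rfl fun m _ => ?_
  ring

theorem ofLp_smul_CE (r : ℂ) (a : CE ι) : ((r • a : CE ι) : ι → ℂ) = r • (a : ι → ℂ) := rfl

theorem kgeo_curv_I (hm : IsMetric 𝓜 h) (hΦ : 𝓜.IsHol Φ U) (hz : z ∈ U) (a b c : CE ι) :
    (kgeo h Φ U).curv z a b (Complex.I • c) = Complex.I • (kgeo h Φ U).curv z a b c := by
  refine eq_of_herm_eq (hm.det_ne_zero hΦ hz) fun d => ?_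
  rw [kgeo_herm_curv hm hΦ hz, ofLp_smul_CE, ofLp_smul_CE, Matrix.mulVec_smul, dotProduct_smul,
    kgeo_herm_curv hm hΦ hz, RmV_smul₁, RmV_smul₁, smul_eq_mul]
  ring

theorem kgeo_curv_I_I (hk : IsKahler 𝓜 h) (hΦ : 𝓜.IsHol Φ U) (hz : z ∈ U) (a b c : CE ι) :
    (kgeo h Φ U).curv z (Complex.I • a) (Complex.I • b) c = (kgeo h Φ U).curv z a b c := by
  have hm := hk.toIsMetric
  refine eq_of_herm_eq (hm.det_ne_zero hΦ hz) fun d => ?_
  rw [kgeo_herm_curv hm hΦ hz, kgeo_herm_curv hm hΦ hz, ofLp_smul_CE, ofLp_smul_CE,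
    RmV_smul₃, RmV_smul₄, RmV_smul₃, RmV_smul₄]
  have hI : Complex.I * (star Complex.I) = 1 := by simp
  linear_combination (RmV h Φ z c d a b - RmV h Φ z c d b a) * hI

theorem kgeo_secNum (hm : IsMetric 𝓜 h) (hΦ : 𝓜.IsHol Φ U) (hz : z ∈ U) (a b : CE ι) :
    (kgeo h Φ U).secNum z a b = (RmV h Φ z b a a b - RmV h Φ z b a b a).re :=
  kgeo_G_curv hm hΦ hz a b b a

theorem RmV_symm13 (hk : IsKahler 𝓜 h) (hΦ : 𝓜.IsHol Φ U) (hz : z ∈ U) (c d a b : ι → ℂ) :
    RmV h Φ z c d a b = RmV h Φ z a d c b := by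
  unfold RmV
  calc ∑ j, ∑ k, ∑ l, ∑ m, Rm h Φ z j k l m * c j * star (d k) * a l * star (b m)
      = ∑ j, ∑ l, ∑ k, ∑ m, Rm h Φ z j k l m * c j * star (d k) * a l * star (b m) :=
        Finset.sum_congr rfl fun j _ => Finset.sum_comm
    _ = ∑ l, ∑ j, ∑ k, ∑ m, Rm h Φ z j k l m * c j * star (d k) * a l * star (b m) :=
        Finset.sum_comm
    _ = ∑ l, ∑ k, ∑ j, ∑ m, Rm h Φ z j k l m * c j * star (d k) * a l * star (b m) :=
        Finset.sum_congr rfl fun j _ => Finset.sum_comm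
    _ = _ := by
        refine Finset.sum_congr rfl fun l _ => Finset.sum_congr rfl fun k _ =>
          Finset.sum_congr rfl fun j _ => Finset.sum_congr rfl fun m _ => ?_
        rw [Rm_symm13 hk hΦ hz j k l m]
        ring

/-- **`Rm(a,b,b,a) + Rm(Ja,b,b,Ja) = 2 R(a, \bar a, b, \bar b)`.** -/
theorem kgeo_secNum_add (hk : IsKahler 𝓜 h) (hΦ : 𝓜.IsHol Φ U) (hz : z ∈ U) (a b : CE ι) :
    (kgeo h Φ U).secNum z a b + (kgeo h Φ U).secNum z (Complex.I • a) b = 2 * bisec h Φ z a b := by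
  have hm := hk.toIsMetric
  rw [kgeo_secNum hm hΦ hz, kgeo_secNum hm hΦ hz, ofLp_smul_CE, RmV_smul₂, RmV_smul₃, RmV_smul₂,
    RmV_smul₄, bisec_eq_RmV, RmV_symm13 hk hΦ hz a a b b, ← Complex.add_re]
  have hI : Complex.I * Complex.I = -1 := Complex.I_mul_I
  have e : RmV h Φ z b a a b - RmV h Φ z b a b a +
      (star Complex.I * (Complex.I * RmV h Φ z b a a b) -
        star Complex.I * (star Complex.I * RmV h Φ z b a b a)) = 2 * RmV h Φ z b a a b := by
    have hs : star Complex.I = - Complex.I := by simp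
    rw [hs]
    linear_combination (- RmV h Φ z b a a b - RmV h Φ z b a b a) * hI
  rw [e]
  simp

/-- the `a`-th column of a matrix as a vector of `CE ι`. -/
noncomputable def colV (T : Matrix ι ι ℂ) (a : ι) : CE ι := WithLp.toLp 2 fun l => T l a

theorem herm_colV (A T : Matrix ι ι ℂ) (a b : ι) :
    star (colV T a : ι → ℂ) ⬝ᵥ A.mulVec (colV T b : ι → ℂ) = (T.conjTranspose * A * T) a b := by
  simp only [colV, dotProduct, Matrix.mulVec, Matrix.mul_apply, Matrix.conjTranspose_apply,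
    Pi.star_apply, Finset.mul_sum, Finset.sum_mul]
  rw [Finset.sum_comm]
  refine Finset.sum_congr rfl fun k _ => Finset.sum_congr rfl fun j _ => ?_
  ring

/-- the real frame `(T_a, i T_a)` of a unitary basis. -/
noncomputable def uFrame (T : Matrix ι ι ℂ) : ι ⊕ ι → CE ι :=
  Sum.elim (fun a => colV T a) (fun a => Complex.I • colV T a)

theorem reForm_colV {A T : Matrix ι ι ℂ} (hT : T.conjTranspose * A * T = 1) (a b : ι) :
    reForm A (colV T a) (colV T b) = if a = b then 1 else 0 := by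
  unfold reForm
  rw [herm_colV, hT, Matrix.one_apply]
  split_ifs <;> simp

theorem reForm_colV_I {A T : Matrix ι ι ℂ} (hT : T.conjTranspose * A * T = 1) (a b : ι) :
    reForm A (colV T a) (Complex.I • colV T b) = 0 := by
  unfold reForm
  rw [ofLp_smul_CE, Matrix.mulVec_smul, dotProduct_smul, herm_colV, hT, Matrix.one_apply]
  split_ifs <;> simp

theorem isFrame_uFrame {T : Matrix ι ι ℂ} (hT : T.conjTranspose * H z * T = 1) :
    (matGeo H U).IsFrame z (uFrame T) := by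
  refine ⟨?_, ?_, ?_⟩
  · rintro (a | a)
    · simp [uFrame, matGeo_G_apply, reForm_colV hT]
    · simp [uFrame, matGeo_G_apply, reForm_I_I, reForm_colV hT]
  · rintro (a | a) (b | b) hab
    · have : a ≠ b := fun e => hab (by rw [e])
      simp [uFrame, matGeo_G_apply, reForm_colV hT, this]
    · simp [uFrame, matGeo_G_apply, reForm_colV_I hT]
    · simp [uFrame, matGeo_G_apply, reForm_I_left, reForm_colV_I hT]
    · have : a ≠ b := fun e => hab (by rw [e])
      simp [uFrame, matGeo_G_apply, reForm_I_I, reForm_colV hT, this]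
  · intro a
    have hdet := simDiag_det_ne_zero hT
    set w : ι → ℂ := T⁻¹.mulVec (a : ι → ℂ) with hw
    have ha : a = ∑ i, ((w i).re • uFrame T (Sum.inl i) + (w i).im • uFrame T (Sum.inr i)) := by
      have h1 : (a : ι → ℂ) = T.mulVec w := by
        rw [hw, Matrix.mulVec_mulVec, Matrix.mul_nonsing_inv _ (isUnit_iff_ne_zero.2 hdet),
          Matrix.one_mulVec]
      ext l
      have h2 := congrFun h1 l
      rw [h2]
      simp only [uFrame, Sum.elim_inl, Sum.elim_inr, colV, Matrix.mulVec, dotProduct,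
        WithLp.ofLp_sum, Finset.sum_apply, WithLp.ofLp_add, WithLp.ofLp_smul, Pi.add_apply,
        Pi.smul_apply, Complex.real_smul, smul_eq_mul]
      refine Finset.sum_congr rfl fun i _ => ?_
      conv_lhs => rw [← Complex.re_add_im (w i)]
      ring
    rw [ha]
    refine Submodule.sum_mem _ fun i _ => Submodule.add_mem _ ?_ ?_
    · exact Submodule.smul_mem _ _ (Submodule.subset_span ⟨_, rfl⟩)
    · exact Submodule.smul_mem _ _ (Submodule.subset_span ⟨_, rfl⟩)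

/-- **real Ricci curvature `= 2 Ric(a, \bar a)`.** -/
theorem kgeo_ric (hk : IsKahler 𝓜 h) (hΦ : 𝓜.IsHol Φ U) (hz : z ∈ U) (a : CE ι) :
    (kgeo h Φ U).ric z a = 2 * qf (ricF h Φ z) a := by
  obtain ⟨T, -, -, hT, -⟩ := exists_simDiag (hk.posDef hΦ z hz) (hk.posDef hΦ z hz).isHermitian
  have hfr : (kgeo h Φ U).IsFrame z (uFrame T) := isFrame_uFrame hT
  rw [RGeo.ric_eq_sum (kgeo_isRiem hk hΦ) hz hfr, Fintype.sum_sum_type, ← Finset.sum_add_distrib,
    qf_ricF_eq_sum_bisec hk hΦ hz T hT, Finset.mul_sum]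
  refine Finset.sum_congr rfl fun i _ => ?_
  have e1 : uFrame T (Sum.inl i) = colV T i := rfl
  have e2 : uFrame T (Sum.inr i) = Complex.I • colV T i := rfl
  have e3 : (fun l => T l i) = (colV T i : ι → ℂ) := rfl
  rw [e1, e2, e3, kgeo_secNum_add hk hΦ hz (colV T i) a, bisec_symm hk hΦ hz]

/-- the form in which `sv5` uses it. -/
theorem kgeo_sum_secNum (hk : IsKahler 𝓜 h) (hΦ : 𝓜.IsHol Φ U) (hz : z ∈ U) {κ : Type} [Fintype κ]
    {e : κ → CE ι} (he : (kgeo h Φ U).IsFrame z e) (a : CE ι) :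
    ∑ i, (kgeo h Φ U).secNum z (e i) a = 2 * qf (ricF h Φ z) a := by
  rw [← RGeo.ric_eq_sum (kgeo_isRiem hk hΦ) hz he, kgeo_ric hk hΦ hz]

end curvature

/-! ### 4. `BK ≥ 0`: the scalar curvature controls the whole curvature tensor -/

section bounds

variable {𝓜 : CMfd V ι} {h : HFam V ι} {Φ : CE ι → V} {U : Set (CE ι)} {z : CE ι}

open scoped Matrix ComplexConjugate in
theorem kb_trace_nonneg {H A : Matrix ι ι ℂ} (hH : H.PosDef) (hA : A.PosSemidef) :
    0 ≤ (H⁻¹ * A).trace.re := by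
  obtain ⟨T, d, hT, h1, hD⟩ := exists_simDiag hH hA.isHermitian
  rw [simDiag_trace_re h1 hD]
  exact Finset.sum_nonneg fun i _ => (simDiag_posSemidef_iff h1 hD).1 hA i

open scoped Matrix ComplexConjugate in
/-- a nonnegative Hermitian form is bounded by its trace. -/
theorem kb_qf_le_trace {H A : Matrix ι ι ℂ} (hH : H.PosDef) (hA : A.PosSemidef) (v : ι → ℂ) :
    qf A v ≤ (H⁻¹ * A).trace.re * qf H v := by
  obtain ⟨T, d, hT, h1, hD⟩ := exists_simDiag hH hA.isHermitian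
  have hd := (simDiag_posSemidef_iff h1 hD).1 hA
  have hu : IsUnit T.det := isUnit_iff_ne_zero.2 hT
  have hv : v = T *ᵥ (T⁻¹ *ᵥ v) := by
    rw [Matrix.mulVec_mulVec, Matrix.mul_nonsing_inv _ hu, Matrix.one_mulVec]
  rw [hv, simDiag_qf hD, simDiag_qf_one h1, simDiag_trace_re h1 hD, Finset.sum_mul_sum]
  refine Finset.sum_le_sum fun i _ => ?_
  exact Finset.single_le_sum (f := fun j => d i * ‖(T⁻¹ *ᵥ v) j‖ ^ 2)
    (fun j _ => mul_nonneg (hd i) (sq_nonneg _)) (Finset.mem_univ i)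

/-- the matrix of the form `(a, b) ↦ 𝓡(c, \bar d, a, \bar b)`. -/
noncomputable def kbM (h : HFam V ι) (Φ : CE ι → V) (z : CE ι) (c d : ι → ℂ) : Matrix ι ι ℂ :=
  fun m l => ∑ j, ∑ k, Rm h Φ z j k l m * c j * star (d k)

theorem kb_eqns_cite : True := by
  have := @kbM.eq_1
  trivial

theorem kb_RmV_eq (h : HFam V ι) (Φ : CE ι → V) (z : CE ι) (c d a b : ι → ℂ) :
    RmV h Φ z c d a b = star b ⬝ᵥ ((kbM h Φ z c d).mulVec a) := by
  simp only [RmV, kbM, dotProduct, Matrix.mulVec, Pi.star_apply, Finset.mul_sum, Finset.sum_mul]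
  rw [cv_sum22, Finset.sum_comm]
  refine Finset.sum_congr rfl fun m _ => Finset.sum_congr rfl fun l _ =>
    Finset.sum_congr rfl fun j _ => Finset.sum_congr rfl fun k _ => ?_
  ring

theorem kb_RmV_pair (hk : IsKahler 𝓜 h) (hΦ : 𝓜.IsHol Φ U) (hz : z ∈ U) (c d a b : ι → ℂ) :
    RmV h Φ z c d a b = RmV h Φ z a b c d := by
  simp only [RmV]
  rw [cv_sum22]
  refine Finset.sum_congr rfl fun l _ => Finset.sum_congr rfl fun m _ =>
    Finset.sum_congr rfl fun j _ => Finset.sum_congr rfl fun k _ => ?_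
  rw [Rm_symm_pair hk hΦ hz j k l m]
  ring

theorem kb_RmV_symm13 (hk : IsKahler 𝓜 h) (hΦ : 𝓜.IsHol Φ U) (hz : z ∈ U) (c d a b : ι → ℂ) :
    RmV h Φ z c d a b = RmV h Φ z a d c b := by
  simp only [RmV]
  calc ∑ j, ∑ k, ∑ l, ∑ m, Rm h Φ z j k l m * c j * star (d k) * a l * star (b m)
      = ∑ j, ∑ l, ∑ k, ∑ m, Rm h Φ z j k l m * c j * star (d k) * a l * star (b m) :=
        Finset.sum_congr rfl fun j _ => Finset.sum_comm
    _ = ∑ l, ∑ j, ∑ k, ∑ m, Rm h Φ z j k l m * c j * star (d k) * a l * star (b m) :=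
        Finset.sum_comm
    _ = ∑ l, ∑ k, ∑ j, ∑ m, Rm h Φ z j k l m * c j * star (d k) * a l * star (b m) :=
        Finset.sum_congr rfl fun l _ => Finset.sum_comm
    _ = _ := by
        refine Finset.sum_congr rfl fun l _ => Finset.sum_congr rfl fun k _ =>
          Finset.sum_congr rfl fun j _ => Finset.sum_congr rfl fun m _ => ?_
        rw [Rm_symm13 hk hΦ hz j k l m]
        ring

theorem kb_isHermitian (hm : IsMetric 𝓜 h) (hΦ : 𝓜.IsHol Φ U) (hz : z ∈ U) (v : ι → ℂ) :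
    (kbM h Φ z v v).IsHermitian := by
  ext m l
  simp only [Matrix.conjTranspose_apply, kbM, star_sum, star_mul', star_star]
  rw [Finset.sum_comm]
  refine Finset.sum_congr rfl fun j _ => Finset.sum_congr rfl fun k _ => ?_
  have := Rm_conj hm hΦ hz k j m l
  rw [← Complex.star_def] at this
  rw [this]
  ring

theorem kb_qf_kbM (h : HFam V ι) (Φ : CE ι → V) (z : CE ι) (v w : ι → ℂ) :
    qf (kbM h Φ z v v) w = bisec h Φ z v w := by
  rw [bisec_eq_RmV, kb_RmV_eq]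
  rfl

theorem kb_posSemidef (hm : IsMetric 𝓜 h) (hb : BisecNonneg 𝓜 h) (hΦ : 𝓜.IsHol Φ U) (hz : z ∈ U)
    (v : ι → ℂ) : (kbM h Φ z v v).PosSemidef :=
  (posSemidef_iff_qf (kb_isHermitian hm hΦ hz v)).2 fun w => by
    rw [kb_qf_kbM]
    exact hb Φ U hΦ z hz v w

theorem kb_trace_kbM (hk : IsKahler 𝓜 h) (hΦ : 𝓜.IsHol Φ U) (hz : z ∈ U) (v : ι → ℂ) :
    ((h Φ z)⁻¹ * kbM h Φ z v v).trace.re = qf (ricF h Φ z) v := by
  rw [qf_eq_sum]
  congr 1
  simp only [Matrix.trace, Matrix.diag_apply, Matrix.mul_apply, kbM, ricF_eq_sum_Rm hk hΦ hz,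
    Finset.mul_sum, Finset.sum_mul]
  rw [cv_sum22, Finset.sum_comm]
  refine Finset.sum_congr rfl fun k _ => Finset.sum_congr rfl fun j _ =>
    Finset.sum_congr rfl fun l _ => Finset.sum_congr rfl fun m _ => ?_
  rw [Complex.star_def]
  ring

/-- `0 ≤ Ric`. -/
theorem qf_ricF_nonneg (hk : IsKahler 𝓜 h) (hb : BisecNonneg 𝓜 h) (hΦ : 𝓜.IsHol Φ U) (hz : z ∈ U)
    (v : ι → ℂ) : 0 ≤ qf (ricF h Φ z) v := by
  rw [← kb_trace_kbM hk hΦ hz]
  exact kb_trace_nonneg (hk.posDef hΦ z hz) (kb_posSemidef hk.toIsMetric hb hΦ hz v)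

theorem kb_ricF_posSemidef (hk : IsKahler 𝓜 h) (hb : BisecNonneg 𝓜 h) (hΦ : 𝓜.IsHol Φ U)
    (hz : z ∈ U) : (ricF h Φ z).PosSemidef :=
  (posSemidef_iff_qf ((isHForm_ricF hk.toIsMetric).herm hΦ z hz)).2 (qf_ricF_nonneg hk hb hΦ hz)

theorem kb_scal_nonneg (hk : IsKahler 𝓜 h) (hb : BisecNonneg 𝓜 h) (hΦ : 𝓜.IsHol Φ U)
    (hz : z ∈ U) : 0 ≤ trF h (ricF h) Φ z :=
  kb_trace_nonneg (hk.posDef hΦ z hz) (kb_ricF_posSemidef hk hb hΦ hz)

/-- `Ric ≤ R h` (a nonnegative Hermitian form is bounded by its trace). -/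
theorem qf_ricF_le (hk : IsKahler 𝓜 h) (hb : BisecNonneg 𝓜 h) (hΦ : 𝓜.IsHol Φ U) (hz : z ∈ U)
    (v : ι → ℂ) : qf (ricF h Φ z) v ≤ trF h (ricF h) Φ z * qf (h Φ z) v :=
  kb_qf_le_trace (hk.posDef hΦ z hz) (kb_ricF_posSemidef hk hb hΦ hz) v

/-- `R(v, \bar v, w, \bar w) ≤ Ric(v, \bar v) |w|²` (complete `w/|w|` to a unitary basis, `qf_ricF_eq_sum_bisec`). -/
theorem bisec_le_ricF (hk : IsKahler 𝓜 h) (hb : BisecNonneg 𝓜 h) (hΦ : 𝓜.IsHol Φ U) (hz : z ∈ U)
    (v w : ι → ℂ) : bisec h Φ z v w ≤ qf (ricF h Φ z) v * qf (h Φ z) w := by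
  rw [← kb_qf_kbM, ← kb_trace_kbM hk hΦ hz]
  exact kb_qf_le_trace (hk.posDef hΦ z hz) (kb_posSemidef hk.toIsMetric hb hΦ hz v) w

theorem bisec_le_scal (hk : IsKahler 𝓜 h) (hb : BisecNonneg 𝓜 h) (hΦ : 𝓜.IsHol Φ U) (hz : z ∈ U)
    (v w : ι → ℂ) :
    bisec h Φ z v w ≤ trF h (ricF h) Φ z * (qf (h Φ z) v * qf (h Φ z) w) := by
  refine le_trans (bisec_le_ricF hk hb hΦ hz v w) ?_
  rw [← mul_assoc]
  exact mul_le_mul_of_nonneg_right (qf_ricF_le hk hb hΦ hz v)
    (qf_nonneg (hk.posDef hΦ z hz).posSemidef w)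


theorem kb_norm_RmV_diag_le (hk : IsKahler 𝓜 h) (hb : BisecNonneg 𝓜 h) (hΦ : 𝓜.IsHol Φ U)
    (hz : z ∈ U) (u w v : ι → ℂ) :
    ‖RmV h Φ z u w v v‖ ≤ trF h (ricF h) Φ z *
      (Real.sqrt (qf (h Φ z) u) * Real.sqrt (qf (h Φ z) w)) * qf (h Φ z) v := by
  have hS := kb_scal_nonneg hk hb hΦ hz
  have hH := (hk.posDef hΦ z hz).posSemidef
  have qu := qf_nonneg hH u
  have qw := qf_nonneg hH w
  have qv := qf_nonneg hH v
  rw [kb_RmV_pair hk hΦ hz, kb_RmV_eq]
  have cs := qf_cauchy_schwarz (kb_posSemidef hk.toIsMetric hb hΦ hz v) w u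
  rw [kb_qf_kbM, kb_qf_kbM] at cs
  have b1 := bisec_le_scal hk hb hΦ hz v w
  have b2 := bisec_le_scal hk hb hΦ hz v u
  have n1 := hb Φ U hΦ z hz v w
  have n2 := hb Φ U hΦ z hz v u
  refine (pow_le_pow_iff_left₀ (norm_nonneg _) (by positivity) two_ne_zero).1 (le_trans cs ?_)
  refine le_trans (mul_le_mul b1 b2 n2 (by positivity)) (le_of_eq ?_)
  rw [mul_pow, mul_pow, mul_pow, Real.sq_sqrt qu, Real.sq_sqrt qw]
  ring

theorem kb_polar (N : Matrix ι ι ℂ) (x v : ι → ℂ) :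
    4 * (star x ⬝ᵥ N.mulVec v) =
      (star (v + x) ⬝ᵥ N.mulVec (v + x)) - (star (v - x) ⬝ᵥ N.mulVec (v - x))
      + Complex.I * (star (v + Complex.I • x) ⬝ᵥ N.mulVec (v + Complex.I • x))
      - Complex.I * (star (v - Complex.I • x) ⬝ᵥ N.mulVec (v - Complex.I • x)) := by
  simp only [star_add, star_sub, star_smul, Matrix.mulVec_add, Matrix.mulVec_sub,
    Matrix.mulVec_smul, add_dotProduct, sub_dotProduct, dotProduct_add, dotProduct_sub,
    smul_dotProduct, dotProduct_smul, smul_eq_mul, Complex.star_def, Complex.conj_I]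
  ring_nf
  rw [Complex.I_sq]
  ring

theorem kb_parallelogram {H : Matrix ι ι ℂ} (hH : H.IsHermitian) (x v : ι → ℂ) :
    qf H (v + x) + qf H (v - x) + qf H (v + Complex.I • x) + qf H (v - Complex.I • x)
      = 4 * (qf H v + qf H x) := by
  rw [sub_eq_add_neg, sub_eq_add_neg, qf_add_vec (v := v) (w := x) hH,
    qf_add_vec (v := v) (w := -x) hH, qf_add_vec (v := v) (w := Complex.I • x) hH,
    qf_add_vec (v := v) (w := -(Complex.I • x)) hH,
    qf_neg_vec, qf_neg_vec, qf_smul_vec, Matrix.mulVec_neg, Matrix.mulVec_neg, dotProduct_neg,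
    dotProduct_neg, Complex.neg_re, Complex.neg_re, Complex.norm_I]
  ring

theorem kb_norm_RmV_le_add (hk : IsKahler 𝓜 h) (hb : BisecNonneg 𝓜 h) (hΦ : 𝓜.IsHol Φ U)
    (hz : z ∈ U) (u w v x : ι → ℂ) :
    ‖RmV h Φ z u w v x‖ ≤ trF h (ricF h) Φ z *
      (Real.sqrt (qf (h Φ z) u) * Real.sqrt (qf (h Φ z) w)) * (qf (h Φ z) v + qf (h Φ z) x) := by
  have hp := kb_polar (kbM h Φ z u w) x v
  simp only [← kb_RmV_eq] at hp
  have h1 := kb_norm_RmV_diag_le hk hb hΦ hz u w (v + x)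
  have h2 := kb_norm_RmV_diag_le hk hb hΦ hz u w (v - x)
  have h3 := kb_norm_RmV_diag_le hk hb hΦ hz u w (v + Complex.I • x)
  have h4 := kb_norm_RmV_diag_le hk hb hΦ hz u w (v - Complex.I • x)
  have hpar := kb_parallelogram (hk.posDef hΦ z hz).isHermitian x v
  have h5 : ‖(4 : ℂ) * RmV h Φ z u w v x‖ ≤ ‖RmV h Φ z u w (v + x) (v + x)‖
      + ‖RmV h Φ z u w (v - x) (v - x)‖
      + ‖RmV h Φ z u w (v + Complex.I • x) (v + Complex.I • x)‖
      + ‖RmV h Φ z u w (v - Complex.I • x) (v - Complex.I • x)‖ := by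
    rw [hp]
    refine le_trans (norm_sub_le _ _) ?_
    refine add_le_add (le_trans (norm_add_le _ _) (add_le_add (norm_sub_le _ _) ?_)) ?_
    · rw [norm_mul, Complex.norm_I, one_mul]
    · rw [norm_mul, Complex.norm_I, one_mul]
  rw [norm_mul] at h5
  have h6 : ‖(4 : ℂ)‖ = 4 := by simp
  rw [h6] at h5
  set c := trF h (ricF h) Φ z * (Real.sqrt (qf (h Φ z) u) * Real.sqrt (qf (h Φ z) w))
  have h7 : c * qf (h Φ z) (v + x) + c * qf (h Φ z) (v - x) + c * qf (h Φ z) (v + Complex.I • x)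
      + c * qf (h Φ z) (v - Complex.I • x) = 4 * (c * (qf (h Φ z) v + qf (h Φ z) x)) := by
    rw [← mul_add, ← mul_add, ← mul_add, hpar]
    ring
  linarith

theorem kb_RmV_smul (h : HFam V ι) (Φ : CE ι → V) (z : CE ι) (u w v x : ι → ℂ) (s t : ℝ) :
    RmV h Φ z u w ((s : ℂ) • v) ((t : ℂ) • x) = ((s * t : ℝ) : ℂ) * RmV h Φ z u w v x := by
  simp only [kb_RmV_eq, star_smul, Matrix.mulVec_smul, smul_dotProduct, dotProduct_smul,
    smul_eq_mul, Complex.star_def, Complex.conj_ofReal]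
  push_cast
  ring

theorem kb_RmV_zero_3 (h : HFam V ι) (Φ : CE ι → V) (z : CE ι) (u w x : ι → ℂ) :
    RmV h Φ z u w 0 x = 0 := by
  simp [kb_RmV_eq]

theorem kb_RmV_zero_4 (h : HFam V ι) (Φ : CE ι → V) (z : CE ι) (u w v : ι → ℂ) :
    RmV h Φ z u w v 0 = 0 := by
  simp [kb_RmV_eq]

/-- Cauchy-Schwarz for the nonnegative Hermitian form `(u,w) ↦ 𝓡(u, \bar w, v, \bar v)`, then polarisation in `(v, x)`:
`|𝓡(u, \bar w, v, \bar x)| ≤ 2 R |u| |w| |v| |x|`. -/
theorem norm_RmV_le (hk : IsKahler 𝓜 h) (hb : BisecNonneg 𝓜 h) (hΦ : 𝓜.IsHol Φ U) (hz : z ∈ U)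
    (u w v x : ι → ℂ) :
    ‖RmV h Φ z u w v x‖ ≤ 2 * trF h (ricF h) Φ z *
      (Real.sqrt (qf (h Φ z) u) * Real.sqrt (qf (h Φ z) w) * Real.sqrt (qf (h Φ z) v) *
        Real.sqrt (qf (h Φ z) x)) := by
  have hS := kb_scal_nonneg hk hb hΦ hz
  have hP := hk.posDef hΦ z hz
  by_cases hv : v = 0
  · subst hv
    rw [kb_RmV_zero_3, norm_zero]
    positivity
  by_cases hx : x = 0
  · subst hx
    rw [kb_RmV_zero_4, norm_zero]
    positivity
  have qv := qf_pos hP hv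
  have qx := qf_pos hP hx
  have sv := Real.sqrt_pos.2 qv
  have sx := Real.sqrt_pos.2 qx
  have key := kb_norm_RmV_le_add hk hb hΦ hz u w
    ((((Real.sqrt (qf (h Φ z) v))⁻¹ : ℝ) : ℂ) • v) ((((Real.sqrt (qf (h Φ z) x))⁻¹ : ℝ) : ℂ) • x)
  rw [kb_RmV_smul, qf_smul_vec, qf_smul_vec, norm_mul, Complex.norm_real, Complex.norm_real,
    Complex.norm_real, Real.norm_of_nonneg (by positivity), Real.norm_of_nonneg (by positivity),
    Real.norm_of_nonneg (by positivity), inv_pow, inv_pow, Real.sq_sqrt qv.le, Real.sq_sqrt qx.le,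
    inv_mul_cancel₀ qv.ne', inv_mul_cancel₀ qx.ne'] at key
  have h1 : ‖RmV h Φ z u w v x‖ = Real.sqrt (qf (h Φ z) v) * Real.sqrt (qf (h Φ z) x)
      * ((Real.sqrt (qf (h Φ z) v))⁻¹ * (Real.sqrt (qf (h Φ z) x))⁻¹ * ‖RmV h Φ z u w v x‖) := by
    field_simp
  rw [h1]
  refine le_trans (mul_le_mul_of_nonneg_left key (by positivity)) (le_of_eq ?_)
  ring

theorem kgeo_abs_secNum_le (hk : IsKahler 𝓜 h) (hb : BisecNonneg 𝓜 h) (hΦ : 𝓜.IsHol Φ U)
    (hz : z ∈ U) (a b : CE ι) :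
    |(kgeo h Φ U).secNum z a b| ≤
      3 * trF h (ricF h) Φ z * ((kgeo h Φ U).G z a a * (kgeo h Φ U).G z b b) := by
  have hH := (hk.posDef hΦ z hz).posSemidef
  have qa := qf_nonneg hH a
  have qb := qf_nonneg hH b
  rw [kgeo_secNum hk.toIsMetric hΦ hz, kgeo_G_self, kgeo_G_self, Complex.sub_re,
    kb_RmV_symm13 hk hΦ hz b a a b, ← bisec_eq_RmV]
  have h1 := bisec_le_scal hk hb hΦ hz a b
  have h2 := hb Φ U hΦ z hz a b
  have h3 := norm_RmV_le hk hb hΦ hz b a b a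
  have h4 := Complex.abs_re_le_norm (RmV h Φ z b a b a)
  have h5 : Real.sqrt (qf (h Φ z) b) * Real.sqrt (qf (h Φ z) a) * Real.sqrt (qf (h Φ z) b)
      * Real.sqrt (qf (h Φ z) a) = qf (h Φ z) a * qf (h Φ z) b := by
    calc _ = (Real.sqrt (qf (h Φ z) a) * Real.sqrt (qf (h Φ z) a))
          * (Real.sqrt (qf (h Φ z) b) * Real.sqrt (qf (h Φ z) b)) := by ring
      _ = _ := by rw [Real.mul_self_sqrt qa, Real.mul_self_sqrt qb]
  rw [h5] at h3
  have h6 := abs_le.1 (le_trans h4 h3)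
  rw [abs_le]
  constructor <;> nlinarith [h6.1, h6.2]

theorem kgeo_nrm_curv_le (hk : IsKahler 𝓜 h) (hb : BisecNonneg 𝓜 h) (hΦ : 𝓜.IsHol Φ U)
    (hz : z ∈ U) (a b c : CE ι) :
    (kgeo h Φ U).nrm z ((kgeo h Φ U).curv z a b c) ≤
      4 * trF h (ricF h) Φ z *
        ((kgeo h Φ U).nrm z a * (kgeo h Φ U).nrm z b * (kgeo h Φ U).nrm z c) := by
  have hS := kb_scal_nonneg hk hb hΦ hz
  have hH := (hk.posDef hΦ z hz).posSemidef
  set d := (kgeo h Φ U).curv z a b c with hd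
  have qd := qf_nonneg hH d
  have h1 := kgeo_G_curv hk.toIsMetric hΦ hz a b c d
  rw [← hd, kgeo_G_self, Complex.sub_re] at h1
  have h2 := le_trans (Complex.abs_re_le_norm _) (norm_RmV_le hk hb hΦ hz c d a b)
  have h3 := le_trans (Complex.abs_re_le_norm _) (norm_RmV_le hk hb hΦ hz c d b a)
  simp only [kgeo_nrm]
  set sa := Real.sqrt (qf (h Φ z) a)
  set sb := Real.sqrt (qf (h Φ z) b)
  set sc := Real.sqrt (qf (h Φ z) c)
  set sd := Real.sqrt (qf (h Φ z) d) with hsd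
  have hsa : 0 ≤ sa := Real.sqrt_nonneg _
  have hsb : 0 ≤ sb := Real.sqrt_nonneg _
  have hsc : 0 ≤ sc := Real.sqrt_nonneg _
  have hsd0 : 0 ≤ sd := Real.sqrt_nonneg _
  have h4 : sd * sd = qf (h Φ z) d := Real.mul_self_sqrt qd
  have h5 : sd * sd ≤ (4 * trF h (ricF h) Φ z * (sa * sb * sc)) * sd := by
    rw [h4, h1]
    have := (abs_le.1 h2).2
    have := (abs_le.1 h3).1
    nlinarith
  rcases eq_or_lt_of_le hsd0 with h0 | h0
  · rw [← h0]
    positivity
  · exact le_of_mul_le_mul_right h5 h0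

end bounds

/-! ### 5. Hessian, gradient, Laplacian -/

section hessian

variable {𝓜 : CMfd V ι} {h : HFam V ι} {Φ : CE ι → V} {U : Set (CE ι)} {z : CE ι}

/-- **`dd u (a, \bar a) = (Hess u (a,a) + Hess u (Ja,Ja)) / 4`** (no Kaehler condition: `Γ(ia,ia) = -Γ(a,a)`). -/
theorem matGeo_hess_levi (H : CE ι → Matrix ι ι ℂ) (U : Set (CE ι)) {u : CE ι → ℝ}
    (hu : ContDiffAt ℝ 2 u z) (a : CE ι) :
    qf (levi u z) a =
      ((matGeo H U).hess u z a a + (matGeo H U).hess u z (Complex.I • a) (Complex.I • a)) / 4 := by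
  have h1 := qf_levi hu a
  have h2 : qf (levi u z) a = qf (levi u z) (fun j => a j) := rfl
  have h3 : chris H z (Complex.I • a) (Complex.I • a) = - chris H z a a := by
    rw [chris_smul_left, chris_smul_right, smul_smul, Complex.I_mul_I, neg_one_smul]
  rw [h2, h1]
  simp only [RGeo.hess, matGeo_Γ_apply, h3, map_neg]
  ring

theorem kgeo_hess_levi (h : HFam V ι) (Φ : CE ι → V) (U : Set (CE ι)) {u : CE ι → ℝ}
    (hu : ContDiffAt ℝ 2 u z) (a : CE ι) :
    qf (levi u z) a =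
      ((kgeo h Φ U).hess u z a a + (kgeo h Φ U).hess u z (Complex.I • a) (Complex.I • a)) / 4 :=
  matGeo_hess_levi (h Φ) U hu a

/-- `|∂u(a)|² = (du(a)² + du(Ja)²)/4`. -/
theorem norm_sum_grad10_sq {u : CE ι → ℝ} (hu : DifferentiableAt ℝ u z) (a : CE ι) :
    ‖∑ k, grad10 u z k * a k‖ ^ 2 =
      (fderiv ℝ u z a ^ 2 + fderiv ℝ u z (Complex.I • a) ^ 2) / 4 := by
  have h1 := fderiv_real_eq u hu a
  have h2 := fderiv_real_eq u hu (Complex.I • a)
  have h3 : ∑ k, grad10 u z k * (Complex.I • a) k = Complex.I * ∑ k, grad10 u z k * a k := by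
    rw [Finset.mul_sum]
    refine Finset.sum_congr rfl fun k _ => ?_
    simp only [PiLp.smul_apply, smul_eq_mul]
    ring
  rw [h3] at h2
  rw [h1, h2, Complex.sq_norm, Complex.normSq_apply]
  simp only [Complex.mul_re, Complex.I_re, Complex.I_im]
  ring

/-- the `(1,0)`-gradient of a function whose differential is `Re (Tᴴ H ·)`. -/
theorem kb_grad10_of_riesz {A : Matrix ι ι ℂ} {u : CE ι → ℝ} (hu : DifferentiableAt ℝ u z)
    {T : CE ι} (hT : ∀ b, fderiv ℝ u z b = reForm A T b) (k : ι) :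
    grad10 u z k = (1 / 2 : ℂ) * (Matrix.vecMul (star (T : ι → ℂ)) A) k := by
  have e1 : ∀ b : CE ι, fderiv ℝ (fun y => ((u y : ℝ) : ℂ)) z b = ((reForm A T b : ℝ) : ℂ) := by
    intro b
    rw [fderiv_ofReal_apply hu b, hT]
  have e2 : star (T : ι → ℂ) ⬝ᵥ A.mulVec ((eb k : CE ι) : ι → ℂ)
      = (Matrix.vecMul (star (T : ι → ℂ)) A) k := by
    rw [Matrix.dotProduct_mulVec]
    simp [eb, dotProduct]
  unfold grad10 dz
  rw [e1, e1]
  unfold reForm
  rw [ofLp_smul_CE, Matrix.mulVec_smul, dotProduct_smul, e2]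
  set w := (Matrix.vecMul (star (T : ι → ℂ)) A) k
  apply Complex.ext <;> simp

/-- `|∂u|² = |∇u|²/4`. -/
theorem gradSqF_eq_of_riesz (hm : IsMetric 𝓜 h) (hΦ : 𝓜.IsHol Φ U) (hz : z ∈ U) {u : V → ℝ}
    (hu : DifferentiableAt ℝ (u ∘ Φ) z) {T : CE ι}
    (hT : ∀ b, fderiv ℝ (u ∘ Φ) z b = (kgeo h Φ U).G z T b) :
    gradSqF h u Φ z = (kgeo h Φ U).G z T T / 4 := by
  have hP := hm.posDef hΦ z hz
  have hg : grad10 (u ∘ Φ) z = (1 / 2 : ℂ) • (Matrix.vecMul (star (T : ι → ℂ)) (h Φ z)) := by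
    funext k
    rw [kb_grad10_of_riesz hu (A := h Φ z) (T := T) (fun b => by rw [hT, kgeo_G_apply]) k]
    rfl
  have h1 : star (Matrix.vecMul (star (T : ι → ℂ)) (h Φ z)) = (h Φ z).mulVec (T : ι → ℂ) := by
    rw [Matrix.star_vecMul, star_star, hP.isHermitian.eq]
  unfold gradSqF
  rw [hg, qf_smul_vec, qf_transpose, h1, kgeo_G_self]
  have h2 : qf (h Φ z)⁻¹ ((h Φ z).mulVec (T : ι → ℂ)) = qf (h Φ z) T := by
    rw [← qf_conj, hP.isHermitian.eq,
      Matrix.mul_nonsing_inv _ (isUnit_iff_ne_zero.2 hP.det_pos.ne'), Matrix.one_mul]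
  rw [h2]
  norm_num
  ring

/-- `|du(a)| ≤ 2 |∂u| |a|`. -/
theorem abs_fderiv_le_gradSqF (hm : IsMetric 𝓜 h) (hΦ : 𝓜.IsHol Φ U) (hz : z ∈ U) {u : V → ℝ}
    (hu : DifferentiableAt ℝ (u ∘ Φ) z) (a : CE ι) :
    |fderiv ℝ (u ∘ Φ) z a| ≤ 2 * Real.sqrt (gradSqF h u Φ z) * (kgeo h Φ U).nrm z a := by
  have hP := hm.posDef hΦ z hz
  have h1 := fderiv_real_eq (u ∘ Φ) hu a
  have h2 := dual_cauchy_schwarz hP (grad10 (u ∘ Φ) z) a
  have h3 : ‖∑ k, grad10 (u ∘ Φ) z k * a k‖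
      ≤ Real.sqrt (gradSqF h u Φ z) * (kgeo h Φ U).nrm z a := by
    rw [kgeo_nrm, ← Real.sqrt_mul' _ (qf_nonneg hP.posSemidef a)]
    exact Real.le_sqrt_of_sq_le h2
  have h4 := Complex.abs_re_le_norm (∑ k, grad10 (u ∘ Φ) z k * a k)
  rw [h1, abs_mul, abs_two, mul_assoc]
  exact mul_le_mul_of_nonneg_left (le_trans h4 h3) zero_le_two

/-- the trace of a bilinear form does not depend on the frame. -/
theorem kb_sum_frame_eq {W : Type} [NormedAddCommGroup W] [NormedSpace ℝ W] {S : RGeo W} {x : W}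
    (hS : S.IsRiem) (hx : x ∈ S.U) {κ κ' : Type} [Fintype κ] [Fintype κ'] {e : κ → W} {e' : κ' → W}
    (he : S.IsFrame x e) (he' : S.IsFrame x e') (B : W →L[ℝ] W →L[ℝ] ℝ) :
    ∑ i, B (e i) (e i) = ∑ j, B (e' j) (e' j) := by
  classical
  have h1 : ∀ i, B (e i) (e i)
      = ∑ j, ∑ k, (S.G x (e' j) (e i) * S.G x (e' k) (e i)) * B (e' j) (e' k) := by
    intro i
    conv_lhs => rw [RGeo.IsFrame.repr hS hx he' (e i)]
    simp only [map_sum, ContinuousLinearMap.sum_apply, map_smul, ContinuousLinearMap.smul_apply,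
      smul_eq_mul, Finset.mul_sum]
    rw [Finset.sum_comm]
    refine Finset.sum_congr rfl fun j _ => Finset.sum_congr rfl fun k _ => ?_
    rw [hS.G_symm x hx (e i) (e' j), hS.G_symm x hx (e i) (e' k)]
    ring
  simp only [h1]
  rw [Finset.sum_comm]
  refine Finset.sum_congr rfl fun j _ => ?_
  rw [Finset.sum_comm]
  simp only [← Finset.sum_mul, ← RGeo.IsFrame.G_eq_sum hS hx he]
  rw [Finset.sum_eq_single j]
  · rw [he'.unit, one_mul]
  · intro k _ hk
    rw [he'.orth j k (Ne.symm hk), zero_mul]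
  · intro hj
    exact absurd (Finset.mem_univ j) hj

/-- `Δ_h u = (1/4) ∑ Hess u (e_i, e_i)`. -/
theorem trF_ddc_eq_sum_hess (hk : IsKahler 𝓜 h) (hΦ : 𝓜.IsHol Φ U) (hz : z ∈ U) {u : V → ℝ}
    (hu : ContDiffAt ℝ 2 (u ∘ Φ) z) {κ : Type} [Fintype κ] {e : κ → CE ι}
    (he : (kgeo h Φ U).IsFrame z e) :
    trF h (ddc u) Φ z = (1 / 4) * ∑ i, (kgeo h Φ U).hess (u ∘ Φ) z (e i) (e i) := by
  obtain ⟨T, d, -, hT, hD⟩ := exists_simDiag (hk.posDef hΦ z hz) (levi_isHermitian hu)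
  have hfr : (kgeo h Φ U).IsFrame z (uFrame T) := isFrame_uFrame hT
  set B : CE ι →L[ℝ] CE ι →L[ℝ] ℝ := fderiv ℝ (fderiv ℝ (u ∘ Φ)) z
    - (ContinuousLinearMap.compL ℝ (CE ι) (CE ι) ℝ (fderiv ℝ (u ∘ Φ) z)).comp ((kgeo h Φ U).Γ z)
    with hB
  have hBe : ∀ a b, (kgeo h Φ U).hess (u ∘ Φ) z a b = B a b := by
    intro a b
    rw [RGeo.hess_eq _ hu, hB]
    simp
  simp only [hBe]
  rw [kb_sum_frame_eq (kgeo_isRiem hk hΦ) hz he hfr B, Fintype.sum_sum_type,
    ← Finset.sum_add_distrib]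
  unfold trF ddc
  rw [simDiag_trace_re hT hD, Finset.mul_sum]
  refine Finset.sum_congr rfl fun i _ => ?_
  have e1 : uFrame T (Sum.inl i) = colV T i := rfl
  have e2 : uFrame T (Sum.inr i) = Complex.I • colV T i := rfl
  have h1 := kgeo_hess_levi h Φ U hu (colV T i)
  rw [e1, e2, ← hBe, ← hBe]
  have h2 : qf (levi (u ∘ Φ) z) (colV T i) = d i := by
    unfold qf
    rw [herm_colV, hD]
    simp
  rw [h2] at h1
  rw [h1]
  ring

end hessian

end Claimed.Agent.R316
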