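import Claimed.Agent.R316.Base.RGeo.Defs

/-!
# `BP-G1` part 1: `RGeo`, pointwise metric facts, frames, uniqueness and existence of `Γ`

Architect: helper294.  Everything here is about ONE `RGeo W` (`Base/RGeo/Defs.lean`, frozen).

Leaves
* `G1-BASIC-A` = sections 1, 2 (restriction, locality, regularity, Cauchy-Schwarz, compact bounds).
* `G1-BASIC-B` = section 3 (orthonormal frames).
* `G1-LC`      = section 4 (uniqueness of `Γ`; Koszul formula: every smooth metric has a `Γ`).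

PLANS.
* Section 1: unfold; `ContDiffOn.mono`, `ContDiffOn.congr`, `IsOpen.mem_nhds`,
  `Filter.EventuallyEq.fderiv_eq` (for `congr`: `S'.G = S.G` on the neighbourhood `S.U` of `x`).
  `of_local`: `isOpen_iff_mem_nhds`, `contDiffOn` is local (`ContDiffOn.contDiffAt`, `ContDiffAt.contDiffWithinAt`).
* Section 2: `abs_G_le`: the polynomial `t ↦ G (a + t b) (a + t b) ≥ 0` (`discrim_le_zero`) or: build
  `InnerProductSpace.Core ℝ W` from `S.G x` (used in section 3 anyway) and quote `abs_real_inner_le_norm`.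
  `exists_bounds`: the function `(x, a) ↦ G x a a` is continuous and positive on the compact set
  `K ×ˢ sphere 0 1` (`IsCompact.exists_isMinOn`, `IsCompact.exists_isMaxOn`; `K = ∅` or `W` trivial apart), then scale.
* Section 3: `InnerProductSpace.Core` from `S.G x` on a type synonym of `W`; `stdOrthonormalBasis`,
  `Orthonormal.exists_orthonormalBasis_extension_of_card_eq` for the prescribed unit vector.
  `IsFrame.repr`: `a - ∑ G(a, e i) e i` is `G`-orthogonal to all `e j`, hence to the span `= ⊤`, hence to itself.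
  `IsFrame.trace_eq`: `LinearMap.trace_eq_matrix_trace` with the basis `IsFrame.basis`.
* Section 4: `Γ_unique`: Koszul: from `compat` (three cyclic copies) and `Γ_symm`:
  `2 G(Γ(a,b),c) = DG(a)(b,c) + DG(b)(a,c) - DG(c)(a,b)`; `fderiv` of the two metrics agree
  (`Filter.EventuallyEq.fderiv_eq`); conclude by `IsRiem.eq_of_G_eq`.
  `isRiem_ofMetric`: `G x : W →L W →L ℝ` is injective (positivity), hence invertible (finite dimension:
  `LinearEquiv.ofInjectiveEndo`-like / `ContinuousLinearEquiv.ofBijective`/`LinearMap.injective_iff_surjective_of_finrank_eq_finrank`,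
  `Module.finrank` of the dual), so `G x (lcΓ G x a b) = koszul G x a b`
  (`ContinuousLinearMap.IsInvertible.self_comp_inverse`-type lemmas); smoothness:
  `ContinuousLinearMap.IsInvertible.contDiffAt_map_inverse`, `ContDiffOn.fderiv_of_isOpen`, `ContDiff.clm_comp`;
  `Γ_symm`, `compat`: algebra from `koszul_apply` and the symmetry of `fderiv G x a` (differentiate `G_symm`).
-/

set_option autoImplicit false
set_option linter.unusedSectionVars false
set_option linter.deprecated false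
-- needed for arithmetic in `W →L[ℝ] W →L[ℝ] W →L[ℝ] _` (this is the value used inside Mathlib)
set_option maxSynthPendingDepth 3
open scoped ContDiff Topology

namespace Claimed.Agent.R316
namespace RGeo

variable {W : Type} [NormedAddCommGroup W] [NormedSpace ℝ W]
variable {S S' : RGeo W} {x a b c : W}

/-! ### 1. restriction, locality, regularity at a point -/

/-- the same metric and connection on another domain. -/
def restr (S : RGeo W) (U' : Set W) : RGeo W := ⟨U', S.G, S.Γ⟩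

@[simp] theorem restr_U (S : RGeo W) (U' : Set W) : (S.restr U').U = U' := rfl
@[simp] theorem restr_G (S : RGeo W) (U' : Set W) : (S.restr U').G = S.G := rfl
@[simp] theorem restr_Γ (S : RGeo W) (U' : Set W) : (S.restr U').Γ = S.Γ := rfl
@[simp] theorem restr_nrm (S : RGeo W) (U' : Set W) : (S.restr U').nrm = S.nrm := rfl
@[simp] theorem restr_covD (S : RGeo W) (U' : Set W) : (S.restr U').covD = S.covD := rfl
@[simp] theorem restr_nabla (S : RGeo W) (U' : Set W) : (S.restr U').nabla = S.nabla := rfl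
@[simp] theorem restr_curv (S : RGeo W) (U' : Set W) : (S.restr U').curv = S.curv := rfl
@[simp] theorem restr_secNum (S : RGeo W) (U' : Set W) : (S.restr U').secNum = S.secNum := rfl
@[simp] theorem restr_length (S : RGeo W) (U' : Set W) : (S.restr U').length = S.length := rfl
@[simp] theorem restr_energy (S : RGeo W) (U' : Set W) : (S.restr U').energy = S.energy := rfl
@[simp] theorem restr_hess (S : RGeo W) (U' : Set W) : (S.restr U').hess = S.hess := rfl
@[simp] theorem restr_isParallel (S : RGeo W) (U' : Set W) :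
    (S.restr U').IsParallel = S.IsParallel := rfl

theorem IsRiem.restr (hS : S.IsRiem) {U' : Set W} (hU' : IsOpen U') (hsub : U' ⊆ S.U) :
    (S.restr U').IsRiem where
  isOpen := hU'
  G_smooth := hS.G_smooth.mono hsub
  Γ_smooth := hS.Γ_smooth.mono hsub
  G_symm := fun x hx => hS.G_symm x (hsub hx)
  G_pos := fun x hx => hS.G_pos x (hsub hx)
  Γ_symm := fun x hx => hS.Γ_symm x (hsub hx)
  compat := fun x hx => hS.compat x (hsub hx)

theorem IsRiem.mem_nhds (hS : S.IsRiem) (hx : x ∈ S.U) : S.U ∈ 𝓝 x := hS.isOpen.mem_nhds hx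

theorem IsRiem.contDiffAt_G (hS : S.IsRiem) (hx : x ∈ S.U) : ContDiffAt ℝ ∞ S.G x :=
  hS.G_smooth.contDiffAt (hS.mem_nhds hx)

theorem IsRiem.contDiffAt_Γ (hS : S.IsRiem) (hx : x ∈ S.U) : ContDiffAt ℝ ∞ S.Γ x :=
  hS.Γ_smooth.contDiffAt (hS.mem_nhds hx)

theorem IsRiem.differentiableAt_G (hS : S.IsRiem) (hx : x ∈ S.U) : DifferentiableAt ℝ S.G x :=
  (hS.contDiffAt_G hx).differentiableAt (by simp)

theorem IsRiem.differentiableAt_Γ (hS : S.IsRiem) (hx : x ∈ S.U) : DifferentiableAt ℝ S.Γ x :=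
  (hS.contDiffAt_Γ hx).differentiableAt (by simp)

theorem IsRiem.continuousOn_G (hS : S.IsRiem) : ContinuousOn S.G S.U := hS.G_smooth.continuousOn

theorem IsRiem.continuousOn_Γ (hS : S.IsRiem) : ContinuousOn S.Γ S.U := hS.Γ_smooth.continuousOn

theorem IsRiem.congr (hS : S.IsRiem) (hU : S'.U = S.U) (hG : Set.EqOn S'.G S.G S.U)
    (hΓ : Set.EqOn S'.Γ S.Γ S.U) : S'.IsRiem := by
  refine ⟨hU ▸ hS.isOpen, ?_, ?_, ?_, ?_, ?_, ?_⟩
  · rw [hU]; exact hS.G_smooth.congr hG
  · rw [hU]; exact hS.Γ_smooth.congr hΓ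
  · intro x hx a b
    rw [hU] at hx
    rw [hG hx]; exact hS.G_symm x hx a b
  · intro x hx a ha
    rw [hU] at hx
    rw [hG hx]; exact hS.G_pos x hx a ha
  · intro x hx a b
    rw [hU] at hx
    rw [hΓ hx]; exact hS.Γ_symm x hx a b
  · intro x hx a b c
    rw [hU] at hx
    have hev : S'.G =ᶠ[𝓝 x] S.G := by
      filter_upwards [hS.mem_nhds hx] with y hy using hG hy
    rw [hev.fderiv_eq, hG hx, hΓ hx]
    exact hS.compat x hx a b c

/-- being Riemannian is a local property. -/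
theorem IsRiem.of_local
    (h : ∀ x ∈ S.U, ∃ U' : Set W, x ∈ U' ∧ U' ⊆ S.U ∧ (S.restr U').IsRiem) : S.IsRiem := by
  refine ⟨?_, ?_, ?_, ?_, ?_, ?_, ?_⟩
  · rw [isOpen_iff_mem_nhds]
    intro x hx
    obtain ⟨U', hxU', hsub, hR⟩ := h x hx
    exact Filter.mem_of_superset (hR.isOpen.mem_nhds hxU') hsub
  · intro x hx
    obtain ⟨U', hxU', hsub, hR⟩ := h x hx
    exact (hR.contDiffAt_G hxU').contDiffWithinAt
  · intro x hx
    obtain ⟨U', hxU', hsub, hR⟩ := h x hx
    exact (hR.contDiffAt_Γ hxU').contDiffWithinAt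
  · intro x hx
    obtain ⟨U', hxU', hsub, hR⟩ := h x hx
    exact hR.G_symm x hxU'
  · intro x hx
    obtain ⟨U', hxU', hsub, hR⟩ := h x hx
    exact hR.G_pos x hxU'
  · intro x hx
    obtain ⟨U', hxU', hsub, hR⟩ := h x hx
    exact hR.Γ_symm x hxU'
  · intro x hx
    obtain ⟨U', hxU', hsub, hR⟩ := h x hx
    exact hR.compat x hxU'

/-- the derivative of the metric is symmetric. -/
theorem IsRiem.fderiv_G_symm (hS : S.IsRiem) (hx : x ∈ S.U) (e a b : W) :
    fderiv ℝ S.G x e a b = fderiv ℝ S.G x e b a := by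
  rw [hS.compat x hx, hS.compat x hx, hS.G_symm x hx (S.Γ x e a) b, hS.G_symm x hx a (S.Γ x e b)]
  ring

theorem fderiv_apply_apply {A B C : Type*} [NormedAddCommGroup A] [NormedSpace ℝ A]
    [NormedAddCommGroup B] [NormedSpace ℝ B] [NormedAddCommGroup C] [NormedSpace ℝ C]
    {T : W → A →L[ℝ] B →L[ℝ] C} (hT : DifferentiableAt ℝ T x) (e : W) (a : A) (b : B) :
    fderiv ℝ (fun y => T y a b) x e = fderiv ℝ T x e a b := by
  have h1 := (hT.hasFDerivAt.clm_apply (hasFDerivAt_const a x)).clm_apply (hasFDerivAt_const b x)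
  rw [h1.fderiv]
  simp

/-- the derivative of the connection is symmetric in the last two slots. -/
theorem IsRiem.fderiv_Γ_symm (hS : S.IsRiem) (hx : x ∈ S.U) (e a b : W) :
    fderiv ℝ S.Γ x e a b = fderiv ℝ S.Γ x e b a := by
  rw [← fderiv_apply_apply (hS.differentiableAt_Γ hx), ← fderiv_apply_apply (hS.differentiableAt_Γ hx)]
  have hev : (fun y => S.Γ y a b) =ᶠ[𝓝 x] fun y => S.Γ y b a := by
    filter_upwards [hS.mem_nhds hx] with y hy using hS.Γ_symm y hy a b
  rw [hev.fderiv_eq]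

/-- substitution of smooth maps in the metric. -/
theorem IsRiem.contDiffOn_G_comp {P : Type*} [NormedAddCommGroup P] [NormedSpace ℝ P]
    (hS : S.IsRiem) {n : WithTop ℕ∞} (hn : n ≤ ∞) {f Y Z : P → W} {O : Set P}
    (hf : ContDiffOn ℝ n f O)
    (hfU : ∀ p ∈ O, f p ∈ S.U) (hY : ContDiffOn ℝ n Y O) (hZ : ContDiffOn ℝ n Z O) :
    ContDiffOn ℝ n (fun p => S.G (f p) (Y p) (Z p)) O :=
  ((((hS.G_smooth.of_le hn).comp hf hfU).clm_apply hY).clm_apply hZ)

/-- substitution of smooth maps in the connection. -/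
theorem IsRiem.contDiffOn_Γ_comp {P : Type*} [NormedAddCommGroup P] [NormedSpace ℝ P]
    (hS : S.IsRiem) {n : WithTop ℕ∞} (hn : n ≤ ∞) {f Y Z : P → W} {O : Set P}
    (hf : ContDiffOn ℝ n f O)
    (hfU : ∀ p ∈ O, f p ∈ S.U) (hY : ContDiffOn ℝ n Y O) (hZ : ContDiffOn ℝ n Z O) :
    ContDiffOn ℝ n (fun p => S.Γ (f p) (Y p) (Z p)) O :=
  ((((hS.Γ_smooth.of_le hn).comp hf hfU).clm_apply hY).clm_apply hZ)

/-! ### 2. the inner product `G x` -/

theorem IsRiem.G_self_nonneg (hS : S.IsRiem) (hx : x ∈ S.U) (a : W) : 0 ≤ S.G x a a := by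
  rcases eq_or_ne a 0 with rfl | ha
  · simp
  · exact (hS.G_pos x hx a ha).le

theorem IsRiem.G_self_eq_zero (hS : S.IsRiem) (hx : x ∈ S.U) : S.G x a a = 0 ↔ a = 0 := by
  constructor
  · intro h
    by_contra ha
    exact (hS.G_pos x hx a ha).ne' h
  · rintro rfl
    simp

theorem nrm_nonneg (S : RGeo W) (x a : W) : 0 ≤ S.nrm x a := Real.sqrt_nonneg _

@[simp] theorem nrm_zero (S : RGeo W) (x : W) : S.nrm x 0 = 0 := by simp [nrm]

theorem IsRiem.nrm_sq (hS : S.IsRiem) (hx : x ∈ S.U) (a : W) : S.nrm x a ^ 2 = S.G x a a :=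
  Real.sq_sqrt (hS.G_self_nonneg hx a)

theorem IsRiem.nrm_mul_self (hS : S.IsRiem) (hx : x ∈ S.U) (a : W) :
    S.nrm x a * S.nrm x a = S.G x a a :=
  Real.mul_self_sqrt (hS.G_self_nonneg hx a)

theorem IsRiem.nrm_eq_zero (hS : S.IsRiem) (hx : x ∈ S.U) : S.nrm x a = 0 ↔ a = 0 := by
  rw [nrm, Real.sqrt_eq_zero (hS.G_self_nonneg hx a), hS.G_self_eq_zero hx]

theorem IsRiem.nrm_pos (hS : S.IsRiem) (hx : x ∈ S.U) (ha : a ≠ 0) : 0 < S.nrm x a :=
  Real.sqrt_pos.2 (hS.G_pos x hx a ha)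

theorem nrm_smul (S : RGeo W) (x : W) (r : ℝ) (a : W) : S.nrm x (r • a) = |r| * S.nrm x a := by
  simp only [nrm, map_smul, ContinuousLinearMap.smul_apply, smul_eq_mul]
  rw [← mul_assoc, Real.sqrt_mul (mul_self_nonneg r), Real.sqrt_mul_self_eq_abs]

theorem nrm_neg (S : RGeo W) (x a : W) : S.nrm x (-a) = S.nrm x a := by
  simp [nrm]

/-- Cauchy-Schwarz. -/
theorem IsRiem.G_sq_le (hS : S.IsRiem) (hx : x ∈ S.U) (a b : W) :
    S.G x a b ^ 2 ≤ S.G x a a * S.G x b b := by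
  rcases eq_or_ne b 0 with rfl | hb
  · simp
  have hbb := hS.G_pos x hx b hb
  set t : ℝ := S.G x a b / S.G x b b with ht
  have h := hS.G_self_nonneg hx (a - t • b)
  simp only [map_sub, map_smul, ContinuousLinearMap.sub_apply, ContinuousLinearMap.smul_apply,
    smul_eq_mul] at h
  rw [hS.G_symm x hx b a] at h
  have e : S.G x a a - t * S.G x a b - t * (S.G x a b - t * S.G x b b) =
      S.G x a a - S.G x a b ^ 2 / S.G x b b := by
    rw [ht]; field_simp; ring
  rw [e] at h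
  have h2 : S.G x a b ^ 2 / S.G x b b ≤ S.G x a a := by linarith
  rwa [div_le_iff₀ hbb] at h2

/-- Cauchy-Schwarz. -/
theorem IsRiem.abs_G_le (hS : S.IsRiem) (hx : x ∈ S.U) (a b : W) :
    |S.G x a b| ≤ S.nrm x a * S.nrm x b := by
  rw [nrm, nrm, ← Real.sqrt_mul (hS.G_self_nonneg hx a), ← Real.sqrt_sq_eq_abs]
  exact Real.sqrt_le_sqrt (IsRiem.G_sq_le hS hx a b)

theorem IsRiem.nrm_add_le (hS : S.IsRiem) (hx : x ∈ S.U) (a b : W) :
    S.nrm x (a + b) ≤ S.nrm x a + S.nrm x b := by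
  have h1 := (abs_le.1 (IsRiem.abs_G_le hS hx a b)).2
  have na := S.nrm_nonneg x a
  have nb := S.nrm_nonneg x b
  rw [nrm, Real.sqrt_le_iff]
  refine ⟨by positivity, ?_⟩
  simp only [map_add, ContinuousLinearMap.add_apply]
  rw [hS.G_symm x hx b a, ← hS.nrm_sq hx a, ← hS.nrm_sq hx b]
  nlinarith

theorem IsRiem.nrm_sub_le (hS : S.IsRiem) (hx : x ∈ S.U) (a b : W) :
    S.nrm x (a - b) ≤ S.nrm x a + S.nrm x b := by
  have := IsRiem.nrm_add_le hS hx a (-b)
  rwa [nrm_neg, ← sub_eq_add_neg] at this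

theorem IsRiem.abs_nrm_sub_le (hS : S.IsRiem) (hx : x ∈ S.U) (a b : W) :
    |S.nrm x a - S.nrm x b| ≤ S.nrm x (a - b) := by
  have h1 := IsRiem.nrm_add_le hS hx (a - b) b
  have h2 := IsRiem.nrm_add_le hS hx (b - a) a
  rw [sub_add_cancel] at h1 h2
  have h3 : S.nrm x (b - a) = S.nrm x (a - b) := by rw [← nrm_neg, neg_sub]
  rw [abs_le]
  constructor <;> linarith

/-- nondegeneracy. -/
theorem IsRiem.eq_of_G_eq (hS : S.IsRiem) (hx : x ∈ S.U) (h : ∀ c, S.G x a c = S.G x b c) :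
    a = b := by
  have h0 : S.G x (a - b) (a - b) = 0 := by
    have := h (a - b)
    simp only [map_sub, ContinuousLinearMap.sub_apply] at this ⊢
    linarith
  exact sub_eq_zero.1 ((hS.G_self_eq_zero hx).1 h0)

/-- `G x`, as a map into the dual, is invertible. -/
theorem IsRiem.isInvertible_G [FiniteDimensional ℝ W] (hS : S.IsRiem) (hx : x ∈ S.U) :
    (S.G x).IsInvertible := by
  have hinj : Function.Injective (S.G x : W →ₗ[ℝ] (W →L[ℝ] ℝ)) := by
    intro a b hab
    refine hS.eq_of_G_eq hx fun c => ?_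
    have : S.G x a = S.G x b := hab
    rw [this]
  have hdim : Module.finrank ℝ W = Module.finrank ℝ (W →L[ℝ] ℝ) := by
    rw [← (LinearMap.toContinuousLinearMap : (W →ₗ[ℝ] ℝ) ≃ₗ[ℝ] (W →L[ℝ] ℝ)).finrank_eq]
    exact (Subspace.dual_finrank_eq (K := ℝ) (V := W)).symm
  refine ⟨(LinearEquiv.ofInjectiveOfFinrankEq _ hinj hdim).toContinuousLinearEquiv, ?_⟩
  ext a b
  rfl

/-- Riesz representation. -/
theorem IsRiem.exists_riesz [FiniteDimensional ℝ W] (hS : S.IsRiem) (hx : x ∈ S.U)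
    (φ : W →L[ℝ] ℝ) : ∃ a : W, ∀ b, S.G x a b = φ b := by
  obtain ⟨A, hA⟩ := IsRiem.isInvertible_G hS hx
  refine ⟨A.symm φ, fun b => ?_⟩
  rw [← hA]
  simp

/-- the norm of a covector: `|φ b| ≤ nrm a · nrm b` if `a` represents `φ`, with equality at `b = a`. -/
theorem IsRiem.nrm_eq_of_forall_le (hS : S.IsRiem) (hx : x ∈ S.U) {C : ℝ} (hC : 0 ≤ C)
    (h : ∀ b, S.G x a b ≤ C * S.nrm x b) : S.nrm x a ≤ C := by
  have h1 := h a
  rw [← hS.nrm_mul_self hx a] at h1
  rcases (S.nrm_nonneg x a).eq_or_lt with h0 | h0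
  · rw [← h0]; exact hC
  · exact le_of_mul_le_mul_right h1 h0

theorem IsRiem.continuousOn_G_self (hS : S.IsRiem) :
    ContinuousOn (fun q : W × W => S.G q.1 q.2 q.2) (S.U ×ˢ Set.univ) := by
  have h1 : ContinuousOn (fun q : W × W => S.G q.1) (S.U ×ˢ Set.univ) :=
    hS.continuousOn_G.comp continuousOn_fst fun q hq => hq.1
  exact (h1.clm_apply continuousOn_snd).clm_apply continuousOn_snd

/-- continuity of the norm. -/
theorem IsRiem.continuousOn_nrm (hS : S.IsRiem) :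
    ContinuousOn (fun q : W × W => S.nrm q.1 q.2) (S.U ×ˢ Set.univ) :=
  (IsRiem.continuousOn_G_self hS).sqrt

/-- two sided comparison with the norm of `W`, uniform on compact sets. -/
theorem IsRiem.exists_bounds [FiniteDimensional ℝ W] (hS : S.IsRiem) {K : Set W}
    (hK : IsCompact K) (hKU : K ⊆ S.U) :
    ∃ m M : ℝ, 0 < m ∧ 0 < M ∧ ∀ x ∈ K, ∀ a, m * ‖a‖ ≤ S.nrm x a ∧ S.nrm x a ≤ M * ‖a‖ := by
  set T : Set (W × W) := K ×ˢ Metric.sphere (0 : W) 1 with hT
  have hTc : IsCompact T := hK.prod (isCompact_sphere 0 1)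
  have hcont : ContinuousOn (fun q : W × W => S.nrm q.1 q.2) T :=
    (IsRiem.continuousOn_nrm hS).mono fun q hq => ⟨hKU hq.1, trivial⟩
  rcases T.eq_empty_or_nonempty with hemp | hne
  · refine ⟨1, 1, one_pos, one_pos, fun x hx a => ?_⟩
    rcases eq_or_ne a 0 with rfl | ha
    · simp
    · exfalso
      have : (x, ‖a‖⁻¹ • a) ∈ T := by
        refine ⟨hx, ?_⟩
        simp [norm_smul, ha]
      rw [hemp] at this
      exact this
  obtain ⟨q₁, hq₁, hmin⟩ := hTc.exists_isMinOn hne hcont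
  obtain ⟨q₂, hq₂, hmax⟩ := hTc.exists_isMaxOn hne hcont
  have hpos : ∀ q ∈ T, 0 < S.nrm q.1 q.2 := by
    intro q hq
    refine hS.nrm_pos (hKU hq.1) ?_
    intro h0
    have : ‖q.2‖ = 1 := by simpa using hq.2
    rw [h0] at this
    simp at this
  refine ⟨S.nrm q₁.1 q₁.2, S.nrm q₂.1 q₂.2, hpos q₁ hq₁, hpos q₂ hq₂, fun x hx a => ?_⟩
  rcases eq_or_ne a 0 with rfl | ha
  · simp
  have hna : 0 < ‖a‖ := norm_pos_iff.2 ha
  have hmem : (x, ‖a‖⁻¹ • a) ∈ T := by
    refine ⟨hx, ?_⟩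
    simp [norm_smul, ha]
  have e : S.nrm x a = ‖a‖ * S.nrm x (‖a‖⁻¹ • a) := by
    rw [nrm_smul, abs_of_pos (inv_pos.2 hna)]
    field_simp
  have h1 : S.nrm q₁.1 q₁.2 ≤ S.nrm x (‖a‖⁻¹ • a) := hmin hmem
  have h2 : S.nrm x (‖a‖⁻¹ • a) ≤ S.nrm q₂.1 q₂.2 := hmax hmem
  rw [e]
  constructor
  · rw [mul_comm]; gcongr
  · rw [mul_comm]; gcongr

/-- the metric varies slowly: for every `η > 0` the norms at nearby points are `(1+η)`-comparable. -/
theorem IsRiem.exists_nhds_nrm_le [FiniteDimensional ℝ W] (hS : S.IsRiem) (hx : x ∈ S.U) {η : ℝ}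
    (hη : 0 < η) : ∀ᶠ y in 𝓝 x, ∀ a, S.nrm y a ≤ (1 + η) * S.nrm x a ∧
      S.nrm x a ≤ (1 + η) * S.nrm y a := by
  obtain ⟨m, M, hm, hM, hb⟩ := IsRiem.exists_bounds hS (K := {x}) isCompact_singleton
    (Set.singleton_subset_iff.2 hx)
  set δ : ℝ := η / (1 + η) with hδ
  have hδpos : 0 < δ := by positivity
  have hcont : ContinuousAt S.G x := (hS.differentiableAt_G hx).continuousAt
  have hev : ∀ᶠ y in 𝓝 x, ‖S.G y - S.G x‖ < δ * m ^ 2 := by
    have := Metric.continuousAt_iff.1 hcont (δ * m ^ 2) (by positivity)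
    obtain ⟨r, hr, h⟩ := this
    filter_upwards [Metric.ball_mem_nhds x hr] with y hy
    have := h hy
    rwa [dist_eq_norm] at this
  filter_upwards [hev] with y hy a
  have h1 : |S.G y a a - S.G x a a| ≤ δ * S.G x a a := by
    have e : S.G y a a - S.G x a a = (S.G y - S.G x) a a := by simp
    rw [e]
    have h2 : ‖(S.G y - S.G x) a a‖ ≤ ‖S.G y - S.G x‖ * ‖a‖ * ‖a‖ :=
      ((S.G y - S.G x) a).le_opNorm a |>.trans (by gcongr; exact (S.G y - S.G x).le_opNorm a)
    rw [Real.norm_eq_abs] at h2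
    have h3 := (hb x rfl a).1
    have h4 : (m * ‖a‖) ^ 2 ≤ S.G x a a := by
      rw [← hS.nrm_sq hx a]
      gcongr
    calc |(S.G y - S.G x) a a| ≤ ‖S.G y - S.G x‖ * ‖a‖ * ‖a‖ := h2
      _ ≤ δ * m ^ 2 * ‖a‖ * ‖a‖ := by gcongr
      _ = δ * (m * ‖a‖) ^ 2 := by ring
      _ ≤ δ * S.G x a a := by gcongr
  have hG0 := hS.G_self_nonneg hx a
  obtain ⟨l1, l2⟩ := abs_le.1 h1
  have hδ1 : (1 - δ) * (1 + η) = 1 := by rw [hδ]; field_simp; ring
  have hδη : δ ≤ η := by
    rw [hδ, div_le_iff₀ (by positivity)]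
    nlinarith
  have hη1 : (0 : ℝ) < 1 + η := by positivity
  constructor
  · rw [nrm, nrm, ← Real.sqrt_sq hη1.le, ← Real.sqrt_mul (by positivity)]
    apply Real.sqrt_le_sqrt
    have h8 : δ * S.G x a a ≤ η * S.G x a a := by gcongr
    have h9 : (1 + η) * S.G x a a ≤ (1 + η) ^ 2 * S.G x a a := by
      have : (1 + η) ≤ (1 + η) ^ 2 := by nlinarith
      gcongr
    linarith
  · rw [nrm, nrm, ← Real.sqrt_sq hη1.le, ← Real.sqrt_mul (by positivity)]
    apply Real.sqrt_le_sqrt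
    have h5 : (1 - δ) * S.G x a a ≤ S.G y a a := by linarith
    have h6 : S.G x a a ≤ (1 + η) * S.G y a a := by
      have := mul_le_mul_of_nonneg_left h5 hη1.le
      calc S.G x a a = ((1 - δ) * (1 + η)) * S.G x a a := by rw [hδ1, one_mul]
        _ = (1 + η) * ((1 - δ) * S.G x a a) := by ring
        _ ≤ (1 + η) * S.G y a a := this
    have h7 : 0 ≤ S.G y a a := by
      have : 0 ≤ (1 - δ) := by
        have : 0 < (1 - δ) * (1 + η) := by rw [hδ1]; exact one_pos
        exact (pos_of_mul_pos_left this hη1.le).le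
      exact (mul_nonneg this hG0).trans h5
    nlinarith

/-! ### 3. orthonormal frames -/

/-- `e` is a `G x`-orthonormal basis of `W`. -/
structure IsFrame (S : RGeo W) (x : W) {κ : Type} (e : κ → W) : Prop where
  unit : ∀ i, S.G x (e i) (e i) = 1
  orth : ∀ i j, i ≠ j → S.G x (e i) (e j) = 0
  span : ∀ a : W, a ∈ Submodule.span ℝ (Set.range e)

section frames

variable {κ : Type} {e : κ → W}

/-- the coefficient of a finite combination of frame vectors. -/
theorem IsFrame.G_sum_left (he : S.IsFrame x e) (s : Finset κ) (u : κ → ℝ) {j : κ} (hj : j ∈ s) :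
    S.G x (∑ i ∈ s, u i • e i) (e j) = u j := by
  classical
  rw [map_sum, ContinuousLinearMap.sum_apply, Finset.sum_eq_single j]
  · rw [map_smul, ContinuousLinearMap.smul_apply, he.unit j, smul_eq_mul, mul_one]
  · intro i _ hij
    rw [map_smul, ContinuousLinearMap.smul_apply, he.orth i j hij, smul_zero]
  · intro h
    exact absurd hj h

theorem IsFrame.linearIndependent (he : S.IsFrame x e) : LinearIndependent ℝ e := by
  rw [linearIndependent_iff']
  intro s g hg j hj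
  have := he.G_sum_left s g hj
  rw [hg] at this
  simpa using this.symm

/-- the frame as a basis. -/
noncomputable def IsFrame.basis (he : S.IsFrame x e) : Module.Basis κ ℝ W :=
  Module.Basis.mk he.linearIndependent (fun a _ => he.span a)

theorem IsFrame.basis_apply (he : S.IsFrame x e) (i : κ) : he.basis i = e i := by
  simp [IsFrame.basis]

variable [Fintype κ]

theorem IsFrame.card_eq (he : S.IsFrame x e) : Fintype.card κ = Module.finrank ℝ W := by
  rw [Module.finrank_eq_card_basis he.basis]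

theorem IsFrame.G_eq_repr (he : S.IsFrame x e) (a : W) (j : κ) : S.G x a (e j) = he.basis.repr a j := by
  have h1 : a = ∑ i, he.basis.repr a i • e i := by
    conv_lhs => rw [← he.basis.sum_repr a]
    simp only [IsFrame.basis_apply]
  conv_lhs => rw [h1]
  exact he.G_sum_left Finset.univ _ (Finset.mem_univ j)

/-- expansion in a frame. -/
theorem IsFrame.repr (hS : S.IsRiem) (hx : x ∈ S.U) (he : S.IsFrame x e) (a : W) :
    a = ∑ i, S.G x a (e i) • e i := by
  conv_lhs => rw [← he.basis.sum_repr a]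
  simp only [IsFrame.basis_apply, he.G_eq_repr]

/-- Parseval. -/
theorem IsFrame.G_eq_sum (hS : S.IsRiem) (hx : x ∈ S.U) (he : S.IsFrame x e) (a b : W) :
    S.G x a b = ∑ i, S.G x a (e i) * S.G x b (e i) := by
  conv_lhs => rw [IsFrame.repr hS hx he a]
  rw [map_sum, ContinuousLinearMap.sum_apply]
  refine Finset.sum_congr rfl fun i _ => ?_
  rw [map_smul, ContinuousLinearMap.smul_apply, smul_eq_mul, hS.G_symm x hx (e i) b]

theorem IsFrame.G_sum_smul (hS : S.IsRiem) (hx : x ∈ S.U) (he : S.IsFrame x e) (u v : κ → ℝ) :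
    S.G x (∑ i, u i • e i) (∑ i, v i • e i) = ∑ i, u i * v i := by
  rw [map_sum]
  refine Finset.sum_congr rfl fun j _ => ?_
  rw [map_smul, he.G_sum_left Finset.univ u (Finset.mem_univ j), smul_eq_mul, mul_comm]

/-- the trace of an endomorphism in a frame. -/
theorem IsFrame.trace_eq (hS : S.IsRiem) (hx : x ∈ S.U) (he : S.IsFrame x e) (L : W →ₗ[ℝ] W) :
    LinearMap.trace ℝ W L = ∑ i, S.G x (L (e i)) (e i) := by
  classical
  rw [LinearMap.trace_eq_matrix_trace ℝ he.basis L, Matrix.trace]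
  refine Finset.sum_congr rfl fun i _ => ?_
  rw [Matrix.diag_apply, LinearMap.toMatrix_apply, IsFrame.basis_apply, he.G_eq_repr]

end frames

/-- orthonormal bases for an abstract inner product core, through a prescribed unit vector. -/
theorem exists_onb_core {E : Type} [AddCommGroup E] [Module ℝ E] [FiniteDimensional ℝ E]
    (cr : InnerProductSpace.Core ℝ E) :
    (∃ e : Fin (Module.finrank ℝ E) → E, (∀ i j, cr.inner (e i) (e j) = if i = j then 1 else 0) ∧
      ∀ a : E, a ∈ Submodule.span ℝ (Set.range e)) ∧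
    ∀ a : E, cr.inner a a = 1 → ∃ (e : Fin (Module.finrank ℝ E) → E) (i₀ : Fin (Module.finrank ℝ E)),
      (∀ i j, cr.inner (e i) (e j) = if i = j then 1 else 0) ∧
      (∀ a : E, a ∈ Submodule.span ℝ (Set.range e)) ∧ e i₀ = a := by
  letI : NormedAddCommGroup E := cr.toNormedAddCommGroup
  letI : InnerProductSpace ℝ E := InnerProductSpace.ofCore cr.toCore
  have key : ∀ B : OrthonormalBasis (Fin (Module.finrank ℝ E)) ℝ E,
      (∀ i j, cr.inner (B i) (B j) = if i = j then 1 else 0) ∧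
      ∀ a : E, a ∈ Submodule.span ℝ (Set.range B) := by
    intro B
    refine ⟨fun i j => ?_, fun a => ?_⟩
    · exact (orthonormal_iff_ite.mp B.orthonormal) i j
    · have := B.toBasis.span_eq
      rw [B.coe_toBasis] at this
      rw [this]
      trivial
  refine ⟨⟨_, key (stdOrthonormalBasis ℝ E)⟩, fun a ha => ?_⟩
  have ha0 : a ≠ 0 := by
    rintro rfl
    have h0 : (inner ℝ (0 : E) (0 : E) : ℝ) = 1 := ha
    rw [inner_zero_left] at h0
    exact zero_ne_one h0
  haveI : Nontrivial E := ⟨a, 0, ha0⟩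
  have hn : 0 < Module.finrank ℝ E := Module.finrank_pos
  have hv : Orthonormal ℝ (({⟨0, hn⟩} : Set (Fin (Module.finrank ℝ E))).restrict fun _ => a) := by
    constructor
    · intro i
      have h1 : (inner ℝ a a : ℝ) = 1 := ha
      have h2 : ‖a‖ ^ 2 = 1 := by rw [← real_inner_self_eq_norm_sq, h1]
      have h3 : ‖a‖ = 1 := by
        have := norm_nonneg a
        nlinarith
      exact h3
    · intro i j hij
      exact absurd (Subtype.ext (i.2.trans j.2.symm)) hij
  obtain ⟨B, hB⟩ := hv.exists_orthonormalBasis_extension_of_card_eq (by simp)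
  exact ⟨B, ⟨0, hn⟩, (key B).1, (key B).2, hB _ rfl⟩

/-- the inner product core of `G x`. -/
noncomputable def IsRiem.core (hS : S.IsRiem) (hx : x ∈ S.U) : InnerProductSpace.Core ℝ W where
  inner := fun a b => S.G x a b
  conj_inner_symm := fun a b => by simpa using hS.G_symm x hx b a
  re_inner_nonneg := fun a => by simpa using hS.G_self_nonneg hx a
  add_left := fun a b c => by simp
  smul_left := fun a b r => by simp
  definite := fun a h => (hS.G_self_eq_zero hx).1 h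

theorem isFrame_of_ite {κ : Type} {e : κ → W} [DecidableEq κ]
    (h1 : ∀ i j, S.G x (e i) (e j) = if i = j then 1 else 0)
    (h2 : ∀ a : W, a ∈ Submodule.span ℝ (Set.range e)) : S.IsFrame x e :=
  ⟨fun i => by rw [h1, if_pos rfl], fun i j hij => by rw [h1, if_neg hij], h2⟩

theorem IsRiem.exists_frame [FiniteDimensional ℝ W] (hS : S.IsRiem) (hx : x ∈ S.U) :
    ∃ e : Fin (Module.finrank ℝ W) → W, S.IsFrame x e := by
  obtain ⟨e, h1, h2⟩ := (exists_onb_core (hS.core hx)).1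
  exact ⟨e, isFrame_of_ite h1 h2⟩

/-- a frame containing a prescribed unit vector. -/
theorem IsRiem.exists_frame_of_unit [FiniteDimensional ℝ W] (hS : S.IsRiem) (hx : x ∈ S.U)
    (ha : S.G x a a = 1) :
    ∃ (e : Fin (Module.finrank ℝ W) → W) (i₀ : Fin (Module.finrank ℝ W)),
      S.IsFrame x e ∧ e i₀ = a := by
  obtain ⟨e, i₀, h1, h2, h3⟩ := (exists_onb_core (hS.core hx)).2 a ha
  exact ⟨e, i₀, isFrame_of_ite h1 h2, h3⟩

/-! ### 4. uniqueness and existence of the Levi-Civita connection -/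

/-- the Koszul form `K(a,b,c) = (DG(a)(b,c) + DG(b)(a,c) - DG(c)(a,b)) / 2`. -/
noncomputable def koszul (G : W → W →L[ℝ] W →L[ℝ] ℝ) (x : W) : W →L[ℝ] W →L[ℝ] W →L[ℝ] ℝ :=
  (1 / 2 : ℝ) • (fderiv ℝ G x + (fderiv ℝ G x).flip -
    ((ContinuousLinearMap.flipₗᵢ ℝ W W ℝ).toContinuousLinearEquiv :
      (W →L[ℝ] W →L[ℝ] ℝ) →L[ℝ] (W →L[ℝ] W →L[ℝ] ℝ)).comp (fderiv ℝ G x).flip)

theorem koszul_apply (G : W → W →L[ℝ] W →L[ℝ] ℝ) (x a b c : W) :
    koszul G x a b c =
      (fderiv ℝ G x a b c + fderiv ℝ G x b a c - fderiv ℝ G x c a b) / 2 := by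
  simp [koszul]
  ring

/-- Koszul identity. -/
theorem IsRiem.G_Γ_eq_koszul (hS : S.IsRiem) (hx : x ∈ S.U) (a b c : W) :
    S.G x (S.Γ x a b) c = koszul S.G x a b c := by
  rw [koszul_apply, hS.compat x hx a b c, hS.compat x hx b a c, hS.compat x hx c a b,
    hS.Γ_symm x hx b a, hS.Γ_symm x hx c a, hS.Γ_symm x hx c b, hS.G_symm x hx (S.Γ x a c) b]
  ring

/-- **uniqueness of the Levi-Civita connection** (local form). -/
theorem IsRiem.Γ_unique (hS : S.IsRiem) (hS' : S'.IsRiem) (hx : x ∈ S.U) (hx' : x ∈ S'.U)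
    (hG : S'.G =ᶠ[𝓝 x] S.G) : S'.Γ x = S.Γ x := by
  ext a b
  refine hS.eq_of_G_eq hx (a := S'.Γ x a b) (b := S.Γ x a b) fun c => ?_
  rw [IsRiem.G_Γ_eq_koszul hS hx, ← hG.self_of_nhds, IsRiem.G_Γ_eq_koszul hS' hx', koszul_apply, koszul_apply,
    hG.fderiv_eq]

/-- the Levi-Civita connection of a metric, by the Koszul formula. -/
noncomputable def lcΓ (G : W → W →L[ℝ] W →L[ℝ] ℝ) (x : W) : W →L[ℝ] W →L[ℝ] W :=
  (ContinuousLinearMap.compL ℝ W (W →L[ℝ] ℝ) W (G x).inverse).comp (koszul G x)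

/-- the Riemannian data of a metric tensor. -/
noncomputable def ofMetric (U : Set W) (G : W → W →L[ℝ] W →L[ℝ] ℝ) : RGeo W := ⟨U, G, lcΓ G⟩

@[simp] theorem ofMetric_U (U : Set W) (G : W → W →L[ℝ] W →L[ℝ] ℝ) : (ofMetric U G).U = U := rfl
@[simp] theorem ofMetric_G (U : Set W) (G : W → W →L[ℝ] W →L[ℝ] ℝ) : (ofMetric U G).G = G := rfl

/-- a positive form is invertible as a map into the dual. -/
theorem isInvertible_of_pos [FiniteDimensional ℝ W] {B : W →L[ℝ] W →L[ℝ] ℝ}
    (hpos : ∀ a, a ≠ 0 → 0 < B a a) : B.IsInvertible := by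
  have hinj : Function.Injective (B : W →ₗ[ℝ] (W →L[ℝ] ℝ)) := by
    rw [← LinearMap.ker_eq_bot, LinearMap.ker_eq_bot']
    intro a ha
    by_contra h0
    have h1 := hpos a h0
    have h2 : B a = 0 := ha
    rw [h2] at h1
    simp at h1
  have hdim : Module.finrank ℝ W = Module.finrank ℝ (W →L[ℝ] ℝ) := by
    rw [← (LinearMap.toContinuousLinearMap : (W →ₗ[ℝ] ℝ) ≃ₗ[ℝ] (W →L[ℝ] ℝ)).finrank_eq]
    exact (Subspace.dual_finrank_eq (K := ℝ) (V := W)).symm
  refine ⟨(LinearEquiv.ofInjectiveOfFinrankEq _ hinj hdim).toContinuousLinearEquiv, ?_⟩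
  ext a b
  rfl

theorem G_lcΓ {G : W → W →L[ℝ] W →L[ℝ] ℝ} (h : (G x).IsInvertible) (a b : W) :
    G x (lcΓ G x a b) = koszul G x a b := by
  have : lcΓ G x a b = (G x).inverse (koszul G x a b) := rfl
  rw [this]
  exact ((h.inverse_apply_eq).1 rfl).symm

theorem contDiffOn_koszul {U : Set W} {G : W → W →L[ℝ] W →L[ℝ] ℝ} (hU : IsOpen U)
    (hG : ContDiffOn ℝ ∞ G U) : ContDiffOn ℝ ∞ (koszul G) U := by
  have h1 : ContDiffOn ℝ ∞ (fderiv ℝ G) U := hG.fderiv_of_isOpen hU (by simp)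
  have h2 : ContDiffOn ℝ ∞ (fun x => (fderiv ℝ G x).flip) U :=
    (ContinuousLinearMap.flipₗᵢ ℝ W W (W →L[ℝ] ℝ)).toContinuousLinearEquiv.contDiff.comp_contDiffOn h1
  have h3 : ContDiffOn ℝ ∞ (fun x => ((ContinuousLinearMap.flipₗᵢ ℝ W W ℝ).toContinuousLinearEquiv :
      (W →L[ℝ] W →L[ℝ] ℝ) →L[ℝ] (W →L[ℝ] W →L[ℝ] ℝ)).comp (fderiv ℝ G x).flip) U :=
    contDiffOn_const.clm_comp h2
  exact ((h1.add h2).sub h3).const_smul (1 / 2 : ℝ)

theorem fderiv_symm_of_symm {U : Set W} {G : W → W →L[ℝ] W →L[ℝ] ℝ} (hU : IsOpen U)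
    (hG : ContDiffOn ℝ ∞ G U) (hsymm : ∀ x ∈ U, ∀ a b, G x a b = G x b a) (hx : x ∈ U) (e a b : W) :
    fderiv ℝ G x e a b = fderiv ℝ G x e b a := by
  have hd : DifferentiableAt ℝ G x := (hG.contDiffAt (hU.mem_nhds hx)).differentiableAt (by simp)
  rw [← fderiv_apply_apply hd, ← fderiv_apply_apply hd]
  have hev : (fun y => G y a b) =ᶠ[𝓝 x] fun y => G y b a := by
    filter_upwards [hU.mem_nhds hx] with y hy using hsymm y hy a b
  rw [hev.fderiv_eq]

/-- **existence of the Levi-Civita connection.** -/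
theorem isRiem_ofMetric [FiniteDimensional ℝ W] {U : Set W} {G : W → W →L[ℝ] W →L[ℝ] ℝ}
    (hU : IsOpen U) (hG : ContDiffOn ℝ ∞ G U) (hsymm : ∀ x ∈ U, ∀ a b, G x a b = G x b a)
    (hpos : ∀ x ∈ U, ∀ a, a ≠ 0 → 0 < G x a a) : (ofMetric U G).IsRiem := by
  have hinv : ∀ x ∈ U, (G x).IsInvertible := fun x hx => isInvertible_of_pos (hpos x hx)
  have hnd : ∀ x ∈ U, ∀ u v : W, G x u = G x v → u = v := by
    intro x hx u v huv
    obtain ⟨A, hA⟩ := hinv x hx
    rw [← hA] at huv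
    exact A.injective huv
  refine ⟨hU, hG, ?_, hsymm, hpos, ?_, ?_⟩
  · have h1 : ContDiffOn ℝ ∞ (fun x => (G x).inverse) U := by
      intro x hx
      exact ((hinv x hx).contDiffAt_map_inverse).comp_contDiffWithinAt x (hG x hx)
    have h2 : ContDiffOn ℝ ∞ (fun x => ContinuousLinearMap.compL ℝ W (W →L[ℝ] ℝ) W (G x).inverse) U :=
      (ContinuousLinearMap.compL ℝ W (W →L[ℝ] ℝ) W).contDiff.comp_contDiffOn h1
    exact h2.clm_comp (contDiffOn_koszul hU hG)
  · intro x hx a b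
    refine hnd x hx _ _ ?_
    show G x (lcΓ G x a b) = G x (lcΓ G x b a)
    rw [G_lcΓ (hinv x hx), G_lcΓ (hinv x hx)]
    ext c
    rw [koszul_apply, koszul_apply, fderiv_symm_of_symm hU hG hsymm hx c a b]
    ring
  · intro x hx a b c
    show fderiv ℝ G x a b c = G x (lcΓ G x a b) c + G x b (lcΓ G x a c)
    rw [hsymm x hx b, G_lcΓ (hinv x hx), G_lcΓ (hinv x hx), koszul_apply, koszul_apply,
      fderiv_symm_of_symm hU hG hsymm hx a c b, fderiv_symm_of_symm hU hG hsymm hx b a c,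
      fderiv_symm_of_symm hU hG hsymm hx c a b]
    ring

theorem IsRiem.Γ_eq_lcΓ [FiniteDimensional ℝ W] (hS : S.IsRiem) (hx : x ∈ S.U) :
    S.Γ x = lcΓ S.G x := by
  ext a b
  refine hS.eq_of_G_eq hx (a := S.Γ x a b) (b := lcΓ S.G x a b) fun c => ?_
  rw [IsRiem.G_Γ_eq_koszul hS hx, G_lcΓ (hS.isInvertible_G hx)]

end RGeo
end Claimed.Agent.R316
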