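import Claimed.Agent.R316.Pack017

/-!
# `BP-G1` part 3: local isometries, pull-back, naturality

Architect: helper294.  `IsIsom S' S θ`: `θ : S'.U → S.U` is a smooth local diffeomorphism with `θ^* G = G'`.  NOTHING is assumed on the
connections: if both sides are `IsRiem`, the transformation law of `Γ` follows from uniqueness (`IsIsom.Γ_law`), and with it the
naturality of every object of the package.

Leaves
* `G1-PULL-A` = sections 1, 2 (`IsRiem.pull`, `Γ_law`, `covP`, `covD`).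
* `G1-PULL-B` = section 3 (naturality of curvature, Hessian, length, energy, geodesics, parallel fields, frames).

PLANS.
* `IsRiem.pull`: write `A = fderiv ℝ θ x`, `B = fderiv ℝ (fderiv ℝ θ) x` (symmetric: `ContDiffAt.isSymmSndFDerivAt`), `A (Γ' a b) = B a b + Γ (A a) (A b)`
  (`ContinuousLinearMap.IsInvertible.self_apply_inverse`-type lemma; see `pull_Γ_spec`).  `compat`: differentiate
  `y ↦ G (θ y) (fderiv θ y b) (fderiv θ y c)` by `IsRiem.fderiv_G_comp` with `f = θ`, `Y = fun y => fderiv θ y b`: the covariant derivative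
  `covP θ Y x a = B a b + Γ (A a) (A b)`.  To identify `fderiv ℝ (S.pull θ U').G x a b c` with the derivative of the scalar function use
  `fderiv_clm_apply` (the metric `(S.pull θ U').G` is differentiable: smoothness below).  Smoothness: `ContDiffOn.fderiv_of_isOpen`, `ContDiffOn.clm_comp`,
  `ContinuousLinearMap.IsInvertible.contDiffAt_map_inverse`, `bilinearComp` is `compL`/`flip` of continuous linear maps (`ContinuousLinearMap.contDiff`,
  `IsBoundedBilinearMap.contDiff`); alternatively check smoothness after applying to vectors in finite dimension (`contDiffOn_clm_apply`).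
* `Γ_law`: `S'` and `S.pull θ S'.U` are both `IsRiem` with the same metric on `S'.U` (`isom`; ext) ⟹ same `Γ` (`IsRiem.Γ_unique`), `pull_Γ_spec`.
* `IsIsom.covP`: `D_e (fderiv θ (f q) (Z q)) = B (Df e) (Z p) + A (DZ e)` and `Γ_law`.
* `IsIsom.curv`: `covP_covP_sub` for `S'` with `P = W'`, `f = id`, `Z = const c`; apply `A`, `IsIsom.covP` twice (the second time at all points near `x`,
  `covP_congr`), `covP_covP_sub` for `S` with `f = θ`, `Z = fun y => fderiv θ y c`.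
* `IsIsom.hess`: `hess_comp` for `S` with `f = θ` and `Γ_law`.
* `length/energy`: pointwise equality of the integrands (`intervalIntegral.integral_congr`), `deriv (θ ∘ c) t = A (deriv c t)`.
* `isGeod_iff`: `IsIsom.covD` with `Z = deriv c`; `deriv (θ ∘ c) = fun t => fderiv θ (c t) (deriv c t)` near `t` (`I` is a neighbourhood of `t`); injectivity of `A`.
-/

set_option autoImplicit false
set_option linter.unusedSectionVars false
set_option linter.deprecated false
set_option maxSynthPendingDepth 3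
open scoped ContDiff Topology

namespace Claimed.Agent.R316
namespace RGeo

variable {W : Type} [NormedAddCommGroup W] [NormedSpace ℝ W]
variable {W' : Type} [NormedAddCommGroup W'] [NormedSpace ℝ W']
variable {W'' : Type} [NormedAddCommGroup W''] [NormedSpace ℝ W'']
variable {P : Type*} [NormedAddCommGroup P] [NormedSpace ℝ P]
variable {S : RGeo W} {S' : RGeo W'} {S'' : RGeo W''} {θ : W' → W} {x a b c : W'}

/-! ### 1. local isometries and the pull-back -/

/-- `θ` is a smooth local isometry (local diffeomorphism) from `S'` to `S`. -/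
structure IsIsom (S' : RGeo W') (S : RGeo W) (θ : W' → W) : Prop where
  smooth : ContDiffOn ℝ ∞ θ S'.U
  mapsTo : ∀ x ∈ S'.U, θ x ∈ S.U
  inv : ∀ x ∈ S'.U, (fderiv ℝ θ x).IsInvertible
  isom : ∀ x ∈ S'.U, ∀ a b, S'.G x a b = S.G (θ x) (fderiv ℝ θ x a) (fderiv ℝ θ x b)

@[simp] theorem pull_U (S : RGeo W) (θ : W' → W) (U' : Set W') : (S.pull θ U').U = U' := rfl

theorem pull_G_apply (S : RGeo W) (θ : W' → W) (U' : Set W') (x a b : W') :
    (S.pull θ U').G x a b = S.G (θ x) (fderiv ℝ θ x a) (fderiv ℝ θ x b) := rfl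

/-- the defining property of the pulled back connection. -/
theorem pull_Γ_spec (S : RGeo W) (θ : W' → W) (U' : Set W') {x : W'}
    (hinv : (fderiv ℝ θ x).IsInvertible) (a b : W') :
    fderiv ℝ θ x ((S.pull θ U').Γ x a b) =
      fderiv ℝ (fderiv ℝ θ) x a b + S.Γ (θ x) (fderiv ℝ θ x a) (fderiv ℝ θ x b) := by
  exact hinv.self_apply_inverse _

/-- **the pull-back of a Riemannian structure by a local diffeomorphism is Riemannian.** -/
theorem IsRiem.pull [CompleteSpace W'] (hS : S.IsRiem) {U' : Set W'} (hU' : IsOpen U')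
    (hθ : ContDiffOn ℝ ∞ θ U') (hmaps : ∀ x ∈ U', θ x ∈ S.U)
    (hinv : ∀ x ∈ U', (fderiv ℝ θ x).IsInvertible) : (S.pull θ U').IsRiem := by
  have hD : ContDiffOn ℝ ∞ (fderiv ℝ θ) U' := hθ.fderiv_of_isOpen hU' (by simp)
  have hDD : ContDiffOn ℝ ∞ (fderiv ℝ (fderiv ℝ θ)) U' := hD.fderiv_of_isOpen hU' (by simp)
  have hθa : ∀ x ∈ U', ContDiffAt ℝ ∞ θ x := fun x hx => hθ.contDiffAt (hU'.mem_nhds hx)
  have hθd : ∀ x ∈ U', DifferentiableAt ℝ θ x := fun x hx => (hθa x hx).differentiableAt (by simp)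
  have hθ2 : ∀ x ∈ U', ContDiffAt ℝ 2 θ x := fun x hx => (hθa x hx).of_le (by norm_cast)
  have hDd : ∀ x ∈ U', DifferentiableAt ℝ (fderiv ℝ θ) x := fun x hx =>
    (hD.contDiffAt (hU'.mem_nhds hx)).differentiableAt (by simp)
  have hDe : ∀ x ∈ U', ∀ e : W', DifferentiableAt ℝ (fun y => fderiv ℝ θ y e) x := fun x hx e =>
    (hDd x hx).clm_apply (differentiableAt_const e)
  have hGs : ContDiffOn ℝ ∞ (S.pull θ U').G U' := by
    have h1 : ContDiffOn ℝ ∞ (fun x => S.G (θ x)) U' := hS.G_smooth.comp hθ hmaps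
    exact contDiffOn_flip ((contDiffOn_flip (h1.clm_comp hD)).clm_comp hD)
  have hΓs : ContDiffOn ℝ ∞ (S.pull θ U').Γ U' := by
    have h1 : ContDiffOn ℝ ∞ (fun x => S.Γ (θ x)) U' := hS.Γ_smooth.comp hθ hmaps
    have h2 : ContDiffOn ℝ ∞ (fun x => (S.Γ (θ x)).bilinearComp (fderiv ℝ θ x) (fderiv ℝ θ x)) U' :=
      contDiffOn_flip ((contDiffOn_flip (h1.clm_comp hD)).clm_comp hD)
    have h3 : ContDiffOn ℝ ∞ (fun x => (fderiv ℝ θ x).inverse) U' := fun x hx =>
      ((hinv x hx).contDiffAt_map_inverse.comp x (hD.contDiffAt (hU'.mem_nhds hx))).contDiffWithinAt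
    have h4 : ContDiffOn ℝ ∞ (fun x => ContinuousLinearMap.compL ℝ W' W W' (fderiv ℝ θ x).inverse) U' :=
      (ContinuousLinearMap.compL ℝ W' W W').contDiff.comp_contDiffOn h3
    exact h4.clm_comp (hDD.add h2)
  have hcov : ∀ x ∈ U', ∀ a b : W', S.covP θ (fun y => fderiv ℝ θ y b) x a =
      fderiv ℝ θ x ((S.pull θ U').Γ x a b) := by
    intro x hx a b
    rw [pull_Γ_spec S θ U' (hinv x hx), covP, fderiv_fderiv_apply (hθ2 x hx)]
  refine ⟨hU', hGs, hΓs, ?_, ?_, ?_, ?_⟩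
  · intro x hx a b
    exact hS.G_symm (θ x) (hmaps x hx) _ _
  · intro x hx a ha
    refine hS.G_pos (θ x) (hmaps x hx) _ fun h0 => ha ?_
    exact (hinv x hx).injective (h0.trans (map_zero _).symm)
  · intro x hx a b
    refine (hinv x hx).injective ?_
    rw [pull_Γ_spec S θ U' (hinv x hx), pull_Γ_spec S θ U' (hinv x hx),
      ((hθ2 x hx).isSymmSndFDerivAt (by simp)).eq a b, hS.Γ_symm (θ x) (hmaps x hx)]
  · intro x hx a b c
    have hGd : DifferentiableAt ℝ (S.pull θ U').G x :=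
      (hGs.contDiffAt (hU'.mem_nhds hx)).differentiableAt (by simp)
    rw [← fderiv_apply_apply hGd]
    have e1 := hS.fderiv_G_comp (f := θ) (hmaps x hx) (hθd x hx) (hDe x hx b) (hDe x hx c) a
    rw [hcov x hx, hcov x hx] at e1
    exact e1

theorem isIsom_pull (S : RGeo W) {U' : Set W'} (hθ : ContDiffOn ℝ ∞ θ U')
    (hmaps : ∀ x ∈ U', θ x ∈ S.U) (hinv : ∀ x ∈ U', (fderiv ℝ θ x).IsInvertible) :
    IsIsom (S.pull θ U') S θ :=
  ⟨hθ, hmaps, hinv, fun _ _ _ _ => rfl⟩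

theorem isIsom_id (S : RGeo W) : IsIsom S S (fun x => x) := by
  refine ⟨contDiffOn_id, fun x hx => hx, fun x _ => ?_, fun x _ a b => ?_⟩
  · rw [fderiv_id']
    exact ⟨ContinuousLinearEquiv.refl ℝ W, rfl⟩
  · rw [fderiv_id']
    rfl

theorem isIsom_restr (S : RGeo W) {U' : Set W} (hsub : U' ⊆ S.U) :
    IsIsom (S.restr U') S (fun x => x) := by
  refine ⟨contDiffOn_id, fun x hx => hsub hx, fun x _ => ?_, fun x _ a b => ?_⟩
  · rw [fderiv_id']
    exact ⟨ContinuousLinearEquiv.refl ℝ W, rfl⟩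
  · rw [fderiv_id']
    rfl

theorem IsIsom.restr (h : IsIsom S' S θ) {U' : Set W'} (hsub : U' ⊆ S'.U) {U₁ : Set W}
    (hmaps : ∀ x ∈ U', θ x ∈ U₁) : IsIsom (S'.restr U') (S.restr U₁) θ :=
  ⟨h.smooth.mono hsub, hmaps, fun x hx => h.inv x (hsub hx), fun x hx => h.isom x (hsub hx)⟩

theorem IsIsom.congr (h : IsIsom S' S θ) (hU : IsOpen S'.U) {θ' : W' → W}
    (heq : Set.EqOn θ' θ S'.U) : IsIsom S' S θ' := by
  have hfd : ∀ x ∈ S'.U, fderiv ℝ θ' x = fderiv ℝ θ x := fun x hx =>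
    Filter.EventuallyEq.fderiv_eq (by filter_upwards [hU.mem_nhds hx] with y hy using heq hy)
  refine ⟨h.smooth.congr heq, fun x hx => ?_, fun x hx => ?_, fun x hx a b => ?_⟩
  · rw [heq hx]
    exact h.mapsTo x hx
  · rw [hfd x hx]
    exact h.inv x hx
  · rw [hfd x hx, heq hx]
    exact h.isom x hx a b

theorem IsIsom.comp {θ' : W'' → W'} (h : IsIsom S' S θ) (h' : IsIsom S'' S' θ')
    (hU' : IsOpen S'.U) (hU'' : IsOpen S''.U) : IsIsom S'' S (fun x => θ (θ' x)) := by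
  have hfd : ∀ x ∈ S''.U, fderiv ℝ (fun x => θ (θ' x)) x =
      (fderiv ℝ θ (θ' x)).comp (fderiv ℝ θ' x) := fun x hx =>
    fderiv_comp x
      ((h.smooth.contDiffAt (hU'.mem_nhds (h'.mapsTo x hx))).differentiableAt (by simp))
      ((h'.smooth.contDiffAt (hU''.mem_nhds hx)).differentiableAt (by simp))
  refine ⟨h.smooth.comp h'.smooth h'.mapsTo, fun x hx => h.mapsTo _ (h'.mapsTo x hx),
    fun x hx => ?_, fun x hx a b => ?_⟩
  · rw [hfd x hx]
    exact (h.inv _ (h'.mapsTo x hx)).comp (h'.inv x hx)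
  · rw [hfd x hx, h'.isom x hx, h.isom _ (h'.mapsTo x hx)]
    rfl

/-- a smooth right inverse of a local isometry is a local isometry. -/
theorem IsIsom.of_rightInverse (h : IsIsom S' S θ) (hU' : IsOpen S'.U) {ρ : W → W'} {U₁ : Set W}
    (hU₁ : IsOpen U₁) (hsub : U₁ ⊆ S.U) (hρ : ContDiffOn ℝ ∞ ρ U₁) (hmaps : ∀ y ∈ U₁, ρ y ∈ S'.U)
    (hinv : ∀ y ∈ U₁, θ (ρ y) = y) : IsIsom (S.restr U₁) S' ρ := by
  have hcomp : ∀ y ∈ U₁, (fderiv ℝ θ (ρ y)).comp (fderiv ℝ ρ y) = ContinuousLinearMap.id ℝ W := by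
    intro y hy
    have h1 : fderiv ℝ (fun y => θ (ρ y)) y = (fderiv ℝ θ (ρ y)).comp (fderiv ℝ ρ y) :=
      fderiv_comp y
        ((h.smooth.contDiffAt (hU'.mem_nhds (hmaps y hy))).differentiableAt (by simp))
        ((hρ.contDiffAt (hU₁.mem_nhds hy)).differentiableAt (by simp))
    have h2 : (fun y => θ (ρ y)) =ᶠ[𝓝 y] fun y => y := by
      filter_upwards [hU₁.mem_nhds hy] with z hz using hinv z hz
    rw [← h1, h2.fderiv_eq]
    exact fderiv_id'
  have happ : ∀ y ∈ U₁, ∀ a, fderiv ℝ θ (ρ y) (fderiv ℝ ρ y a) = a := fun y hy a =>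
    congrArg (fun L : W →L[ℝ] W => L a) (hcomp y hy)
  refine ⟨hρ, hmaps, fun y hy => ?_, fun y hy a b => ?_⟩
  · have hA := h.inv _ (hmaps y hy)
    have e : fderiv ℝ ρ y = (fderiv ℝ θ (ρ y)).inverse := by
      refine ContinuousLinearMap.ext fun a => ?_
      rw [← hA.inverse_apply_self (fderiv ℝ ρ y a), happ y hy]
    rw [e]
    exact hA.inverse
  · rw [h.isom _ (hmaps y hy), happ y hy, happ y hy, hinv y hy]
    rfl

/-- a local isometry has local inverses (inverse function theorem). -/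
theorem IsIsom.exists_local_inverse [CompleteSpace W'] (h : IsIsom S' S θ) (hU' : IsOpen S'.U)
    (hU : IsOpen S.U) (hx : x ∈ S'.U) :
    ∃ (ρ : W → W') (U₁ : Set W) (U₂ : Set W'), IsOpen U₁ ∧ θ x ∈ U₁ ∧ U₁ ⊆ S.U ∧ IsOpen U₂ ∧
      x ∈ U₂ ∧ U₂ ⊆ S'.U ∧ IsIsom (S.restr U₁) (S'.restr U₂) ρ ∧ (∀ y ∈ U₁, θ (ρ y) = y) ∧
      (∀ z ∈ U₂, θ z ∈ U₁ ∧ ρ (θ z) = z) := by
  have hθa : ∀ z ∈ S'.U, ContDiffAt ℝ ∞ θ z := fun z hz => h.smooth.contDiffAt (hU'.mem_nhds hz)
  obtain ⟨A, hA⟩ := h.inv x hx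
  have hd : HasFDerivAt θ (A : W' →L[ℝ] W) x := by
    rw [hA]
    exact ((hθa x hx).differentiableAt (by simp)).hasFDerivAt
  obtain ⟨e, he⟩ : ∃ e : OpenPartialHomeomorph W' W,
      e = (hθa x hx).toOpenPartialHomeomorph θ hd (by simp) := ⟨_, rfl⟩
  have hecoe : ∀ z, e z = θ z := fun z => by rw [he]; rfl
  have hefun : (e : W' → W) = θ := funext hecoe
  have hxs : x ∈ e.source := by
    rw [he]
    exact (hθa x hx).mem_toOpenPartialHomeomorph_source hd (by simp)
  have hU₂o : IsOpen (e.source ∩ S'.U) := e.open_source.inter hU'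
  have hU₁o : IsOpen (e.target ∩ e.symm ⁻¹' (e.source ∩ S'.U)) :=
    e.symm.isOpen_inter_preimage hU₂o
  have hr : ∀ y ∈ e.target ∩ e.symm ⁻¹' (e.source ∩ S'.U), θ (e.symm y) = y := fun y hy => by
    rw [← hecoe]
    exact e.right_inv hy.1
  have hsubU : e.target ∩ e.symm ⁻¹' (e.source ∩ S'.U) ⊆ S.U := fun y hy => by
    rw [← hr y hy]
    exact h.mapsTo _ hy.2.2
  have hsm : ContDiffOn ℝ ∞ e.symm (e.target ∩ e.symm ⁻¹' (e.source ∩ S'.U)) := by
    intro y hy
    obtain ⟨B, hB⟩ := h.inv _ hy.2.2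
    refine (e.contDiffAt_symm (f₀' := B) hy.1 ?_ ?_).contDiffWithinAt
    · rw [hB, hefun]
      exact ((hθa _ hy.2.2).differentiableAt (by simp)).hasFDerivAt
    · rw [hefun]
      exact hθa _ hy.2.2
  have h' : IsIsom (S'.restr (e.source ∩ S'.U)) S θ :=
    ⟨h.smooth.mono Set.inter_subset_right, fun z hz => h.mapsTo z hz.2, fun z hz => h.inv z hz.2,
      fun z hz => h.isom z hz.2⟩
  refine ⟨e.symm, e.target ∩ e.symm ⁻¹' (e.source ∩ S'.U), e.source ∩ S'.U, hU₁o, ?_, hsubU, hU₂o,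
    ⟨hxs, hx⟩, Set.inter_subset_right, ?_, hr, ?_⟩
  · rw [← hecoe]
    refine ⟨e.map_source hxs, ?_⟩
    rw [Set.mem_preimage, e.left_inv hxs]
    exact ⟨hxs, hx⟩
  · exact h'.of_rightInverse hU₂o hU₁o hsubU hsm (fun y hy => hy.2) hr
  · intro z hz
    rw [← hecoe]
    refine ⟨⟨e.map_source hz.1, ?_⟩, e.left_inv hz.1⟩
    rw [Set.mem_preimage, e.left_inv hz.1]
    exact hz

/-- `S'` is Riemannian as soon as it is locally isometric to a Riemannian structure and its `Γ` obeys the law. -/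
theorem IsIsom.isRiem_of_law [CompleteSpace W'] (h : IsIsom S' S θ) (hS : S.IsRiem)
    (hU' : IsOpen S'.U)
    (hΓ : ∀ x ∈ S'.U, ∀ a b, fderiv ℝ θ x (S'.Γ x a b) =
      fderiv ℝ (fderiv ℝ θ) x a b + S.Γ (θ x) (fderiv ℝ θ x a) (fderiv ℝ θ x b)) :
    S'.IsRiem := by
  refine (hS.pull hU' h.smooth h.mapsTo h.inv).congr rfl ?_ ?_
  · intro x hx
    refine ContinuousLinearMap.ext fun a => ContinuousLinearMap.ext fun b => ?_
    exact h.isom x hx a b
  · intro x hx
    refine ContinuousLinearMap.ext fun a => ContinuousLinearMap.ext fun b => ?_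
    refine (h.inv x hx).injective ?_
    rw [hΓ x hx, pull_Γ_spec S θ S'.U (h.inv x hx)]

/-! ### 2. transformation law of the connection; covariant derivatives -/

/-- **transformation law of the Christoffel symbols.** -/
theorem IsIsom.Γ_law [CompleteSpace W'] (h : IsIsom S' S θ) (hS' : S'.IsRiem) (hS : S.IsRiem)
    (hx : x ∈ S'.U) (a b : W') :
    fderiv ℝ θ x (S'.Γ x a b) =
      fderiv ℝ (fderiv ℝ θ) x a b + S.Γ (θ x) (fderiv ℝ θ x a) (fderiv ℝ θ x b) := by
  have hP := hS.pull hS'.isOpen h.smooth h.mapsTo h.inv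
  have hG : S'.G =ᶠ[𝓝 x] (S.pull θ S'.U).G := by
    filter_upwards [hS'.mem_nhds hx] with y hy
    refine ContinuousLinearMap.ext fun a => ContinuousLinearMap.ext fun b => ?_
    exact h.isom y hy a b
  rw [hP.Γ_unique hS' hx hx hG, pull_Γ_spec S θ S'.U (h.inv x hx)]

/-- naturality of the covariant derivative along maps. -/
theorem IsIsom.covP [CompleteSpace W'] (h : IsIsom S' S θ) (hS' : S'.IsRiem) (hS : S.IsRiem)
    {f Z : P → W'} {p : P} (hfU : f p ∈ S'.U) (hf : DifferentiableAt ℝ f p)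
    (hZ : DifferentiableAt ℝ Z p) (e : P) :
    S.covP (fun q => θ (f q)) (fun q => fderiv ℝ θ (f q) (Z q)) p e =
      fderiv ℝ θ (f p) (S'.covP f Z p e) := by
  have hθa : ContDiffAt ℝ ∞ θ (f p) := h.smooth.contDiffAt (hS'.mem_nhds hfU)
  have hθd : DifferentiableAt ℝ θ (f p) := hθa.differentiableAt (by simp)
  have hDd : DifferentiableAt ℝ (fderiv ℝ θ) (f p) :=
    (hθa.fderiv_right (m := 1) (by norm_cast)).differentiableAt (by simp)
  have h1 : fderiv ℝ (fun q => θ (f q)) p = (fderiv ℝ θ (f p)).comp (fderiv ℝ f p) :=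
    fderiv_comp p hθd hf
  have h2 : HasFDerivAt (fun q => fderiv ℝ θ (f q))
      ((fderiv ℝ (fderiv ℝ θ) (f p)).comp (fderiv ℝ f p)) p :=
    hDd.hasFDerivAt.comp p hf.hasFDerivAt
  have h3 := (h2.clm_apply hZ.hasFDerivAt).fderiv
  unfold RGeo.covP
  rw [h3, h1, map_add, h.Γ_law hS' hS hfU]
  simp only [ContinuousLinearMap.add_apply, ContinuousLinearMap.comp_apply,
    ContinuousLinearMap.flip_apply]
  abel

/-- naturality of the covariant derivative along curves. -/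
theorem IsIsom.covD [CompleteSpace W'] (h : IsIsom S' S θ) (hS' : S'.IsRiem) (hS : S.IsRiem)
    {c Z : ℝ → W'} {t : ℝ} (hcU : c t ∈ S'.U) (hc : DifferentiableAt ℝ c t)
    (hZ : DifferentiableAt ℝ Z t) :
    S.covD (fun r => θ (c r)) (fun r => fderiv ℝ θ (c r) (Z r)) t =
      fderiv ℝ θ (c t) (S'.covD c Z t) := by
  rw [covD_eq_covP, covD_eq_covP]
  exact h.covP hS' hS hcU hc hZ 1

/-! ### 3. naturality of everything else -/

theorem IsIsom.nrm (h : IsIsom S' S θ) (hx : x ∈ S'.U) (a : W') :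
    S.nrm (θ x) (fderiv ℝ θ x a) = S'.nrm x a := by
  simp [RGeo.nrm, h.isom x hx]

theorem IsIsom.curv [CompleteSpace W'] (h : IsIsom S' S θ) (hS' : S'.IsRiem) (hS : S.IsRiem)
    (hx : x ∈ S'.U) (a b c : W') :
    S.curv (θ x) (fderiv ℝ θ x a) (fderiv ℝ θ x b) (fderiv ℝ θ x c) =
      fderiv ℝ θ x (S'.curv x a b c) := by
  have hθa : ∀ y ∈ S'.U, ContDiffAt ℝ ∞ θ y := fun y hy => h.smooth.contDiffAt (hS'.mem_nhds hy)
  have hθ2 : ContDiffAt ℝ 2 θ x := (hθa x hx).of_le (by norm_cast)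
  have hZθ : ContDiffAt ℝ 2 (fun y => fderiv ℝ θ y c) x :=
    ((hθa x hx).fderiv_right (m := 2) (by norm_cast)).clm_apply contDiffAt_const
  -- the field `∇_e c` for the constant field `c`
  have hY : ∀ e : W', ∀ y ∈ S'.U, DifferentiableAt ℝ (fun q => S'.covP (fun y => y) (fun _ => c) q e) y := by
    intro e y hy
    have h1 : DifferentiableAt ℝ (fun q => S'.Γ q e c) y :=
      ((hS'.differentiableAt_Γ hy).clm_apply (differentiableAt_const e)).clm_apply
        (differentiableAt_const c)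
    refine h1.congr_of_eventuallyEq (Filter.Eventually.of_forall fun q => ?_)
    simp [RGeo.covP]
  have hstep1 : ∀ e : W', ∀ y ∈ S'.U, S.covP θ (fun q => fderiv ℝ θ q c) y e =
      fderiv ℝ θ y (S'.covP (fun y => y) (fun _ => c) y e) := fun e y hy =>
    h.covP hS' hS (f := fun y => y) (Z := fun _ => c) hy differentiableAt_id
      (differentiableAt_const c) e
  have hstep2 : ∀ e e' : W', S.covP θ (fun q => S.covP θ (fun q => fderiv ℝ θ q c) q e) x e' =
      fderiv ℝ θ x (S'.covP (fun y => y) (fun q => S'.covP (fun y => y) (fun _ => c) q e) x e') := by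
    intro e e'
    have h1 := h.covP hS' hS (f := fun y => y)
      (Z := fun q => S'.covP (fun y => y) (fun _ => c) q e) hx differentiableAt_id (hY e x hx) e'
    rw [← h1]
    refine S.covP_congr (Filter.EventuallyEq.refl _ _) ?_
    filter_upwards [hS'.mem_nhds hx] with y hy using hstep1 e y hy
  have e1 := hS.covP_covP_sub (f := θ) (Z := fun y => fderiv ℝ θ y c) (h.mapsTo x hx) hθ2 hZθ a b
  have e2 := hS'.covP_covP_sub (f := fun y => y) (Z := fun _ => c) hx contDiffAt_id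
    contDiffAt_const a b
  rw [fderiv_id'] at e2
  simp only [ContinuousLinearMap.coe_id', id] at e2
  rw [← e1, ← e2, map_sub, hstep2, hstep2]

theorem IsIsom.secNum [CompleteSpace W'] (h : IsIsom S' S θ) (hS' : S'.IsRiem) (hS : S.IsRiem)
    (hx : x ∈ S'.U) (a b : W') :
    S.secNum (θ x) (fderiv ℝ θ x a) (fderiv ℝ θ x b) = S'.secNum x a b := by
  unfold RGeo.secNum
  rw [h.curv hS' hS hx, ← h.isom x hx]

theorem IsIsom.isFrame (h : IsIsom S' S θ) (hx : x ∈ S'.U) {κ : Type} {e : κ → W'}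
    (he : S'.IsFrame x e) : S.IsFrame (θ x) (fun i => fderiv ℝ θ x (e i)) := by
  refine ⟨fun i => ?_, fun i j hij => ?_, fun w => ?_⟩
  · rw [← h.isom x hx]
    exact he.unit i
  · rw [← h.isom x hx]
    exact he.orth i j hij
  · obtain ⟨a, rfl⟩ := (h.inv x hx).surjective w
    have h1 := Submodule.mem_map_of_mem (f := ((fderiv ℝ θ x : W' →L[ℝ] W) : W' →ₗ[ℝ] W)) (he.span a)
    rw [Submodule.map_span, ← Set.range_comp] at h1
    exact h1

theorem IsIsom.ric [FiniteDimensional ℝ W'] (h : IsIsom S' S θ) (hS' : S'.IsRiem) (hS : S.IsRiem)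
    (hx : x ∈ S'.U) (a : W') : S.ric (θ x) (fderiv ℝ θ x a) = S'.ric x a := by
  have : CompleteSpace W' := FiniteDimensional.complete ℝ W'
  obtain ⟨e, he⟩ := hS'.exists_frame hx
  rw [ric_eq_sum hS (h.mapsTo x hx) (h.isFrame hx he), ric_eq_sum hS' hx he]
  exact Finset.sum_congr rfl fun i _ => h.secNum hS' hS hx (e i) a

theorem IsIsom.hess [CompleteSpace W'] (h : IsIsom S' S θ) (hS' : S'.IsRiem) (hS : S.IsRiem)
    (hx : x ∈ S'.U) {u : W → ℝ} (hu : ContDiffAt ℝ 2 u (θ x)) (a b : W') :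
    S'.hess (fun y => u (θ y)) x a b = S.hess u (θ x) (fderiv ℝ θ x a) (fderiv ℝ θ x b) := by
  have hθa : ContDiffAt ℝ ∞ θ x := h.smooth.contDiffAt (hS'.mem_nhds hx)
  have hθ2 : ContDiffAt ℝ 2 θ x := hθa.of_le (by norm_cast)
  have hθd : DifferentiableAt ℝ θ x := hθa.differentiableAt (by simp)
  have hud : DifferentiableAt ℝ u (θ x) := hu.differentiableAt (by norm_num)
  have e1 := S.hess_comp (f := θ) (p := x) hu hθ2 a b
  have e2 : S.covP θ (fun q => fderiv ℝ θ q b) x a = fderiv ℝ θ x (S'.Γ x a b) := by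
    rw [h.Γ_law hS' hS hx, RGeo.covP, fderiv_fderiv_apply hθ2]
  have e3 : fderiv ℝ (fun y => u (θ y)) x = (fderiv ℝ u (θ x)).comp (fderiv ℝ θ x) :=
    fderiv_comp x hud hθd
  unfold RGeo.hess at e1 ⊢
  rw [e1, e2, e3]
  simp

theorem IsIsom.length (h : IsIsom S' S θ) (hU' : IsOpen S'.U) {c : ℝ → W'} {t₀ t₁ : ℝ}
    (hc : ∀ t ∈ Set.uIcc t₀ t₁, c t ∈ S'.U ∧ DifferentiableAt ℝ c t) :
    S.length (fun t => θ (c t)) t₀ t₁ = S'.length c t₀ t₁ := by
  unfold RGeo.length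
  refine intervalIntegral.integral_congr fun t ht => ?_
  obtain ⟨h1, h2⟩ := hc t ht
  have hθd : DifferentiableAt ℝ θ (c t) :=
    (h.smooth.contDiffAt (hU'.mem_nhds h1)).differentiableAt (by simp)
  have e : deriv (fun t => θ (c t)) t = fderiv ℝ θ (c t) (deriv c t) :=
    (hθd.hasFDerivAt.comp_hasDerivAt t h2.hasDerivAt).deriv
  show S.nrm (θ (c t)) (deriv (fun t => θ (c t)) t) = S'.nrm (c t) (deriv c t)
  rw [e, h.nrm h1]

theorem IsIsom.energy (h : IsIsom S' S θ) (hU' : IsOpen S'.U) {c : ℝ → W'} {t₀ t₁ : ℝ}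
    (hc : ∀ t ∈ Set.uIcc t₀ t₁, c t ∈ S'.U ∧ DifferentiableAt ℝ c t) :
    S.energy (fun t => θ (c t)) t₀ t₁ = S'.energy c t₀ t₁ := by
  unfold RGeo.energy
  refine intervalIntegral.integral_congr fun t ht => ?_
  obtain ⟨h1, h2⟩ := hc t ht
  have hθd : DifferentiableAt ℝ θ (c t) :=
    (h.smooth.contDiffAt (hU'.mem_nhds h1)).differentiableAt (by simp)
  have e : deriv (fun t => θ (c t)) t = fderiv ℝ θ (c t) (deriv c t) :=
    (hθd.hasFDerivAt.comp_hasDerivAt t h2.hasDerivAt).deriv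
  show S.G (θ (c t)) (deriv (fun t => θ (c t)) t) (deriv (fun t => θ (c t)) t) =
    S'.G (c t) (deriv c t) (deriv c t)
  rw [e, h.isom _ h1]

/-- geodesics correspond. -/
theorem IsIsom.isGeod_iff [CompleteSpace W'] (h : IsIsom S' S θ) (hS' : S'.IsRiem) (hS : S.IsRiem)
    {c : ℝ → W'} {I : Set ℝ} (hI : IsOpen I) (hc : ContDiffOn ℝ ∞ c I)
    (hcU : ∀ t ∈ I, c t ∈ S'.U) : S.IsGeod (fun t => θ (c t)) I ↔ S'.IsGeod c I := by
  have hca : ∀ t ∈ I, ContDiffAt ℝ ∞ c t := fun t ht => hc.contDiffAt (hI.mem_nhds ht)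
  have hcd : ∀ t ∈ I, DifferentiableAt ℝ c t := fun t ht => (hca t ht).differentiableAt (by simp)
  have hdd : ∀ t ∈ I, DifferentiableAt ℝ (deriv c) t := fun t ht =>
    ((hc.deriv_of_isOpen hI (m := ∞) (by simp)).contDiffAt (hI.mem_nhds ht)).differentiableAt (by simp)
  have hder : ∀ t ∈ I, deriv (fun t => θ (c t)) t = fderiv ℝ θ (c t) (deriv c t) := fun t ht =>
    (((h.smooth.contDiffAt (hS'.mem_nhds (hcU t ht))).differentiableAt
      (by simp)).hasFDerivAt.comp_hasDerivAt t (hcd t ht).hasDerivAt).deriv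
  have key : ∀ t ∈ I, S.covD (fun t => θ (c t)) (deriv (fun t => θ (c t))) t =
      fderiv ℝ θ (c t) (S'.covD c (deriv c) t) := by
    intro t ht
    rw [← h.covD hS' hS (hcU t ht) (hcd t ht) (hdd t ht)]
    refine S.covD_congr (Filter.EventuallyEq.refl _ _) ?_
    filter_upwards [hI.mem_nhds ht] with r hr using hder r hr
  constructor
  · intro hg
    refine ⟨hc, hcU, fun t ht => ?_⟩
    refine (h.inv _ (hcU t ht)).injective ?_
    rw [← key t ht, hg.2.2 t ht, map_zero]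
  · intro hg
    refine ⟨h.smooth.comp hc hcU, fun t ht => h.mapsTo _ (hcU t ht), fun t ht => ?_⟩
    rw [key t ht, hg.2.2 t ht, map_zero]

theorem IsIsom.isGeod [CompleteSpace W'] (h : IsIsom S' S θ) (hS' : S'.IsRiem) (hS : S.IsRiem)
    {c : ℝ → W'} {I : Set ℝ} (hI : IsOpen I) (hc : S'.IsGeod c I) :
    S.IsGeod (fun t => θ (c t)) I :=
  (h.isGeod_iff hS' hS hI hc.1 hc.2.1).2 hc

/-- parallel fields correspond. -/
theorem IsIsom.isParallel_iff [CompleteSpace W'] (h : IsIsom S' S θ) (hS' : S'.IsRiem)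
    (hS : S.IsRiem) {c Z : ℝ → W'} {I : Set ℝ}
    (hc : ∀ t ∈ I, c t ∈ S'.U ∧ DifferentiableAt ℝ c t) (hZ : ∀ t ∈ I, DifferentiableAt ℝ Z t) :
    S.IsParallel (fun t => θ (c t)) (fun t => fderiv ℝ θ (c t) (Z t)) I ↔ S'.IsParallel c Z I := by
  constructor
  · intro hp t ht
    refine (h.inv _ (hc t ht).1).injective ?_
    rw [← h.covD hS' hS (hc t ht).1 (hc t ht).2 (hZ t ht), hp t ht, map_zero]
  · intro hp t ht
    rw [h.covD hS' hS (hc t ht).1 (hc t ht).2 (hZ t ht), hp t ht, map_zero]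

end RGeo
end Claimed.Agent.R316
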