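import Claimed.Agent.R316.Base.RGeo.Par

/-!
# `BP-G1` part 6: the exponential map of one chart, Gauss lemma, uniformly normal neighbourhoods

Architect: helper294.  Shapes agreed with helper256 (`BP-G4`).  `W` finite dimensional.

* `S.gspr = ODE.spray (fun x => - S.Γ x)` on `S.U ×ˢ univ`; `S.gfl t (x, v)` its flow, `S.gdm` the domain (TIME FIRST, as in `ODE`);
* `S.expDom = {(x, v) | (1, (x, v)) ∈ S.gdm}`, `S.rexp x v`, `S.rexpV x v` = position and velocity at time `1`.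

Leaves
* `G1-EXP-A` = sections 1, 2 (flow API, homogeneity, correspondence with `IsGeod`, uniqueness, uniform time).
* `G1-EXP-B` = section 3 (`d exp_0 = id`, Gauss lemma).
* `G1-EXP-C` = section 4 (uniformly normal neighbourhoods, calibration).

PLANS.
* Sections 1, 2: everything is a translation of `ODE/Flow.lean`, `ODE/FlowBasic.lean`, `ODE/Spray.lean` with `B = fun x => - S.Γ x` (`ContDiffOn ℝ ∞ B S.U` from `hS.Γ_smooth.neg`).
  `mem_expDom_smul`, `rexp_smul`: `ODE.mem_dom_spray_smul`, `ODE.fl_spray_smul`, `ODE.mem_dom_of_mem_uIcc`.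
  `isGeod_gfl`: `ODE.hasDerivAt_spray_fst/snd` + `isGeod_of_hasDerivAt` (`{t | (t, q) ∈ gdm}` is an interval-like o-p-e-n set: `ODE.isOpen_dom`).
  `IsGeod.gfl_eq`: `ODE.eq_fl_spray` with `w = deriv c`.  `exists_uniform_time`: `ODE.exists_pos_forall_mem_dom` on the compact set `K ×ˢ closedBall 0 (R/m)` (`IsRiem.exists_bounds`), then homogeneity.
* `fderiv_rexp_zero`: `rexp x (r • v) = (gfl r (x, v)).1` has derivative `v` at `r = 0`; `rexp x` is differentiable at `0` (`contDiffOn_rexp`, `isOpen_expDom`); chain rule.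
* `gauss_lemma`: `f (u, t) = rexp x (t • (v + u • w))`, smooth near `{0} × [0,1]`; `T = D f (0,1)`, `V = D f (1,0)`; every `t ↦ f (u, t)` is a geodesic with speed² `G x (v + u w) (v + u w)`;
  `d/dt G(V,T) = G(∇_t V, T) = G(∇_u T, T) = (1/2) d/du G(T,T) = G x v w` at `u = 0` (`fderiv_G_comp`, `covP_symm`, `covD_slice`); `V (0, 0) = 0`;
  so `G(V,T)(0,t) = t G x v w`; at `t = 1`: `V = fderiv (rexp x) v w`, `T = rexpV x v`.
* `exists_normal`: `F (x, v) = (x, rexp x v)` is smooth near `(x₀, 0)`, `DF (x₀,0) (a, b) = (a, a + b)` is invertible: `ContDiffAt.toOpenPartialHomeomorph` /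
  `HasStrictFDerivAt.toOpenPartialHomeomorph`: `F` is injective on a neighbourhood `N₁ ×ˢ ball 0 δ` of `(x₀,0)`, its image is a neighbourhood of `(x₀,x₀)`; invertibility of `fderiv (rexp x) v` is an
  o-p-e-n condition (`ContinuousLinearEquiv.nhds`, continuity of the derivative).  `IsRiem.exists_bounds` on a compact neighbourhood converts `‖v‖ < δ` into `nrm x v < ρ`.
* `calibration`: `inv` is differentiable at `y` with derivative `(fderiv (rexp x) v)⁻¹` (`HasFDerivAt.of_local_left_inverse`; continuity of `inv` at `y`: local homeomorphism + injectivity on the ball);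
  `D (G x (inv ·) (inv ·)) y a = 2 G x v ((D rexp)⁻¹ a) = 2 G y T a` by `gauss_lemma` with `w = (D rexp)⁻¹ a`.
-/

set_option autoImplicit false
set_option linter.unusedSectionVars false
set_option linter.deprecated false
set_option maxSynthPendingDepth 3
open scoped ContDiff Topology

namespace Claimed.Agent.R316
namespace RGeo

variable {W : Type} [NormedAddCommGroup W] [NormedSpace ℝ W] [FiniteDimensional ℝ W]
variable {S : RGeo W} {x v w : W} {c : ℝ → W} {I : Set ℝ} {s t t₀ : ℝ}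

/-! ### 1. the geodesic flow of a chart -/

/-- the geodesic spray. -/
noncomputable def gspr (S : RGeo W) : W × W → W × W := ODE.spray (fun x => - S.Γ x)

/-- domain of the geodesic flow (time first). -/
def gdm (S : RGeo W) : Set (ℝ × W × W) := ODE.dom S.gspr (S.U ×ˢ (Set.univ : Set W))

/-- the geodesic flow. -/
noncomputable def gfl (S : RGeo W) (t : ℝ) (q : W × W) : W × W :=
  ODE.fl S.gspr (S.U ×ˢ (Set.univ : Set W)) t q

/-- domain of the exponential map. -/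
def expDom (S : RGeo W) : Set (W × W) := {q | ((1 : ℝ), q) ∈ S.gdm}

/-- the exponential map. -/
noncomputable def rexp (S : RGeo W) (x v : W) : W := (S.gfl 1 (x, v)).1

/-- the velocity at time `1` of the geodesic `t ↦ rexp x (t v)`. -/
noncomputable def rexpV (S : RGeo W) (x v : W) : W := (S.gfl 1 (x, v)).2

theorem IsRiem.contDiffOn_negΓ (hS : S.IsRiem) : ContDiffOn ℝ ∞ (fun x => - S.Γ x) S.U := hS.Γ_smooth.neg

theorem IsRiem.contDiffOn_negΓ_one (hS : S.IsRiem) : ContDiffOn ℝ 1 (fun x => - S.Γ x) S.U :=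
  hS.contDiffOn_negΓ.of_le (by simp)

theorem IsRiem.isOpen_gΩ (hS : S.IsRiem) : IsOpen (S.U ×ˢ (Set.univ : Set W)) := hS.isOpen.prod isOpen_univ

theorem IsRiem.contDiffOn_gspr (hS : S.IsRiem) :
    ContDiffOn ℝ ∞ S.gspr (S.U ×ˢ (Set.univ : Set W)) :=
  ODE.contDiffOn_spray hS.contDiffOn_negΓ

theorem IsRiem.contDiffOn_gspr_one (hS : S.IsRiem) :
    ContDiffOn ℝ 1 S.gspr (S.U ×ˢ (Set.univ : Set W)) :=
  (IsRiem.contDiffOn_gspr hS).of_le (by simp)

theorem IsRiem.isOpen_gdm (hS : S.IsRiem) : IsOpen S.gdm := by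
  have : CompleteSpace W := FiniteDimensional.complete ℝ W
  exact ODE.isOpen_dom hS.isOpen_gΩ hS.contDiffOn_gspr_one

theorem IsRiem.contDiffOn_gfl (hS : S.IsRiem) :
    ContDiffOn ℝ ∞ (fun p : ℝ × W × W => S.gfl p.1 p.2) S.gdm := by
  have : CompleteSpace W := FiniteDimensional.complete ℝ W
  exact ODE.contDiffOn_fl_infty hS.isOpen_gΩ (IsRiem.contDiffOn_gspr hS)

theorem IsRiem.isOpen_expDom (hS : S.IsRiem) : IsOpen S.expDom :=
  (IsRiem.isOpen_gdm hS).preimage (Continuous.prodMk_right (1 : ℝ))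

theorem IsRiem.contDiffOn_gfl_one (hS : S.IsRiem) :
    ContDiffOn ℝ ∞ (fun q : W × W => S.gfl 1 q) S.expDom :=
  (IsRiem.contDiffOn_gfl hS).comp (contDiffOn_const.prodMk contDiffOn_id) (fun q hq => hq)

theorem IsRiem.contDiffOn_rexp (hS : S.IsRiem) :
    ContDiffOn ℝ ∞ (fun q : W × W => S.rexp q.1 q.2) S.expDom :=
  contDiff_fst.comp_contDiffOn hS.contDiffOn_gfl_one

theorem IsRiem.contDiffOn_rexpV (hS : S.IsRiem) :
    ContDiffOn ℝ ∞ (fun q : W × W => S.rexpV q.1 q.2) S.expDom :=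
  contDiff_snd.comp_contDiffOn hS.contDiffOn_gfl_one

theorem zero_mem_gdm : ((0 : ℝ), (x, v)) ∈ S.gdm ↔ x ∈ S.U := by
  unfold gdm
  rw [ODE.zero_mem_dom]
  simp

@[simp] theorem gfl_zero (S : RGeo W) (q : W × W) : S.gfl 0 q = q := ODE.fl_zero

theorem mem_U_of_mem_gdm (h : (t, (x, v)) ∈ S.gdm) : x ∈ S.U := (ODE.mem_of_mem_dom h).1

theorem gfl_mem (h : (t, (x, v)) ∈ S.gdm) : (S.gfl t (x, v)).1 ∈ S.U := (ODE.fl_mem h).1

theorem mem_gdm_of_mem_uIcc (h : (t, (x, v)) ∈ S.gdm) (hs : s ∈ Set.uIcc 0 t) :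
    (s, (x, v)) ∈ S.gdm := ODE.mem_dom_of_mem_uIcc h hs

/-- homogeneity. -/
theorem mem_gdm_smul (S : RGeo W) (r t : ℝ) (x v : W) :
    (t, (x, r • v)) ∈ S.gdm ↔ (r * t, (x, v)) ∈ S.gdm := by
  have : CompleteSpace W := FiniteDimensional.complete ℝ W
  exact ODE.mem_dom_spray_smul r

theorem IsRiem.gfl_smul (hS : S.IsRiem) (r : ℝ) (h : (r * t, (x, v)) ∈ S.gdm) :
    S.gfl t (x, r • v) = ((S.gfl (r * t) (x, v)).1, r • (S.gfl (r * t) (x, v)).2) := by
  have : CompleteSpace W := FiniteDimensional.complete ℝ W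
  exact ODE.fl_spray_smul hS.isOpen hS.contDiffOn_negΓ_one r h

theorem mem_expDom_iff : (x, t • v) ∈ S.expDom ↔ (t, (x, v)) ∈ S.gdm := by
  unfold expDom
  rw [Set.mem_setOf_eq, mem_gdm_smul, mul_one]

theorem IsRiem.rexp_smul (hS : S.IsRiem) (h : (t, (x, v)) ∈ S.gdm) :
    S.rexp x (t • v) = (S.gfl t (x, v)).1 := by
  unfold rexp
  rw [IsRiem.gfl_smul hS t (by rwa [mul_one]), mul_one]

theorem IsRiem.rexpV_smul (hS : S.IsRiem) (h : (t, (x, v)) ∈ S.gdm) :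
    S.rexpV x (t • v) = t • (S.gfl t (x, v)).2 := by
  unfold rexpV
  rw [IsRiem.gfl_smul hS t (by rwa [mul_one]), mul_one]

theorem IsRiem.zero_mem_expDom (hS : S.IsRiem) (hx : x ∈ S.U) : (x, (0 : W)) ∈ S.expDom := by
  have := (mem_expDom_iff (S := S) (x := x) (t := 0) (v := 0)).2 (zero_mem_gdm.2 hx)
  rwa [zero_smul] at this

theorem IsRiem.rexp_zero (hS : S.IsRiem) (hx : x ∈ S.U) : S.rexp x 0 = x := by
  have := IsRiem.rexp_smul hS (t := 0) (v := 0) (zero_mem_gdm.2 hx)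
  rwa [zero_smul, gfl_zero] at this

theorem IsRiem.rexpV_zero (hS : S.IsRiem) (hx : x ∈ S.U) : S.rexpV x 0 = 0 := by
  have := IsRiem.rexpV_smul hS (t := 0) (v := 0) (zero_mem_gdm.2 hx)
  rwa [zero_smul, zero_smul] at this

theorem mem_U_of_mem_expDom (h : (x, v) ∈ S.expDom) : x ∈ S.U := mem_U_of_mem_gdm h

theorem rexp_mem (h : (x, v) ∈ S.expDom) : S.rexp x v ∈ S.U := gfl_mem h

/-- the domain of `rexp x` is star shaped. -/
theorem smul_mem_expDom (h : (x, v) ∈ S.expDom) (hs : s ∈ Set.Icc (0 : ℝ) 1) :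
    (x, s • v) ∈ S.expDom := by
  rw [mem_expDom_iff]
  exact mem_gdm_of_mem_uIcc h (by rwa [Set.uIcc_of_le zero_le_one])

/-! ### 2. flow lines = geodesics -/

theorem IsRiem.hasDerivAt_gfl_fst (hS : S.IsRiem) (h : (t, (x, v)) ∈ S.gdm) :
    HasDerivAt (fun r => (S.gfl r (x, v)).1) (S.gfl t (x, v)).2 t := by
  have : CompleteSpace W := FiniteDimensional.complete ℝ W
  exact ODE.hasDerivAt_spray_fst hS.isOpen hS.contDiffOn_negΓ_one h

theorem IsRiem.hasDerivAt_gfl_snd (hS : S.IsRiem) (h : (t, (x, v)) ∈ S.gdm) :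
    HasDerivAt (fun r => (S.gfl r (x, v)).2)
      (-(S.Γ (S.gfl t (x, v)).1 (S.gfl t (x, v)).2 (S.gfl t (x, v)).2)) t := by
  have : CompleteSpace W := FiniteDimensional.complete ℝ W
  exact ODE.hasDerivAt_spray_snd hS.isOpen hS.contDiffOn_negΓ_one h

theorem IsRiem.isOpen_gdm_times (hS : S.IsRiem) (x v : W) : IsOpen {t | (t, (x, v)) ∈ S.gdm} :=
  (IsRiem.isOpen_gdm hS).preimage (Continuous.prodMk_left (x, v))

theorem ordConnected_gdm_times (S : RGeo W) (x v : W) :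
    {t | (t, (x, v)) ∈ S.gdm}.OrdConnected := by
  refine ⟨fun a ha b hb r hr => ?_⟩
  rcases le_total 0 r with h0 | h0
  · exact mem_gdm_of_mem_uIcc hb (by rw [Set.uIcc_of_le (h0.trans hr.2)]; exact ⟨h0, hr.2⟩)
  · exact mem_gdm_of_mem_uIcc ha (by rw [Set.uIcc_of_ge (hr.1.trans h0)]; exact ⟨hr.1, h0⟩)

/-- the flow lines are geodesics. -/
theorem IsRiem.isGeod_gfl (hS : S.IsRiem) (x v : W) :
    S.IsGeod (fun r => (S.gfl r (x, v)).1) {t | (t, (x, v)) ∈ S.gdm} :=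
  isGeod_of_hasDerivAt hS (IsRiem.isOpen_gdm_times hS x v) (w := fun r => (S.gfl r (x, v)).2)
    (fun t ht => ⟨gfl_mem ht, IsRiem.hasDerivAt_gfl_fst hS ht⟩)
    (fun t ht => hS.hasDerivAt_gfl_snd ht)

theorem IsRiem.rexp_smul_eventuallyEq (hS : S.IsRiem) (h : (t, (x, v)) ∈ S.gdm) :
    (fun r : ℝ => S.rexp x (r • v)) =ᶠ[𝓝 t] fun r => (S.gfl r (x, v)).1 := by
  filter_upwards [(IsRiem.isOpen_gdm_times hS x v).mem_nhds h] with r hr using IsRiem.rexp_smul hS hr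

theorem IsRiem.deriv_rexp_smul (hS : S.IsRiem) (h : (t, (x, v)) ∈ S.gdm) :
    deriv (fun r : ℝ => S.rexp x (r • v)) t = (S.gfl t (x, v)).2 := by
  rw [(hS.rexp_smul_eventuallyEq h).deriv_eq, (IsRiem.hasDerivAt_gfl_fst hS h).deriv]

/-- `t ↦ rexp x (t v)` is a geodesic on an interval containing `[0,1]`, with the expected 1-jets at `0` and `1`. -/
theorem IsRiem.isGeod_rexp (hS : S.IsRiem) (h : (x, v) ∈ S.expDom) :
    ∃ ε > 0, (∀ r ∈ Set.Ioo (-ε) (1 + ε), (x, r • v) ∈ S.expDom) ∧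
      S.IsGeod (fun r : ℝ => S.rexp x (r • v)) (Set.Ioo (-ε) (1 + ε)) ∧
      deriv (fun r : ℝ => S.rexp x (r • v)) 0 = v ∧
      deriv (fun r : ℝ => S.rexp x (r • v)) 1 = S.rexpV x v := by
  have hopen := IsRiem.isOpen_gdm_times hS x v
  have h1 : (1 : ℝ) ∈ {t | (t, (x, v)) ∈ S.gdm} := h
  have h0 : (0 : ℝ) ∈ {t | (t, (x, v)) ∈ S.gdm} := zero_mem_gdm.2 (mem_U_of_mem_gdm h)
  obtain ⟨ε₁, hε₁, hb₁⟩ := Metric.isOpen_iff.1 hopen 1 h1
  obtain ⟨ε₀, hε₀, hb₀⟩ := Metric.isOpen_iff.1 hopen 0 h0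
  have hsub : Set.Ioo (-(min ε₀ ε₁)) (1 + min ε₀ ε₁) ⊆ {t | (t, (x, v)) ∈ S.gdm} := by
    intro r hr
    have hm0 := min_le_left ε₀ ε₁
    have hm1 := min_le_right ε₀ ε₁
    rcases le_total r 0 with hr0 | hr0
    · refine hb₀ ?_
      rw [Metric.mem_ball, Real.dist_eq, sub_zero, abs_of_nonpos hr0]
      linarith [hr.1]
    · rcases le_total r 1 with hr1 | hr1
      · exact (ordConnected_gdm_times S x v).out h0 h1 ⟨hr0, hr1⟩
      · refine hb₁ ?_
        rw [Metric.mem_ball, Real.dist_eq, abs_of_nonneg (by linarith)]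
        linarith [hr.2]
  refine ⟨min ε₀ ε₁, lt_min hε₀ hε₁, fun r hr => mem_expDom_iff.2 (hsub hr), ?_, ?_, ?_⟩
  · have hg := (IsRiem.isGeod_gfl hS x v).mono hsub
    refine ⟨hg.1.congr fun r hr => IsRiem.rexp_smul hS (hsub hr), fun r hr => ?_, fun r hr => ?_⟩
    · show S.rexp x (r • v) ∈ S.U
      rw [IsRiem.rexp_smul hS (hsub hr)]
      exact hg.2.1 r hr
    · have e1 := hS.rexp_smul_eventuallyEq (hsub hr)
      rw [S.covD_congr e1 e1.deriv]
      exact hg.2.2 r hr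
  · rw [hS.deriv_rexp_smul h0, gfl_zero]
  · rw [hS.deriv_rexp_smul h1]
    rfl

/-- velocity of `t ↦ rexp x (t v)` at any time. -/
theorem IsRiem.smul_deriv_rexp (hS : S.IsRiem) (h : (x, t • v) ∈ S.expDom) :
    t • deriv (fun r : ℝ => S.rexp x (r • v)) t = S.rexpV x (t • v) := by
  have h' := mem_expDom_iff.1 h
  rw [hS.deriv_rexp_smul h', IsRiem.rexpV_smul hS h']

/-- **every geodesic is a flow line.** -/
theorem IsGeod.gfl_eq (hS : S.IsRiem) (hI : IsOpen I) (hIc : I.OrdConnected) (hc : S.IsGeod c I)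
    (ht₀ : t₀ ∈ I) (ht : t ∈ I) :
    (t - t₀, (c t₀, deriv c t₀)) ∈ S.gdm ∧ S.gfl (t - t₀) (c t₀, deriv c t₀) = (c t, deriv c t) := by
  have : CompleteSpace W := FiniteDimensional.complete ℝ W
  exact ODE.eq_fl_spray hS.isOpen hS.contDiffOn_negΓ_one hIc
    (fun r hr => ⟨hc.2.1 r hr, (hc.differentiableAt hI hr).hasDerivAt.hasDerivWithinAt⟩)
    (fun r hr => (hc.hasDerivAt_deriv hI hr).hasDerivWithinAt) ht₀ ht

theorem IsGeod.rexp_eq (hS : S.IsRiem) (hI : IsOpen I) (hIc : I.OrdConnected) (hc : S.IsGeod c I)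
    (ht₀ : t₀ ∈ I) (ht : t ∈ I) :
    (c t₀, (t - t₀) • deriv c t₀) ∈ S.expDom ∧ S.rexp (c t₀) ((t - t₀) • deriv c t₀) = c t ∧
      S.rexpV (c t₀) ((t - t₀) • deriv c t₀) = (t - t₀) • deriv c t := by
  obtain ⟨h1, h2⟩ := IsGeod.gfl_eq hS hI hIc hc ht₀ ht
  refine ⟨mem_expDom_iff.2 h1, ?_, ?_⟩
  · rw [IsRiem.rexp_smul hS h1, h2]
  · rw [IsRiem.rexpV_smul hS h1, h2]

/-- **uniqueness of geodesics.** -/
theorem IsGeod.eqOn (hS : S.IsRiem) (hI : IsOpen I) (hIc : I.OrdConnected) {c' : ℝ → W}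
    (hc : S.IsGeod c I) (hc' : S.IsGeod c' I) (ht₀ : t₀ ∈ I) (h0 : c t₀ = c' t₀)
    (h1 : deriv c t₀ = deriv c' t₀) : Set.EqOn c c' I := by
  intro t ht
  have e1 := (IsGeod.gfl_eq hS hI hIc hc ht₀ ht).2
  have e2 := (IsGeod.gfl_eq hS hI hIc hc' ht₀ ht).2
  rw [h0, h1, e2] at e1
  exact (congrArg Prod.fst e1).symm

theorem IsRiem.G_rexpV (hS : S.IsRiem) (h : (x, v) ∈ S.expDom) :
    S.G (S.rexp x v) (S.rexpV x v) (S.rexpV x v) = S.G x v v := by
  have hg := IsRiem.isGeod_gfl hS x v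
  have h1 : (1 : ℝ) ∈ {t | (t, (x, v)) ∈ S.gdm} := h
  have h0 : (0 : ℝ) ∈ {t | (t, (x, v)) ∈ S.gdm} := zero_mem_gdm.2 (mem_U_of_mem_gdm h)
  have := hg.G_const hS (IsRiem.isOpen_gdm_times hS x v) (ordConnected_gdm_times S x v) h1 h0
  rw [(IsRiem.hasDerivAt_gfl_fst hS h1).deriv, (IsRiem.hasDerivAt_gfl_fst hS h0).deriv] at this
  simp only [gfl_zero] at this
  exact this

/-- constant speed. -/
theorem IsRiem.nrm_rexpV (hS : S.IsRiem) (h : (x, v) ∈ S.expDom) :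
    S.nrm (S.rexp x v) (S.rexpV x v) = S.nrm x v := by
  simp only [nrm, IsRiem.G_rexpV hS h]

/-- length of the radial geodesic. -/
theorem IsRiem.length_rexp (hS : S.IsRiem) (h : (x, v) ∈ S.expDom) :
    S.length (fun r : ℝ => S.rexp x (r • v)) 0 1 = S.nrm x v := by
  obtain ⟨ε, hε, -, hg, hd0, -⟩ := IsRiem.isGeod_rexp hS h
  have := hg.length_eq hS isOpen_Ioo Set.ordConnected_Ioo (s := 0) (t := 1) ⟨by linarith, by linarith⟩
    ⟨by linarith, by linarith⟩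
  rw [this, hd0]
  simp only [zero_smul, sub_zero, one_mul]
  rw [IsRiem.rexp_zero hS (mem_U_of_mem_gdm h)]

theorem IsRiem.G_gfl (hS : S.IsRiem) (h : (t, (x, v)) ∈ S.gdm) :
    S.G (S.gfl t (x, v)).1 (S.gfl t (x, v)).2 (S.gfl t (x, v)).2 = S.G x v v := by
  have hg := IsRiem.isGeod_gfl hS x v
  have h1 : t ∈ {t | (t, (x, v)) ∈ S.gdm} := h
  have h0 : (0 : ℝ) ∈ {t | (t, (x, v)) ∈ S.gdm} := zero_mem_gdm.2 (mem_U_of_mem_gdm h)
  have := hg.G_const hS (IsRiem.isOpen_gdm_times hS x v) (ordConnected_gdm_times S x v) h1 h0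
  rw [(IsRiem.hasDerivAt_gfl_fst hS h1).deriv, (IsRiem.hasDerivAt_gfl_fst hS h0).deriv] at this
  simp only [gfl_zero] at this
  exact this

/-- **uniform existence time.** -/
theorem IsRiem.exists_uniform_time (hS : S.IsRiem) {K : Set W} (hK : IsCompact K) (hKU : K ⊆ S.U)
    (R : ℝ) : ∃ δ > 0, ∀ x ∈ K, ∀ v, S.nrm x v ≤ R → ∀ r : ℝ, |r| ≤ δ → (x, r • v) ∈ S.expDom := by
  have : CompleteSpace W := FiniteDimensional.complete ℝ W
  obtain ⟨m, M, hm, hM, hb⟩ := hS.exists_bounds hK hKU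
  obtain ⟨ε, hε, hu⟩ := ODE.exists_pos_forall_mem_dom hS.isOpen_gΩ hS.contDiffOn_gspr_one
    (K := K ×ˢ Metric.closedBall (0 : W) (R / m)) (hK.prod (isCompact_closedBall 0 _))
    (fun q hq => ⟨hKU hq.1, trivial⟩)
  refine ⟨ε, hε, fun x hx v hv r hr => mem_expDom_iff.2 (hu (x, v) ⟨hx, ?_⟩ r hr)⟩
  rw [mem_closedBall_zero_iff, le_div_iff₀ hm, mul_comm]
  exact ((hb x hx v).1).trans hv

/-- continuation: a geodesic which stays in a compact subset of `U` can be extended. -/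
theorem IsRiem.mem_gdm_of_apriori (hS : S.IsRiem) (hx : x ∈ S.U) {T : ℝ} {K : Set W}
    (hK : IsCompact K) (hKU : K ⊆ S.U)
    (h : ∀ r ∈ Set.uIcc 0 T, (r, (x, v)) ∈ S.gdm → (S.gfl r (x, v)).1 ∈ K) :
    (T, (x, v)) ∈ S.gdm := by
  have : CompleteSpace W := FiniteDimensional.complete ℝ W
  obtain ⟨m, M, hm, hM, hb⟩ := hS.exists_bounds hK hKU
  refine ODE.mem_dom_of_apriori hS.isOpen_gΩ hS.contDiffOn_gspr_one (x := (x, v)) ⟨hx, trivial⟩
    (K := K ×ˢ Metric.closedBall (0 : W) (S.nrm x v / m)) (hK.prod (isCompact_closedBall 0 _))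
    (fun q hq => ⟨hKU hq.1, trivial⟩) (fun r hr hd => ⟨h r hr hd, ?_⟩)
  rw [mem_closedBall_zero_iff, le_div_iff₀ hm, mul_comm]
  refine ((hb _ (h r hr hd) _).1).trans (le_of_eq ?_)
  have e := hS.G_gfl hd
  unfold nrm
  exact congrArg Real.sqrt e

/-! ### 3. the differential of the exponential map; Gauss lemma -/

theorem IsRiem.contDiffAt_rexp_pair (hS : S.IsRiem) (h : (x, v) ∈ S.expDom) :
    ContDiffAt ℝ ∞ (fun q : W × W => S.rexp q.1 q.2) (x, v) :=
  hS.contDiffOn_rexp.contDiffAt (hS.isOpen_expDom.mem_nhds h)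

theorem IsRiem.contDiffAt_rexp (hS : S.IsRiem) (h : (x, v) ∈ S.expDom) :
    ContDiffAt ℝ ∞ (S.rexp x) v :=
  ContDiffAt.comp (g := fun q : W × W => S.rexp q.1 q.2) (f := fun u : W => (x, u)) v
    (hS.contDiffAt_rexp_pair h) (contDiffAt_const.prodMk contDiffAt_id)

theorem IsRiem.differentiableAt_rexp (hS : S.IsRiem) (h : (x, v) ∈ S.expDom) :
    DifferentiableAt ℝ (S.rexp x) v :=
  (IsRiem.contDiffAt_rexp hS h).differentiableAt (by simp)

/-- chain rule along a ray. -/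
theorem IsRiem.fderiv_rexp_ray (hS : S.IsRiem) (h : (t, (x, v)) ∈ S.gdm) :
    fderiv ℝ (S.rexp x) (t • v) v = (S.gfl t (x, v)).2 := by
  have hd := (IsRiem.differentiableAt_rexp hS (mem_expDom_iff.2 h)).hasFDerivAt
  have h1 : HasDerivAt (fun r : ℝ => r • v) v t := by
    simpa using (hasDerivAt_id t).smul_const v
  have h2 := hd.comp_hasDerivAt t h1
  rw [← hS.deriv_rexp_smul h]
  exact h2.deriv.symm

/-- `d (exp_x)_0 = id`. -/
theorem IsRiem.fderiv_rexp_zero (hS : S.IsRiem) (hx : x ∈ S.U) :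
    fderiv ℝ (S.rexp x) 0 = ContinuousLinearMap.id ℝ W := by
  ext v
  have := hS.fderiv_rexp_ray (t := 0) (v := v) (zero_mem_gdm.2 hx)
  rwa [zero_smul, gfl_zero] at this

/-- the differential of `(x, v) ↦ rexp x v` at `(x, 0)`. -/
theorem IsRiem.fderiv_rexp_pair_zero (hS : S.IsRiem) (hx : x ∈ S.U) (a b : W) :
    fderiv ℝ (fun q : W × W => S.rexp q.1 q.2) (x, 0) (a, b) = a + b := by
  have hd : HasFDerivAt (fun q : W × W => S.rexp q.1 q.2)
      (fderiv ℝ (fun q : W × W => S.rexp q.1 q.2) (x, 0)) (x, 0) :=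
    ((hS.contDiffAt_rexp_pair (hS.zero_mem_expDom hx)).differentiableAt (by simp)).hasFDerivAt
  have h1 : HasFDerivAt (fun u : W => ((x, u) : W × W)) (ContinuousLinearMap.inr ℝ W W) 0 :=
    hasFDerivAt_prodMk_right x 0
  have h2 : HasFDerivAt (fun y : W => ((y, 0) : W × W)) (ContinuousLinearMap.inl ℝ W W) x :=
    hasFDerivAt_prodMk_left x 0
  have e1 := (hd.comp (0 : W) h1).fderiv
  have e2 := (hd.comp x h2).fderiv
  have e1' : fderiv ℝ (S.rexp x) 0 = (fderiv ℝ (fun q : W × W => S.rexp q.1 q.2) (x, 0)).comp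
      (ContinuousLinearMap.inr ℝ W W) := e1
  have e2' : fderiv ℝ (fun y => S.rexp y 0) x = (fderiv ℝ (fun q : W × W => S.rexp q.1 q.2) (x, 0)).comp
      (ContinuousLinearMap.inl ℝ W W) := e2
  have e3 : fderiv ℝ (fun y => S.rexp y 0) x = ContinuousLinearMap.id ℝ W := by
    have : (fun y => S.rexp y 0) =ᶠ[𝓝 x] fun y => y := by
      filter_upwards [hS.mem_nhds hx] with y hy using hS.rexp_zero hy
    rw [this.fderiv_eq]
    exact fderiv_id'
  have hab : ((a, b) : W × W) = ContinuousLinearMap.inl ℝ W W a + ContinuousLinearMap.inr ℝ W W b := by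
    simp
  rw [hab, map_add]
  have r1 := congrArg (fun L : W →L[ℝ] W => L b) e1'
  have r2 := congrArg (fun L : W →L[ℝ] W => L a) e2'
  simp only [ContinuousLinearMap.comp_apply] at r1 r2
  rw [← r1, ← r2, e3, IsRiem.fderiv_rexp_zero hS hx]
  rfl

theorem IsRiem.fderiv_rexp_self (hS : S.IsRiem) (h : (x, v) ∈ S.expDom) :
    fderiv ℝ (S.rexp x) v v = S.rexpV x v := by
  have := hS.fderiv_rexp_ray (t := 1) (v := v) h
  rwa [one_smul] at this

/-- **Gauss lemma.** -/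
theorem IsRiem.gauss_lemma (hS : S.IsRiem) (h : (x, v) ∈ S.expDom) (w : W) :
    S.G (S.rexp x v) (S.rexpV x v) (fderiv ℝ (S.rexp x) v w) = S.G x v w := by
  have hx : x ∈ S.U := mem_U_of_mem_expDom h
  have hιs : ContDiff ℝ ∞ (fun q : ℝ × ℝ => (q.2, (x, v + q.1 • w))) :=
    contDiff_snd.prodMk (contDiff_const.prodMk (contDiff_const.add (contDiff_fst.smul contDiff_const)))
  obtain ⟨O, hOdef⟩ : ∃ O : Set (ℝ × ℝ), O = (fun q : ℝ × ℝ => (q.2, (x, v + q.1 • w))) ⁻¹' S.gdm := ⟨_, rfl⟩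
  have hOmem : ∀ q : ℝ × ℝ, q ∈ O ↔ (q.2, (x, v + q.1 • w)) ∈ S.gdm := fun q => by rw [hOdef]; rfl
  have hOo : IsOpen O := by
    rw [hOdef]
    exact hS.isOpen_gdm.preimage hιs.continuous
  have hF : ContDiffOn ℝ ∞ (fun q : ℝ × ℝ => S.gfl q.2 (x, v + q.1 • w)) O :=
    hS.contDiffOn_gfl.comp hιs.contDiffOn (fun q hq => (hOmem q).1 hq)
  obtain ⟨f, hf⟩ : ∃ f : ℝ × ℝ → W, f = fun q => (S.gfl q.2 (x, v + q.1 • w)).1 := ⟨_, rfl⟩
  obtain ⟨T, hT⟩ : ∃ T : ℝ × ℝ → W, T = fun q => (S.gfl q.2 (x, v + q.1 • w)).2 := ⟨_, rfl⟩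
  have hfs : ContDiffOn ℝ ∞ f O := by
    rw [hf]
    exact contDiff_fst.comp_contDiffOn hF
  have hTs : ContDiffOn ℝ ∞ T O := by
    rw [hT]
    exact contDiff_snd.comp_contDiffOn hF
  have hfa : ∀ q ∈ O, ContDiffAt ℝ ∞ f q := fun q hq => hfs.contDiffAt (hOo.mem_nhds hq)
  have hfd : ∀ q ∈ O, DifferentiableAt ℝ f q := fun q hq => (hfa q hq).differentiableAt (by simp)
  have hTd : ∀ q ∈ O, DifferentiableAt ℝ T q := fun q hq =>
    (hTs.contDiffAt (hOo.mem_nhds hq)).differentiableAt (by simp)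
  have hfU : ∀ q ∈ O, f q ∈ S.U := fun q hq => by
    rw [hf]
    exact gfl_mem ((hOmem q).1 hq)
  -- (i)
  have h_i : ∀ q ∈ O, fderiv ℝ f q (0, 1) = T q := by
    rintro ⟨u, t⟩ hq
    rw [← deriv_slice (hfd _ hq), hf, hT]
    exact (hS.hasDerivAt_gfl_fst ((hOmem _).1 hq)).deriv
  -- (ii)
  have h_ii : ∀ q ∈ O, S.covP f T q (0, 1) = 0 := by
    rintro ⟨u, t⟩ hq
    unfold covP
    rw [h_i _ hq, ← deriv_slice (hTd _ hq)]
    have e : deriv (fun r => T (u, r)) t = -(S.Γ (f (u, t)) (T (u, t)) (T (u, t))) := by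
      rw [hf, hT]
      exact (hS.hasDerivAt_gfl_snd ((hOmem _).1 hq)).deriv
    rw [e]
    exact neg_add_cancel _
  -- (iii)
  have h_iii : ∀ q ∈ O, S.G (f q) (T q) (T q) = S.G x (v + q.1 • w) (v + q.1 • w) := fun q hq => by
    rw [hf, hT]
    exact hS.G_gfl ((hOmem q).1 hq)
  obtain ⟨V, hV⟩ : ∃ V : ℝ × ℝ → W, V = fun q => fderiv ℝ f q (1, 0) := ⟨_, rfl⟩
  have hVs : ContDiffOn ℝ ∞ V O := by
    rw [hV]
    exact (hfs.fderiv_of_isOpen hOo (by simp)).clm_apply contDiffOn_const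
  have hVd : ∀ q ∈ O, DifferentiableAt ℝ V q := fun q hq =>
    (hVs.contDiffAt (hOo.mem_nhds hq)).differentiableAt (by simp)
  -- (iv)
  have h_iv : ∀ q ∈ O, S.covP f V q (0, 1) = S.covP f T q (1, 0) := by
    intro q hq
    rw [hV, hS.covP_symm (hfU q hq) ((hfa q hq).of_le (by norm_cast)) (0, 1) (1, 0)]
    refine S.covP_congr (Filter.EventuallyEq.refl _ _) ?_
    filter_upwards [hOo.mem_nhds hq] with q' hq' using h_i q' hq'
  -- (v)
  have hpoly : ∀ q : ℝ × ℝ, S.G x (v + q.1 • w) (v + q.1 • w)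
      = S.G x v v + 2 * q.1 * S.G x v w + q.1 ^ 2 * S.G x w w := by
    intro q
    simp only [map_add, map_smul, ContinuousLinearMap.add_apply, ContinuousLinearMap.smul_apply, smul_eq_mul]
    rw [hS.G_symm x hx w v]
    ring
  have h_v : ∀ q ∈ O, S.G (f q) (S.covP f T q (1, 0)) (T q) = S.G x (v + q.1 • w) w := by
    intro q hq
    have e1 := hS.fderiv_G_comp (hfU q hq) (hfd q hq) (hTd q hq) (hTd q hq) (1, 0)
    have e2 : (fun q => S.G (f q) (T q) (T q)) =ᶠ[𝓝 q]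
        fun q => S.G x v v + 2 * q.1 * S.G x v w + q.1 ^ 2 * S.G x w w := by
      filter_upwards [hOo.mem_nhds hq] with q' hq'
      rw [h_iii q' hq', hpoly]
    have e3 : HasDerivAt (fun u : ℝ => S.G x v v + 2 * u * S.G x v w + u ^ 2 * S.G x w w)
        (2 * S.G x v w + 2 * q.1 * S.G x w w) q.1 := by
      have := (((hasDerivAt_id q.1).const_mul 2).mul_const (S.G x v w)).const_add (S.G x v v)
      have h2 := this.add (((hasDerivAt_id q.1).pow 2).mul_const (S.G x w w))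
      refine HasDerivAt.congr_deriv (f := fun u : ℝ => S.G x v v + 2 * u * S.G x v w + u ^ 2 * S.G x w w) h2 ?_
      simp
    have e4 := (e3.comp_hasFDerivAt q (hasFDerivAt_fst (𝕜 := ℝ) (p := q))).fderiv
    have e5 : fderiv ℝ (fun q : ℝ × ℝ => S.G x v v + 2 * q.1 * S.G x v w + q.1 ^ 2 * S.G x w w) q
        = (2 * S.G x v w + 2 * q.1 * S.G x w w) • ContinuousLinearMap.fst ℝ ℝ ℝ := e4
    rw [e2.fderiv_eq, e5, hS.G_symm (f q) (hfU q hq) (T q)] at e1
    simp only [ContinuousLinearMap.smul_apply, ContinuousLinearMap.coe_fst', smul_eq_mul, mul_one] at e1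
    simp only [map_add, map_smul, ContinuousLinearMap.add_apply, ContinuousLinearMap.smul_apply, smul_eq_mul]
    linarith
  -- the function `Φ = G(V, T)`
  have hΦd : ∀ q ∈ O, DifferentiableAt ℝ (fun q => S.G (f q) (V q) (T q)) q := fun q hq =>
    hS.differentiableAt_G_comp (hfU q hq) (hfd q hq) (hVd q hq) (hTd q hq)
  have hΦ' : ∀ q ∈ O, fderiv ℝ (fun q => S.G (f q) (V q) (T q)) q (0, 1) = S.G x (v + q.1 • w) w := by
    intro q hq
    rw [hS.fderiv_G_comp (hfU q hq) (hfd q hq) (hVd q hq) (hTd q hq) (0, 1), h_iv q hq, h_ii q hq, map_zero,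
      add_zero, h_v q hq]
  have hseg : ∀ t ∈ Set.Icc (0 : ℝ) 1, ((0 : ℝ), t) ∈ O := by
    intro t ht
    rw [hOmem]
    simp only [zero_smul, add_zero]
    exact mem_gdm_of_mem_uIcc h (by rwa [Set.uIcc_of_le zero_le_one])
  have hφ : ∀ t ∈ Set.Icc (0 : ℝ) 1,
      HasDerivAt (fun r : ℝ => S.G (f (0, r)) (V (0, r)) (T (0, r))) (S.G x v w) t := by
    intro t ht
    have h1 : HasDerivAt (fun r : ℝ => S.G (f (0, r)) (V (0, r)) (T (0, r)))
        (fderiv ℝ (fun q => S.G (f q) (V q) (T q)) (0, t) (0, 1)) t :=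
      (hΦd _ (hseg t ht)).hasFDerivAt.comp_hasDerivAt t (hasFDerivAt_slice_map (0 : ℝ) t)
    rw [hΦ' _ (hseg t ht)] at h1
    simpa only [zero_smul, add_zero] using h1
  have hint : S.G (f (0, 1)) (V (0, 1)) (T (0, 1)) - S.G (f (0, 0)) (V (0, 0)) (T (0, 0)) = S.G x v w := by
    have h1 := (convex_Icc (0 : ℝ) 1).norm_image_sub_le_of_norm_hasDerivWithin_le
      (f := fun r : ℝ => S.G (f (0, r)) (V (0, r)) (T (0, r)) - r * S.G x v w) (f' := fun _ => (0 : ℝ)) (C := 0)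
      (fun r hr => by
        have h2 := (hφ r hr).sub ((hasDerivAt_id r).mul_const (S.G x v w))
        simp only [id, one_mul, sub_self] at h2
        exact h2.hasDerivWithinAt)
      (fun r _ => by simp) (Set.left_mem_Icc.2 zero_le_one) (Set.right_mem_Icc.2 zero_le_one)
    have h3 := sub_eq_zero.1 (norm_le_zero_iff.1 (h1.trans (le_of_eq (zero_mul _))))
    simp only [one_mul, zero_mul, sub_zero] at h3
    linarith
  have h00 : V (0, 0) = 0 := by
    have h1 : HasDerivAt (fun u : ℝ => ((u, 0) : ℝ × ℝ)) ((1 : ℝ), (0 : ℝ)) 0 :=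
      (hasDerivAt_id (0 : ℝ)).prodMk (hasDerivAt_const (0 : ℝ) (0 : ℝ))
    have h2 := HasFDerivAt.comp_hasDerivAt (f := fun u : ℝ => ((u, 0) : ℝ × ℝ)) (0 : ℝ)
      (hfd _ (hseg 0 (Set.left_mem_Icc.2 zero_le_one))).hasFDerivAt h1
    have h3 : (f ∘ fun u : ℝ => ((u, 0) : ℝ × ℝ)) = fun _ => x := by
      funext u
      rw [hf]
      simp
    rw [h3] at h2
    rw [hV]
    exact h2.unique (hasDerivAt_const _ _)
  have h01 : V (0, 1) = fderiv ℝ (S.rexp x) v w := by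
    have h1 : HasDerivAt (fun u : ℝ => ((u, 1) : ℝ × ℝ)) ((1 : ℝ), (0 : ℝ)) 0 :=
      (hasDerivAt_id (0 : ℝ)).prodMk (hasDerivAt_const (0 : ℝ) (1 : ℝ))
    have h2 := HasFDerivAt.comp_hasDerivAt (f := fun u : ℝ => ((u, 1) : ℝ × ℝ)) (0 : ℝ)
      (hfd _ (hseg 1 (Set.right_mem_Icc.2 zero_le_one))).hasFDerivAt h1
    have h3 : (f ∘ fun u : ℝ => ((u, 1) : ℝ × ℝ)) = fun u => S.rexp x (v + u • w) := by
      funext u
      rw [hf]
      rfl
    rw [h3] at h2
    have h4 : HasDerivAt (fun u : ℝ => v + u • w) w 0 := by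
      simpa using ((hasDerivAt_id (0 : ℝ)).smul_const w).const_add v
    have h5 : HasFDerivAt (S.rexp x) (fderiv ℝ (S.rexp x) v) (v + (0 : ℝ) • w) := by
      rw [zero_smul, add_zero]
      exact (IsRiem.differentiableAt_rexp hS h).hasFDerivAt
    rw [hV]
    exact h2.unique (HasFDerivAt.comp_hasDerivAt (f := fun u : ℝ => v + u • w) (0 : ℝ) h5 h4)
  have hf01 : f (0, 1) = S.rexp x v := by
    rw [hf]
    simp [rexp]
  have hT01 : T (0, 1) = S.rexpV x v := by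
    rw [hT]
    simp [rexpV]
  rw [h00, h01, hf01, hT01, map_zero, ContinuousLinearMap.zero_apply, sub_zero] at hint
  rw [hS.G_symm _ (rexp_mem h)]
  exact hint

/-! ### 4. uniformly normal neighbourhoods -/

/-- `N, ρ` is a uniformly normal pair: for every `x ∈ N` the map `rexp x` is an injective local diffeomorphism on the `G x`-ball of
radius `ρ`. -/
structure IsNormal (S : RGeo W) (N : Set W) (ρ : ℝ) : Prop where
  isOpen : IsOpen N
  subset : N ⊆ S.U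
  pos : 0 < ρ
  mem : ∀ x ∈ N, ∀ v, S.nrm x v < ρ → (x, v) ∈ S.expDom
  inv : ∀ x ∈ N, ∀ v, S.nrm x v < ρ → (fderiv ℝ (S.rexp x) v).IsInvertible
  injOn : ∀ x ∈ N, Set.InjOn (S.rexp x) {v | S.nrm x v < ρ}

theorem IsNormal.mono {N N' : Set W} {ρ ρ' : ℝ} (h : S.IsNormal N ρ) (hN' : IsOpen N')
    (hsub : N' ⊆ N) (hρ' : 0 < ρ') (hle : ρ' ≤ ρ) : S.IsNormal N' ρ' :=
  ⟨hN', hsub.trans h.subset, hρ', fun x hx v hv => h.mem x (hsub hx) v (hv.trans_le hle),
    fun x hx v hv => h.inv x (hsub hx) v (hv.trans_le hle),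
    fun x hx => (h.injOn x (hsub hx)).mono fun _ hv => lt_of_lt_of_le hv hle⟩

/-- the map `(x, v) ↦ (x, rexp x v)`. -/
noncomputable def expF (S : RGeo W) (q : W × W) : W × W := (q.1, S.rexp q.1 q.2)

/-- the shear `(a, b) ↦ (a, a + b)`. -/
noncomputable def shearE (W : Type) [NormedAddCommGroup W] [NormedSpace ℝ W] : (W × W) ≃L[ℝ] (W × W) :=
  ContinuousLinearEquiv.equivOfInverse
    ((ContinuousLinearMap.fst ℝ W W).prod (ContinuousLinearMap.fst ℝ W W + ContinuousLinearMap.snd ℝ W W))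
    ((ContinuousLinearMap.fst ℝ W W).prod (ContinuousLinearMap.snd ℝ W W - ContinuousLinearMap.fst ℝ W W))
    (fun q => by ext <;> simp) (fun q => by ext <;> simp)

theorem IsRiem.hasStrictFDerivAt_expF (hS : S.IsRiem) (hx : x ∈ S.U) :
    HasStrictFDerivAt S.expF (shearE W : W × W →L[ℝ] W × W) (x, 0) := by
  have hc : ContDiffAt ℝ ∞ S.expF (x, 0) :=
    contDiffAt_fst.prodMk (hS.contDiffAt_rexp_pair (hS.zero_mem_expDom hx))
  have hd : HasFDerivAt (fun q : W × W => S.rexp q.1 q.2)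
      (fderiv ℝ (fun q : W × W => S.rexp q.1 q.2) (x, 0)) (x, 0) :=
    ((hS.contDiffAt_rexp_pair (hS.zero_mem_expDom hx)).differentiableAt (by simp)).hasFDerivAt
  have hd2 : HasFDerivAt S.expF (shearE W : W × W →L[ℝ] W × W) (x, 0) := by
    have h1 := (hasFDerivAt_fst (𝕜 := ℝ) (p := ((x, 0) : W × W))).prodMk hd
    have e : (ContinuousLinearMap.fst ℝ W W).prod (fderiv ℝ (fun q : W × W => S.rexp q.1 q.2) (x, 0))
        = (shearE W : W × W →L[ℝ] W × W) := by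
      refine ContinuousLinearMap.ext fun q => ?_
      obtain ⟨a, b⟩ := q
      exact Prod.ext rfl (hS.fderiv_rexp_pair_zero hx a b)
    rw [e] at h1
    exact h1
  exact hc.hasStrictFDerivAt' hd2 (by simp)

/-- partial derivative in the fibre direction. -/
theorem IsRiem.fderiv_rexp_eq_comp (hS : S.IsRiem) (h : (x, v) ∈ S.expDom) :
    fderiv ℝ (S.rexp x) v = (fderiv ℝ (fun q : W × W => S.rexp q.1 q.2) (x, v)).comp
      (ContinuousLinearMap.inr ℝ W W) := by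
  have hd : HasFDerivAt (fun q : W × W => S.rexp q.1 q.2)
      (fderiv ℝ (fun q : W × W => S.rexp q.1 q.2) (x, v)) (x, v) :=
    ((hS.contDiffAt_rexp_pair h).differentiableAt (by simp)).hasFDerivAt
  exact (hd.comp v (hasFDerivAt_prodMk_right x v)).fderiv

theorem IsRiem.continuousOn_fderiv_rexp (hS : S.IsRiem) :
    ContinuousOn (fun q : W × W => fderiv ℝ (S.rexp q.1) q.2) S.expDom := by
  have h1 : ContinuousOn (fderiv ℝ (fun q : W × W => S.rexp q.1 q.2)) S.expDom :=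
    hS.contDiffOn_rexp.continuousOn_fderiv_of_isOpen hS.isOpen_expDom (by simp)
  have h2 : ContinuousOn (fun q : W × W => (fderiv ℝ (fun q : W × W => S.rexp q.1 q.2) q).comp
      (ContinuousLinearMap.inr ℝ W W)) S.expDom := h1.clm_comp continuousOn_const
  exact h2.congr fun q hq => hS.fderiv_rexp_eq_comp (x := q.1) (v := q.2) hq

theorem IsRiem.eventually_isInvertible_fderiv_rexp (hS : S.IsRiem) (hx : x ∈ S.U) :
    ∀ᶠ q : W × W in 𝓝 (x, 0), (fderiv ℝ (S.rexp q.1) q.2).IsInvertible := by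
  have : CompleteSpace W := FiniteDimensional.complete ℝ W
  have hc : ContinuousAt (fun q : W × W => fderiv ℝ (S.rexp q.1) q.2) (x, 0) :=
    hS.continuousOn_fderiv_rexp.continuousAt (hS.isOpen_expDom.mem_nhds (hS.zero_mem_expDom hx))
  have h0 : Set.range ((↑) : (W ≃L[ℝ] W) → W →L[ℝ] W) ∈ 𝓝 (fderiv ℝ (S.rexp x) 0) := by
    rw [hS.fderiv_rexp_zero hx]
    exact ContinuousLinearEquiv.nhds (ContinuousLinearEquiv.refl ℝ W)
  filter_upwards [hc h0] with q hq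
  exact hq

/-- **(1) existence of uniformly normal neighbourhoods.** -/
theorem IsRiem.exists_normal (hS : S.IsRiem) {x₀ : W} (hx₀ : x₀ ∈ S.U) :
    ∃ (N : Set W) (ρ : ℝ), x₀ ∈ N ∧ S.IsNormal N ρ := by
  have : CompleteSpace W := FiniteDimensional.complete ℝ W
  have hF := hS.hasStrictFDerivAt_expF hx₀
  obtain ⟨e, he⟩ : ∃ e : OpenPartialHomeomorph (W × W) (W × W), e = hF.toOpenPartialHomeomorph S.expF :=
    ⟨_, rfl⟩
  have hecoe : ∀ q, e q = S.expF q := fun q => by rw [he]; rfl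
  have hsrc : e.source ∈ 𝓝 ((x₀, 0) : W × W) :=
    e.open_source.mem_nhds (by rw [he]; exact hF.mem_toOpenPartialHomeomorph_source)
  have hdom : S.expDom ∈ 𝓝 ((x₀, 0) : W × W) := hS.isOpen_expDom.mem_nhds (hS.zero_mem_expDom hx₀)
  have hinv := hS.eventually_isInvertible_fderiv_rexp hx₀
  have hA : {q : W × W | q ∈ e.source ∧ q ∈ S.expDom ∧ (fderiv ℝ (S.rexp q.1) q.2).IsInvertible}
      ∈ 𝓝 ((x₀, 0) : W × W) := by
    filter_upwards [hsrc, hdom, hinv] with q h1 h2 h3 using ⟨h1, h2, h3⟩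
  rw [nhds_prod_eq, Filter.mem_prod_iff] at hA
  obtain ⟨N₁, hN₁, B, hB, hsub⟩ := hA
  obtain ⟨δ, hδ, hδB⟩ := Metric.mem_nhds_iff.1 hB
  obtain ⟨r, hr, hrU⟩ := Metric.nhds_basis_closedBall.mem_iff.1 (hS.mem_nhds hx₀)
  obtain ⟨m, M, hm, hM, hb⟩ := hS.exists_bounds (isCompact_closedBall x₀ r) hrU
  have key : ∀ x ∈ interior N₁ ∩ Metric.ball x₀ r, ∀ v, S.nrm x v < m * δ → (x, v) ∈ N₁ ×ˢ B := by
    intro x hx v hv
    refine ⟨interior_subset hx.1, hδB ?_⟩
    rw [mem_ball_zero_iff]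
    have := (hb x (Metric.ball_subset_closedBall hx.2) v).1
    exact lt_of_mul_lt_mul_left (this.trans_lt hv) hm.le
  refine ⟨interior N₁ ∩ Metric.ball x₀ r, m * δ,
    ⟨mem_interior_iff_mem_nhds.2 hN₁, Metric.mem_ball_self hr⟩,
    isOpen_interior.inter Metric.isOpen_ball, fun x hx => hrU (Metric.ball_subset_closedBall hx.2),
    by positivity, fun x hx v hv => (hsub (key x hx v hv)).2.1,
    fun x hx v hv => (hsub (key x hx v hv)).2.2, ?_⟩
  intro x hx v hv v' hv' heq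
  have h1 := (hsub (key x hx v hv)).1
  have h2 := (hsub (key x hx v' hv')).1
  have h3 : e (x, v) = e (x, v') := by
    rw [hecoe, hecoe]
    exact Prod.ext rfl heq
  exact (Prod.ext_iff.1 (e.injOn h1 h2 h3)).2

/-- **(2) nearby points are joined by short geodesics.** -/
theorem IsRiem.exists_nhds_pairs (hS : S.IsRiem) {x₀ : W} (hx₀ : x₀ ∈ S.U) {ρ' : ℝ}
    (hρ' : 0 < ρ') :
    ∃ N' ∈ 𝓝 x₀, ∀ x ∈ N', ∀ y ∈ N', ∃ v, S.nrm x v < ρ' ∧ (x, v) ∈ S.expDom ∧ S.rexp x v = y := by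
  have : CompleteSpace W := FiniteDimensional.complete ℝ W
  have hF := hS.hasStrictFDerivAt_expF hx₀
  have hdom : S.expDom ∈ 𝓝 ((x₀, 0) : W × W) := hS.isOpen_expDom.mem_nhds (hS.zero_mem_expDom hx₀)
  have hn : ∀ᶠ q : W × W in 𝓝 (x₀, 0), S.nrm q.1 q.2 < ρ' := by
    have hc : ContinuousAt (fun q : W × W => S.nrm q.1 q.2) (x₀, 0) :=
      hS.continuousOn_nrm.continuousAt ((hS.isOpen.prod isOpen_univ).mem_nhds ⟨hx₀, trivial⟩)
    have h0 : S.nrm x₀ 0 < ρ' := by simpa [nrm] using hρ'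
    exact hc.eventually (Iio_mem_nhds h0)
  have hA : {q : W × W | q ∈ S.expDom ∧ S.nrm q.1 q.2 < ρ'} ∈ 𝓝 ((x₀, 0) : W × W) := by
    filter_upwards [hdom, hn] with q h1 h2 using ⟨h1, h2⟩
  have himg : S.expF '' {q : W × W | q ∈ S.expDom ∧ S.nrm q.1 q.2 < ρ'} ∈ 𝓝 (S.expF (x₀, 0)) := by
    rw [← hF.map_nhds_eq_of_equiv]
    exact Filter.image_mem_map hA
  have e0 : S.expF (x₀, 0) = (x₀, x₀) := by simp [expF, hS.rexp_zero hx₀]
  rw [e0, nhds_prod_eq, Filter.mem_prod_self_iff] at himg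
  obtain ⟨N', hN', hsub⟩ := himg
  refine ⟨N', hN', fun x hx y hy => ?_⟩
  obtain ⟨q, ⟨hq1, hq2⟩, hq⟩ := hsub (Set.mk_mem_prod hx hy)
  have e1 : q.1 = x := congrArg Prod.fst hq
  have e2 : S.rexp q.1 q.2 = y := congrArg Prod.snd hq
  subst e1
  exact ⟨q.2, hq2, hq1, e2⟩

theorem isOpen_nrm_lt (S : RGeo W) (x : W) (r : ℝ) : IsOpen {v | S.nrm x v < r} := by
  have hc : Continuous (fun v => S.nrm x v) := by
    unfold nrm
    exact ((S.G x).continuous.clm_apply continuous_id).sqrt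
  exact isOpen_lt hc continuous_const

/-- the inverse of `rexp x` near a point of the geodesic ball. -/
theorem IsNormal.inv_spec (hS : S.IsRiem) {N : Set W} {ρ : ℝ} (h : S.IsNormal N ρ)
    (hx : x ∈ N) (hv : S.nrm x v < ρ) :
    ∃ f' : W ≃L[ℝ] W, (f' : W →L[ℝ] W) = fderiv ℝ (S.rexp x) v ∧
      HasStrictFDerivAt (S.rexp x) (f' : W →L[ℝ] W) v ∧
      HasStrictFDerivAt (Function.invFunOn (S.rexp x) {v | S.nrm x v < ρ}) (f'.symm : W →L[ℝ] W)
        (S.rexp x v) ∧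
      ContDiffAt ℝ ∞ (Function.invFunOn (S.rexp x) {v | S.nrm x v < ρ}) (S.rexp x v) ∧
      Function.invFunOn (S.rexp x) {v | S.nrm x v < ρ} (S.rexp x v) = v := by
  have : CompleteSpace W := FiniteDimensional.complete ℝ W
  have hc : ContDiffAt ℝ ∞ (S.rexp x) v := hS.contDiffAt_rexp (h.mem x hx v hv)
  obtain ⟨f', hf'⟩ := h.inv x hx v hv
  have hd : HasFDerivAt (S.rexp x) (f' : W →L[ℝ] W) v := by
    rw [hf']
    exact (hS.differentiableAt_rexp (h.mem x hx v hv)).hasFDerivAt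
  have hs := hc.hasStrictFDerivAt' hd (by simp)
  have hleft : ∀ᶠ v' in 𝓝 v, Function.invFunOn (S.rexp x) {v | S.nrm x v < ρ} (S.rexp x v') = v' := by
    filter_upwards [(S.isOpen_nrm_lt x ρ).mem_nhds hv] with v' hv'
      using (h.injOn x hx).leftInvOn_invFunOn hv'
  refine ⟨f', hf', hs, hs.to_local_left_inverse hleft, ?_, (h.injOn x hx).leftInvOn_invFunOn hv⟩
  exact (hc.to_localInverse hd (by simp)).congr_of_eventuallyEq (hs.localInverse_unique hleft)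

/-- geodesic balls are o-p-e-n sets. -/
theorem IsNormal.isOpen_image (hS : S.IsRiem) {N : Set W} {ρ r : ℝ} (h : S.IsNormal N ρ)
    (hx : x ∈ N) (hr : r ≤ ρ) : IsOpen (S.rexp x '' {v | S.nrm x v < r}) := by
  have : CompleteSpace W := FiniteDimensional.complete ℝ W
  rw [isOpen_iff_mem_nhds]
  rintro _ ⟨v, hv, rfl⟩
  obtain ⟨f', -, hs, -⟩ := h.inv_spec hS hx (lt_of_lt_of_le hv hr)
  rw [← hs.map_nhds_eq_of_equiv]
  exact Filter.image_mem_map ((S.isOpen_nrm_lt x r).mem_nhds hv)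

/-- **(3) calibration**: the squared radial function `y' ↦ |exp_x⁻¹ y'|²` has differential `2 G(T, ·)`. -/
theorem IsNormal.hasFDerivAt_sq (hS : S.IsRiem) {N : Set W} {ρ : ℝ} (h : S.IsNormal N ρ)
    (hx : x ∈ N) (hv : S.nrm x v < ρ) :
    HasFDerivAt
      (fun y' => S.G x (Function.invFunOn (S.rexp x) {v | S.nrm x v < ρ} y')
        (Function.invFunOn (S.rexp x) {v | S.nrm x v < ρ} y'))
      ((2 : ℝ) • S.G (S.rexp x v) (S.rexpV x v)) (S.rexp x v) := by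
  obtain ⟨f', hf', -, hs, -, h0⟩ := h.inv_spec hS hx hv
  have hg := hs.hasFDerivAt
  have h1 : HasFDerivAt (fun y' => S.G x (Function.invFunOn (S.rexp x) {v | S.nrm x v < ρ} y'))
      ((S.G x).comp (f'.symm : W →L[ℝ] W)) (S.rexp x v) := (S.G x).hasFDerivAt.comp _ hg
  have h2 := h1.clm_apply hg
  refine h2.congr_fderiv ?_
  refine ContinuousLinearMap.ext fun a => ?_
  have hgl := hS.gauss_lemma (h.mem x hx v hv) (f'.symm a)
  rw [← hf'] at hgl
  simp only [ContinuousLinearEquiv.coe_coe, ContinuousLinearEquiv.apply_symm_apply] at hgl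
  simp only [h0, ContinuousLinearMap.add_apply, ContinuousLinearMap.comp_apply,
    ContinuousLinearMap.flip_apply, ContinuousLinearMap.smul_apply, ContinuousLinearEquiv.coe_coe,
    smul_eq_mul]
  rw [hS.G_symm x (h.subset hx) (f'.symm a) v, hgl]
  ring

/-- the inverse of `rexp x` is smooth on the geodesic ball. -/
theorem IsNormal.contDiffOn_inv (hS : S.IsRiem) {N : Set W} {ρ : ℝ} (h : S.IsNormal N ρ)
    (hx : x ∈ N) :
    ContDiffOn ℝ ∞ (Function.invFunOn (S.rexp x) {v | S.nrm x v < ρ})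
      (S.rexp x '' {v | S.nrm x v < ρ}) := by
  rintro _ ⟨v, hv, rfl⟩
  obtain ⟨f', -, -, -, hc, -⟩ := h.inv_spec hS hx hv
  exact hc.contDiffWithinAt

/-- the radial function `r(y') = |exp_x⁻¹ y'|` is `1`-Lipschitz infinitesimally: `|dr(a)| ≤ |a|` away from the centre. -/
theorem IsNormal.abs_fderiv_radial_le (hS : S.IsRiem) {N : Set W} {ρ : ℝ} (h : S.IsNormal N ρ)
    (hx : x ∈ N) (hv : S.nrm x v < ρ) (hv0 : v ≠ 0) (a : W) :
    |fderiv ℝ (fun y' => S.nrm x (Function.invFunOn (S.rexp x) {v | S.nrm x v < ρ} y'))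
      (S.rexp x v) a| ≤ S.nrm (S.rexp x v) a := by
  have hsq := h.hasFDerivAt_sq hS hx hv
  have hxU := h.subset hx
  have hmem := h.mem x hx v hv
  have hpos : 0 < S.nrm x v := hS.nrm_pos hxU hv0
  have h0 : Function.invFunOn (S.rexp x) {v | S.nrm x v < ρ} (S.rexp x v) = v :=
    (h.injOn x hx).leftInvOn_invFunOn hv
  have hne : S.G x (Function.invFunOn (S.rexp x) {v | S.nrm x v < ρ} (S.rexp x v))
      (Function.invFunOn (S.rexp x) {v | S.nrm x v < ρ} (S.rexp x v)) ≠ 0 := by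
    rw [h0]
    exact (hS.G_pos x hxU v hv0).ne'
  have hsqrt := (hsq.sqrt hne).fderiv
  rw [h0] at hsqrt
  have e : fderiv ℝ (fun y' => S.nrm x (Function.invFunOn (S.rexp x) {v | S.nrm x v < ρ} y'))
      (S.rexp x v) = (1 / (2 * S.nrm x v)) • ((2 : ℝ) • S.G (S.rexp x v) (S.rexpV x v)) := hsqrt
  rw [e]
  simp only [ContinuousLinearMap.smul_apply, smul_eq_mul]
  have hcs := hS.abs_G_le (rexp_mem hmem) (S.rexpV x v) a
  rw [hS.nrm_rexpV hmem] at hcs
  have e2 : 1 / (2 * S.nrm x v) * (2 * S.G (S.rexp x v) (S.rexpV x v) a)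
      = S.G (S.rexp x v) (S.rexpV x v) a / S.nrm x v := by
    field_simp
  rw [e2, abs_div, abs_of_pos hpos, div_le_iff₀ hpos, mul_comm]
  exact hcs

end RGeo
end Claimed.Agent.R316
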