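import Claimed.Agent.R316.Pack017
import Claimed.Agent.R316.Pack014_2

/-!
# `BP-G1` part 5: parallel transport and geodesics in one chart (elementary part)

Architect: helper294.

Leaves
* `G1-PAR-A` = section 1 (parallel fields: existence, uniqueness, isometry, linearity, regularity).
* `G1-PAR-B` = section 2 (parallel frames, components).
* `G1-PAR-C` = section 3 (geodesics: constant speed, reparametrisation, regularity).

PLANS.
* `IsParallel.G_const`: `IsRiem.hasDerivAt_G` gives derivative `0` at every point of `I`; for `s, t ∈ I` the segment `uIcc s t ⊆ I` (`OrdConnected`);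
  `constant_of_has_deriv_right_zero` / `is_const_of_deriv_eq_zero` on the segment (or `IsOpen.is_const_of_deriv_eq_zero` with `IsPreconnected I`).
* `isParallel_eqOn` (NO ODE uniqueness): `Y = Z - Z'` is parallel (`covD_sub` from `covD_add`, `covD_const_smul`), `G(Y,Y)` is constant `= 0`, `IsRiem.G_self_eq_zero`.
* `exists_parallel`: `A (t, p) := - S.Γ (c t) (deriv c t)` (`P := ℝ`, `P₀ := univ`; smooth on `I ×ˢ univ`: `ContDiffOn.deriv_of_isOpen`, `IsRiem.Γ_smooth.comp`, `clm_apply`),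
  `Z t := ODE.evo (ODE.linField A 0) (I ×ˢ univ ×ˢ univ) t t₀ 0 e`; `ODE.linear_mem_evoDom`, `ODE.contDiffOn_evo` (compose with `t ↦ (t, t₀, 0, e)`), `ODE.hasDerivAt_evo`, `ODE.evo_self`.
* `IsParallel.contDiffOn`: compare with the smooth solution by `isParallel_eqOn`.
* frames: `unit`, `orth` by `G_const`; `span`: an orthonormal family is linearly independent (as in `IsFrame.linearIndependent`) and has `finrank` elements
  (`IsFrame.card_eq` at `t₀`): `LinearIndependent.span_eq_top_of_card_eq_finrank`.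
* `covD_eq_sum_frame`: `IsFrame.repr` for `covD c Z t` and `G(covD Z, E i) = d/dt G(Z, E i)` (`hasDerivAt_G`, `E i` parallel).
* `IsGeod.comp_affine`: `covD_comp_affine` with `Z = deriv c`, `deriv (fun r => c (k r + m)) = fun r => k • deriv c (k r + m)` near each point of the preimage.
* `isGeod_of_hasDerivAt`: only smoothness is to be shown.  Near `t₀ ∈ I`: `ODE.eq_fl_spray` on a small interval `J ∋ t₀`: `(c t, w t) = fl (spray (-Γ)) (U ×ˢ univ) (t - t₀) (c t₀, w t₀)`,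
  which is smooth in `t` (`ODE.contDiffOn_fl_infty`, `ODE.contDiffOn_spray`, `ODE.isOpen_dom`).
-/

set_option autoImplicit false
set_option linter.unusedSectionVars false
set_option linter.deprecated false
set_option maxSynthPendingDepth 3
open scoped ContDiff Topology

namespace Claimed.Agent.R316
namespace RGeo

variable {W : Type} [NormedAddCommGroup W] [NormedSpace ℝ W]
variable {S : RGeo W} {c Y Z Z' : ℝ → W} {I : Set ℝ} {s t t₀ : ℝ}

/-! ### 1. parallel fields -/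

theorem IsParallel.mono {I' : Set ℝ} (h : S.IsParallel c Z I) (hsub : I' ⊆ I) :
    S.IsParallel c Z I' := fun t ht => h t (hsub ht)

theorem IsParallel.add (hY : S.IsParallel c Y I) (hZ : S.IsParallel c Z I)
    (hYd : ∀ t ∈ I, DifferentiableAt ℝ Y t) (hZd : ∀ t ∈ I, DifferentiableAt ℝ Z t) :
    S.IsParallel c (fun t => Y t + Z t) I := by
  intro t ht
  rw [S.covD_add (hYd t ht) (hZd t ht), hY t ht, hZ t ht, add_zero]

theorem IsParallel.const_smul (hZ : S.IsParallel c Z I) (r : ℝ) :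
    S.IsParallel c (fun t => r • Z t) I := by
  intro t ht
  rw [S.covD_const_smul, hZ t ht, smul_zero]

theorem IsParallel.sub (hY : S.IsParallel c Y I) (hZ : S.IsParallel c Z I)
    (hYd : ∀ t ∈ I, DifferentiableAt ℝ Y t) (hZd : ∀ t ∈ I, DifferentiableAt ℝ Z t) :
    S.IsParallel c (fun t => Y t - Z t) I := by
  intro t ht
  have h : S.covD c (fun t => Y t - Z t) t = S.covD c Y t - S.covD c Z t := by
    simp only [covD_eq_covP, S.covP_sub (hYd t ht) (hZd t ht)]
  rw [h, hY t ht, hZ t ht, sub_zero]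

theorem IsParallel.sum {κ : Type*} (σ : Finset κ) {Z : κ → ℝ → W}
    (hZ : ∀ i ∈ σ, S.IsParallel c (Z i) I) (hZd : ∀ i ∈ σ, ∀ t ∈ I, DifferentiableAt ℝ (Z i) t) :
    S.IsParallel c (fun t => ∑ i ∈ σ, Z i t) I := by
  intro t ht
  rw [S.covD_sum σ (fun i hi => hZd i hi t ht)]
  exact Finset.sum_eq_zero fun i hi => hZ i hi t ht

/-- **parallel transport is isometric.** -/
theorem IsParallel.G_const (hS : S.IsRiem) (hIc : I.OrdConnected)
    (hc : ∀ t ∈ I, c t ∈ S.U ∧ DifferentiableAt ℝ c t)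
    (hY : S.IsParallel c Y I) (hZ : S.IsParallel c Z I)
    (hYd : ∀ t ∈ I, DifferentiableAt ℝ Y t) (hZd : ∀ t ∈ I, DifferentiableAt ℝ Z t)
    (hs : s ∈ I) (ht : t ∈ I) : S.G (c s) (Y s) (Z s) = S.G (c t) (Y t) (Z t) := by
  have hd : ∀ r ∈ I, HasDerivWithinAt (fun r => S.G (c r) (Y r) (Z r)) ((fun _ => (0 : ℝ)) r) I r := by
    intro r hr
    have h := hS.hasDerivAt_G (hc r hr).1 (hc r hr).2 (hYd r hr) (hZd r hr)
    rw [hY r hr, hZ r hr] at h
    simp only [map_zero, ContinuousLinearMap.zero_apply, add_zero] at h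
    exact h.hasDerivWithinAt
  have h := hIc.convex.norm_image_sub_le_of_norm_hasDerivWithin_le (C := 0) hd (fun r _ => by simp) ht hs
  rw [zero_mul] at h
  exact sub_eq_zero.1 (norm_le_zero_iff.1 h)

theorem IsParallel.nrm_const (hS : S.IsRiem) (hIc : I.OrdConnected)
    (hc : ∀ t ∈ I, c t ∈ S.U ∧ DifferentiableAt ℝ c t) (hZ : S.IsParallel c Z I)
    (hZd : ∀ t ∈ I, DifferentiableAt ℝ Z t) (hs : s ∈ I) (ht : t ∈ I) :
    S.nrm (c s) (Z s) = S.nrm (c t) (Z t) := by
  simp only [nrm, hZ.G_const hS hIc hc hZ hZd hZd hs ht]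

/-- **uniqueness of parallel fields.** -/
theorem isParallel_eqOn (hS : S.IsRiem) (hIc : I.OrdConnected)
    (hc : ∀ t ∈ I, c t ∈ S.U ∧ DifferentiableAt ℝ c t)
    (hZ : S.IsParallel c Z I) (hZ' : S.IsParallel c Z' I)
    (hZd : ∀ t ∈ I, DifferentiableAt ℝ Z t) (hZd' : ∀ t ∈ I, DifferentiableAt ℝ Z' t)
    (ht₀ : t₀ ∈ I) (h0 : Z t₀ = Z' t₀) : Set.EqOn Z Z' I := by
  intro t ht
  have hD := IsParallel.sub hZ hZ' hZd hZd'
  have hDd : ∀ t ∈ I, DifferentiableAt ℝ (fun t => Z t - Z' t) t := fun t ht => (hZd t ht).sub (hZd' t ht)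
  have h := IsParallel.G_const hS hIc hc hD hD hDd hDd ht ht₀
  simp only [h0, sub_self, map_zero] at h
  exact sub_eq_zero.1 ((hS.G_self_eq_zero (hc t ht).1).1 h)

/-- parallel transport along a smooth FAMILY of curves depends smoothly on the parameter. -/
theorem IsRiem.exists_parallel_family [FiniteDimensional ℝ W] {P : Type}
    [NormedAddCommGroup P] [NormedSpace ℝ P] [FiniteDimensional ℝ P] (hS : S.IsRiem) (hI : IsOpen I)
    (hIc : I.OrdConnected) {O : Set P} (hO : IsOpen O) {f : P × ℝ → W}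
    (hf : ContDiffOn ℝ ∞ f (O ×ˢ I)) (hfU : ∀ q ∈ O ×ˢ I, f q ∈ S.U) (ht₀ : t₀ ∈ I) {e : P → W}
    (he : ContDiffOn ℝ ∞ e O) :
    ∃ Z : P × ℝ → W, ContDiffOn ℝ ∞ Z (O ×ˢ I) ∧ (∀ p ∈ O, Z (p, t₀) = e p) ∧
      ∀ p ∈ O, S.IsParallel (fun t => f (p, t)) (fun t => Z (p, t)) I := by
  have : CompleteSpace W := FiniteDimensional.complete ℝ W
  have : CompleteSpace P := FiniteDimensional.complete ℝ P
  have hOI : IsOpen (O ×ˢ I) := hO.prod hI
  -- the coefficient
  have hA0 : ContDiffOn ℝ ∞ (fun q : P × ℝ => -(S.Γ (f q) (fderiv ℝ f q (0, 1)))) (O ×ˢ I) := by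
    have h1 : ContDiffOn ℝ ∞ (fun q => fderiv ℝ f q ((0 : P), (1 : ℝ))) (O ×ˢ I) :=
      (hf.fderiv_of_isOpen hOI (by simp)).clm_apply contDiffOn_const
    exact ((hS.Γ_smooth.comp hf hfU).clm_apply h1).neg
  set A : ℝ × P → W →L[ℝ] W := fun q => -(S.Γ (f (q.2, q.1)) (fderiv ℝ f (q.2, q.1) (0, 1))) with hAdef
  have hA : ContDiffOn ℝ ∞ A (I ×ˢ O) :=
    hA0.comp (contDiff_snd.prodMk contDiff_fst).contDiffOn (fun q hq => ⟨hq.2, hq.1⟩)
  have hβ : ContDiffOn ℝ ∞ (0 : ℝ × P → W) (I ×ˢ O) := contDiffOn_const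
  have hΩ : IsOpen (I ×ˢ O ×ˢ (Set.univ : Set W)) := hI.prod (hO.prod isOpen_univ)
  have hF : ContDiffOn ℝ ∞ (ODE.linField A 0) (I ×ˢ O ×ˢ (Set.univ : Set W)) := ODE.contDiffOn_linField hA hβ
  have hF1 : ContDiffOn ℝ 1 (ODE.linField A 0) (I ×ˢ O ×ˢ (Set.univ : Set W)) := hF.of_le (by simp)
  have hmem : ∀ t ∈ I, ∀ p ∈ O, ∀ x : W,
      (t, t₀, p, x) ∈ ODE.evoDom (ODE.linField A 0) (I ×ˢ O ×ˢ (Set.univ : Set W)) := fun t ht p hp x =>
    ODE.linear_mem_evoDom hI hIc hO (hA.of_le (by simp)) (hβ.of_le (by simp)) ht ht₀ hp x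
  refine ⟨fun q => ODE.evo (ODE.linField A 0) (I ×ˢ O ×ˢ (Set.univ : Set W)) q.2 t₀ q.1 (e q.1), ?_, ?_, ?_⟩
  · have h1 := ODE.contDiffOn_evo (n := ⊤) le_top hΩ hF
    have h2 : ContDiffOn ℝ ∞ (fun q : P × ℝ => (q.2, t₀, q.1, e q.1)) (O ×ˢ I) :=
      contDiffOn_snd.prodMk (contDiffOn_const.prodMk (contDiffOn_fst.prodMk
        (he.comp contDiffOn_fst (fun q hq => hq.1))))
    exact h1.comp h2 (fun q hq => hmem q.2 hq.2 q.1 hq.1 _)
  · intro p _
    exact ODE.evo_self
  · intro p hp t ht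
    have h1 := ODE.hasDerivAt_evo hΩ hF1 (hmem t ht p hp (e p))
    have hfd : DifferentiableAt ℝ f (p, t) :=
      (hf.contDiffAt (hOI.mem_nhds ⟨hp, ht⟩)).differentiableAt (by simp)
    unfold covD
    rw [deriv_slice hfd]
    simp only
    rw [h1.deriv]
    simp [ODE.linField, hAdef]

/-- **existence of parallel fields.** -/
theorem IsRiem.exists_parallel [FiniteDimensional ℝ W] (hS : S.IsRiem) (hI : IsOpen I)
    (hIc : I.OrdConnected) (hc : ContDiffOn ℝ ∞ c I) (hcU : ∀ t ∈ I, c t ∈ S.U) (ht₀ : t₀ ∈ I)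
    (e : W) : ∃ Z : ℝ → W, ContDiffOn ℝ ∞ Z I ∧ S.IsParallel c Z I ∧ Z t₀ = e := by
  obtain ⟨Z, h1, h2, h3⟩ := IsRiem.exists_parallel_family (P := ℝ) hS hI hIc isOpen_univ
    (f := fun q => c q.2) (hc.comp contDiffOn_snd (fun q hq => hq.2)) (fun q hq => hcU q.2 hq.2) ht₀
    (e := fun _ => e) contDiffOn_const
  refine ⟨fun t => Z (0, t), ?_, h3 0 (Set.mem_univ _), h2 0 (Set.mem_univ _)⟩
  exact h1.comp (contDiffOn_const.prodMk contDiffOn_id) (fun t ht => ⟨Set.mem_univ _, ht⟩)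

/-- regularity of parallel fields. -/
theorem IsParallel.contDiffOn [FiniteDimensional ℝ W] (hS : S.IsRiem) (hI : IsOpen I)
    (hIc : I.OrdConnected) (hc : ContDiffOn ℝ ∞ c I) (hcU : ∀ t ∈ I, c t ∈ S.U)
    (hZ : S.IsParallel c Z I) (hZd : ∀ t ∈ I, DifferentiableAt ℝ Z t) : ContDiffOn ℝ ∞ Z I := by
  rcases I.eq_empty_or_nonempty with rfl | ⟨t₀, ht₀⟩
  · exact contDiffOn_empty
  obtain ⟨Z', h1, h2, h3⟩ := IsRiem.exists_parallel hS hI hIc hc hcU ht₀ (Z t₀)
  have hcd : ∀ t ∈ I, c t ∈ S.U ∧ DifferentiableAt ℝ c t := fun t ht =>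
    ⟨hcU t ht, (hc.contDiffAt (hI.mem_nhds ht)).differentiableAt (by simp)⟩
  have hZ'd : ∀ t ∈ I, DifferentiableAt ℝ Z' t := fun t ht =>
    (h1.contDiffAt (hI.mem_nhds ht)).differentiableAt (by simp)
  exact h1.congr (isParallel_eqOn hS hIc hcd hZ h2 hZd hZ'd ht₀ h3.symm)

/-! ### 2. parallel frames -/

/-- an orthonormal family with `finrank` elements is a frame. -/
theorem isFrame_of_card [FiniteDimensional ℝ W] {x : W} {κ : Type} [Fintype κ] {e : κ → W}
    (unit : ∀ i, S.G x (e i) (e i) = 1) (orth : ∀ i j, i ≠ j → S.G x (e i) (e j) = 0)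
    (card : Fintype.card κ = Module.finrank ℝ W) : S.IsFrame x e := by
  classical
  have hli : LinearIndependent ℝ e := by
    rw [linearIndependent_iff']
    intro σ g hg j hj
    have h : S.G x (∑ i ∈ σ, g i • e i) (e j) = g j := by
      rw [map_sum, ContinuousLinearMap.sum_apply, Finset.sum_eq_single j]
      · rw [map_smul, ContinuousLinearMap.smul_apply, unit j, smul_eq_mul, mul_one]
      · intro i _ hij
        rw [map_smul, ContinuousLinearMap.smul_apply, orth i j hij, smul_zero]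
      · intro h
        exact absurd hj h
    rw [hg] at h
    simpa using h.symm
  refine ⟨unit, orth, fun a => ?_⟩
  rw [hli.span_eq_top_of_card_eq_finrank' card]
  trivial

/-- a frame at one time extends to a smooth parallel frame. -/
theorem IsRiem.exists_parallel_frame [FiniteDimensional ℝ W] (hS : S.IsRiem) (hI : IsOpen I)
    (hIc : I.OrdConnected) (hc : ContDiffOn ℝ ∞ c I) (hcU : ∀ t ∈ I, c t ∈ S.U) (ht₀ : t₀ ∈ I)
    {κ : Type} [Fintype κ] {e : κ → W} (he : S.IsFrame (c t₀) e) :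
    ∃ E : κ → ℝ → W, (∀ i, ContDiffOn ℝ ∞ (E i) I ∧ S.IsParallel c (E i) I ∧ E i t₀ = e i) ∧
      ∀ t ∈ I, S.IsFrame (c t) (fun i => E i t) := by
  choose E hE using fun i => hS.exists_parallel hI hIc hc hcU ht₀ (e i)
  have hcd : ∀ t ∈ I, c t ∈ S.U ∧ DifferentiableAt ℝ c t := fun t ht =>
    ⟨hcU t ht, (hc.contDiffAt (hI.mem_nhds ht)).differentiableAt (by simp)⟩
  have hEd : ∀ i, ∀ t ∈ I, DifferentiableAt ℝ (E i) t := fun i t ht =>
    ((hE i).1.contDiffAt (hI.mem_nhds ht)).differentiableAt (by simp)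
  refine ⟨E, hE, fun t ht => isFrame_of_card (fun i => ?_) (fun i j hij => ?_) he.card_eq⟩
  · rw [(hE i).2.1.G_const hS hIc hcd (hE i).2.1 (hEd i) (hEd i) ht ht₀, (hE i).2.2, he.unit]
  · rw [(hE i).2.1.G_const hS hIc hcd (hE j).2.1 (hEd i) (hEd j) ht ht₀, (hE i).2.2, (hE j).2.2,
      he.orth i j hij]

/-- the covariant derivative in a parallel frame is the derivative of the components. -/
theorem covD_eq_sum_frame (hS : S.IsRiem) {κ : Type} [Fintype κ] {E : κ → ℝ → W}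
    (hcU : c t ∈ S.U) (hc : DifferentiableAt ℝ c t) (hE : ∀ i, DifferentiableAt ℝ (E i) t)
    (hEp : ∀ i, S.covD c (E i) t = 0) (hF : S.IsFrame (c t) (fun i => E i t))
    (hZ : DifferentiableAt ℝ Z t) :
    S.covD c Z t = ∑ i, deriv (fun r => S.G (c r) (Z r) (E i r)) t • E i t := by
  conv_lhs => rw [hF.repr hS hcU (S.covD c Z t)]
  refine Finset.sum_congr rfl fun i _ => ?_
  have h := hS.hasDerivAt_G hcU hc hZ (hE i)
  rw [hEp i, map_zero, add_zero] at h
  rw [h.deriv]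

/-- covariant derivative of a field given by its components. -/
theorem covD_sum_smul_frame (S : RGeo W) {κ : Type} [Fintype κ] {E : κ → ℝ → W} {z : κ → ℝ → ℝ}
    (hE : ∀ i, DifferentiableAt ℝ (E i) t) (hEp : ∀ i, S.covD c (E i) t = 0)
    (hz : ∀ i, DifferentiableAt ℝ (z i) t) :
    S.covD c (fun r => ∑ i, z i r • E i r) t = ∑ i, deriv (z i) t • E i t := by
  rw [S.covD_sum Finset.univ (Z := fun i r => z i r • E i r) (fun i _ => (hz i).smul (hE i))]
  refine Finset.sum_congr rfl fun i _ => ?_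
  rw [S.covD_smul (hz i) (hE i), hEp i, smul_zero, add_zero]

/-! ### 3. geodesics -/

theorem IsGeod.mono {I' : Set ℝ} (h : S.IsGeod c I) (hsub : I' ⊆ I) : S.IsGeod c I' :=
  ⟨h.1.mono hsub, fun t ht => h.2.1 t (hsub ht), fun t ht => h.2.2 t (hsub ht)⟩

theorem IsGeod.isParallel_deriv (h : S.IsGeod c I) : S.IsParallel c (deriv c) I := h.2.2

theorem IsGeod.contDiffOn_deriv (h : S.IsGeod c I) (hI : IsOpen I) :
    ContDiffOn ℝ ∞ (deriv c) I :=
  h.1.deriv_of_isOpen hI (by simp)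

theorem IsGeod.differentiableAt (h : S.IsGeod c I) (hI : IsOpen I) (ht : t ∈ I) :
    DifferentiableAt ℝ c t :=
  (h.1.contDiffAt (hI.mem_nhds ht)).differentiableAt (by simp)

theorem IsGeod.differentiableAt_deriv (h : S.IsGeod c I) (hI : IsOpen I) (ht : t ∈ I) :
    DifferentiableAt ℝ (deriv c) t :=
  ((h.contDiffOn_deriv hI).contDiffAt (hI.mem_nhds ht)).differentiableAt (by simp)

/-- the geodesic equation. -/
theorem IsGeod.hasDerivAt_deriv (h : S.IsGeod c I) (hI : IsOpen I) (ht : t ∈ I) :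
    HasDerivAt (deriv c) (-(S.Γ (c t) (deriv c t) (deriv c t))) t := by
  have h1 := (h.differentiableAt_deriv hI ht).hasDerivAt
  have h2 := h.2.2 t ht
  unfold covD at h2
  rwa [eq_neg_of_add_eq_zero_left h2] at h1

/-- being a geodesic is local in time. -/
theorem isGeod_of_local (h : ∀ t ∈ I, ∃ I' : Set ℝ, IsOpen I' ∧ t ∈ I' ∧ S.IsGeod c I') :
    S.IsGeod c I := by
  refine ⟨fun t ht => ?_, fun t ht => ?_, fun t ht => ?_⟩
  · obtain ⟨I', h1, h2, h3⟩ := h t ht
    exact (h3.1.contDiffAt (h1.mem_nhds h2)).contDiffWithinAt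
  · obtain ⟨I', h1, h2, h3⟩ := h t ht
    exact h3.2.1 t h2
  · obtain ⟨I', h1, h2, h3⟩ := h t ht
    exact h3.2.2 t h2

/-- **constant speed.** -/
theorem IsGeod.G_const (hS : S.IsRiem) (hI : IsOpen I) (hIc : I.OrdConnected) (h : S.IsGeod c I)
    (hs : s ∈ I) (ht : t ∈ I) :
    S.G (c s) (deriv c s) (deriv c s) = S.G (c t) (deriv c t) (deriv c t) :=
  h.isParallel_deriv.G_const hS hIc (fun r hr => ⟨h.2.1 r hr, h.differentiableAt hI hr⟩) h.isParallel_deriv
    (fun r hr => h.differentiableAt_deriv hI hr) (fun r hr => h.differentiableAt_deriv hI hr) hs ht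

theorem IsGeod.nrm_const (hS : S.IsRiem) (hI : IsOpen I) (hIc : I.OrdConnected) (h : S.IsGeod c I)
    (hs : s ∈ I) (ht : t ∈ I) : S.nrm (c s) (deriv c s) = S.nrm (c t) (deriv c t) := by
  simp only [nrm, h.G_const hS hI hIc hs ht]

/-- length and energy of a geodesic segment. -/
theorem IsGeod.length_eq (hS : S.IsRiem) (hI : IsOpen I) (hIc : I.OrdConnected) (h : S.IsGeod c I)
    (hs : s ∈ I) (ht : t ∈ I) : S.length c s t = (t - s) * S.nrm (c s) (deriv c s) := by
  unfold length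
  rw [intervalIntegral.integral_congr (g := fun _ => S.nrm (c s) (deriv c s))
    (fun r hr => h.nrm_const hS hI hIc (hIc.uIcc_subset hs ht hr) hs)]
  rw [intervalIntegral.integral_const, smul_eq_mul]

theorem IsGeod.energy_eq (hS : S.IsRiem) (hI : IsOpen I) (hIc : I.OrdConnected) (h : S.IsGeod c I)
    (hs : s ∈ I) (ht : t ∈ I) : S.energy c s t = (t - s) * S.G (c s) (deriv c s) (deriv c s) := by
  unfold energy
  rw [intervalIntegral.integral_congr (g := fun _ => S.G (c s) (deriv c s) (deriv c s))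
    (fun r hr => h.G_const hS hI hIc (hIc.uIcc_subset hs ht hr) hs)]
  rw [intervalIntegral.integral_const, smul_eq_mul]

/-- affine reparametrisation. -/
theorem IsGeod.comp_affine (h : S.IsGeod c I) (hI : IsOpen I) (k m : ℝ) :
    S.IsGeod (fun r => c (k * r + m)) ((fun r => k * r + m) ⁻¹' I) := by
  have haff : ContDiff ℝ ∞ (fun r : ℝ => k * r + m) := (contDiff_const.mul contDiff_id).add contDiff_const
  have hopen : IsOpen ((fun r => k * r + m) ⁻¹' I) := hI.preimage haff.continuous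
  refine ⟨h.1.comp haff.contDiffOn (fun r hr => hr), fun r hr => h.2.1 _ hr, fun r hr => ?_⟩
  have hder : deriv (fun r => c (k * r + m)) =ᶠ[𝓝 r] fun r => k • deriv c (k * r + m) := by
    filter_upwards [hopen.mem_nhds hr] with u hu
    have h1 : HasDerivAt (fun r : ℝ => k * r + m) k u := by
      simpa using ((hasDerivAt_id u).const_mul k).add_const m
    exact ((h.differentiableAt hI hu).hasDerivAt.scomp u h1).deriv
  rw [S.covD_congr (Filter.EventuallyEq.refl _ _) hder, S.covD_const_smul,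
    S.covD_comp_affine k m r (h.differentiableAt hI hr) (h.differentiableAt_deriv hI hr), h.2.2 _ hr,
    smul_zero, smul_zero]

theorem isGeod_const {x : W} (hx : x ∈ S.U) (I : Set ℝ) : S.IsGeod (fun _ => x) I := by
  refine ⟨contDiffOn_const, fun _ _ => hx, fun t _ => ?_⟩
  simp [covD]

/-- regularity: a twice differentiable solution of the geodesic equation is a (smooth) geodesic. -/
theorem isGeod_of_hasDerivAt [FiniteDimensional ℝ W] (hS : S.IsRiem) (hI : IsOpen I) {w : ℝ → W}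
    (hc : ∀ t ∈ I, c t ∈ S.U ∧ HasDerivAt c (w t) t)
    (hw : ∀ t ∈ I, HasDerivAt w (-(S.Γ (c t) (w t) (w t))) t) : S.IsGeod c I := by
  have : CompleteSpace W := FiniteDimensional.complete ℝ W
  have hB : ContDiffOn ℝ ∞ (fun x => -(S.Γ x)) S.U := hS.Γ_smooth.neg
  have hΩ : IsOpen (S.U ×ˢ (Set.univ : Set W)) := hS.isOpen.prod isOpen_univ
  have hsp : ContDiffOn ℝ ∞ (ODE.spray fun x => -(S.Γ x)) (S.U ×ˢ (Set.univ : Set W)) := ODE.contDiffOn_spray hB
  refine ⟨fun t₀ ht₀ => ?_, fun t ht => (hc t ht).1, fun t ht => ?_⟩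
  · obtain ⟨ε, hε, hball⟩ := Metric.isOpen_iff.1 hI t₀ ht₀
    have hJ : (Metric.ball t₀ ε).OrdConnected := (convex_ball t₀ ε).ordConnected
    have key : ∀ t ∈ Metric.ball t₀ ε,
        (t - t₀, (c t₀, w t₀)) ∈ ODE.dom (ODE.spray fun x => -(S.Γ x)) (S.U ×ˢ (Set.univ : Set W)) ∧
        ODE.fl (ODE.spray fun x => -(S.Γ x)) (S.U ×ˢ (Set.univ : Set W)) (t - t₀) (c t₀, w t₀) = (c t, w t) :=
      fun t ht => ODE.eq_fl_spray hS.isOpen (hB.of_le (by simp)) hJ
        (fun r hr => ⟨(hc r (hball hr)).1, (hc r (hball hr)).2.hasDerivWithinAt⟩)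
        (fun r hr => (hw r (hball hr)).hasDerivWithinAt) (Metric.mem_ball_self hε) ht
    have h1 := ODE.contDiffOn_fl_infty hΩ hsp
    have h2 : ContDiffOn ℝ ∞ (fun t : ℝ => (t - t₀, (c t₀, w t₀))) (Metric.ball t₀ ε) :=
      (contDiffOn_id.sub contDiffOn_const).prodMk contDiffOn_const
    have h3 := contDiff_fst.comp_contDiffOn (h1.comp h2 (fun t ht => (key t ht).1))
    have h4 : ContDiffOn ℝ ∞ c (Metric.ball t₀ ε) := h3.congr fun t ht => by
      simp only [Function.comp]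
      rw [(key t ht).2]
    exact (h4.contDiffAt (Metric.isOpen_ball.mem_nhds (Metric.mem_ball_self hε))).contDiffWithinAt
  · have hder : deriv c =ᶠ[𝓝 t] w := by
      filter_upwards [hI.mem_nhds ht] with u hu using (hc u hu).2.deriv
    unfold covD
    rw [hder.deriv_eq, (hw t ht).deriv, (hc t ht).2.deriv, neg_add_cancel]

end RGeo
end Claimed.Agent.R316
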